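import Crest.Agent.R176.Machine.Run
import Crest.Agent.R176.QAlg206

/-!
# Row 176, part A: configurations of full blocks (soundness, block (5); helper845)

* `BSt Λ` : abstract state of a full block: content, engagement with the block on the left
  (`st = none` idle, `some (φ, d)` : the next contact is the contact of phase `φ ≠ 0`, data `d`),
  lock (`lk` : the mark of `H` is `l`, i.e. the block on the right is engaged with this block).
* `Own c st lk w a e b o` : wall `(w, a)`, head `(e, b)`, `o` = letter whose label is out.
* `Conf s B` : the word `B` is a full block in the abstract state `s`.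
* `Mac ss v` : the word `v` over `Let (Λ × Λ)` is the value of the list of abstract states `ss`.
-/

set_option autoImplicit false

namespace Crest.Agent.R176.Machine

open Crest.Agent.R176.QAlg206 (WEq IsZ Mv)

/-- abstract state of a full block -/
@[ext] structure BSt (Λ : Type) where
  c : Cont Λ
  st : Option (Ph × Data)
  lk : Bool

section defs
variable {Λ : Type}

/-- engagement before the contact of phase `φ` -/
def cur (φ : Ph) (d : Data) : Option (Ph × Data) := if φ = 0 then none else some (φ, d)
/-- engagement after the contact of phase `φ` -/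
def nxt (φ : Ph) (d : Data) : Option (Ph × Data) := if φ = 10 then none else some (φ + 1, d)

/-- the mark of `H` when the label of `H` is not out -/
def hmark (st : Option (Ph × Data)) (lk : Bool) : HM :=
  match st with
  | some _ => .b
  | none => if lk then .l else .f

/-- the letter `H` of the bag -/
def letH [LabelSys Λ] (c : Cont Λ) (m : HM) (o : Option TT) : BK × Λ :=
  if o = some .H then (.H .o, z) else (.H m, c.h)

/-- the letter `Y j` of the bag -/
def letY [LabelSys Λ] (c : Cont Λ) (j : Bool) (o : Option TT) : BK × Λ :=
  if o = some (.Y j) then (.Y j true, z) else (.Y j false, c.get (.Y j))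

/-- the bag letters of a full block -/
def bagM [Fintype Λ] [LabelSys Λ] (c : Cont Λ) (m : HM) (o : Option TT) : Multiset (BK × Λ) :=
  letH c m o ::ₘ letY c false o ::ₘ letY c true o ::ₘ
    (Finset.univ : Finset Λ).val.map fun a => (BK.X, a)

/-- the possible walls and heads of a full block -/
inductive Own [LabelSys Λ] (c : Cont Λ) :
    Option (Ph × Data) → Bool → WK → Λ → EK → Λ → Option TT → Prop
  /-- at rest -/
  | rest (lk : Bool) : Own c none lk .w0 z .home z none
  /-- the head goes to the target -/
  | G (φ : Ph) (d : Data) (lk : Bool) (h : lk = true → φ = 0) :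
      Own c (cur φ d) lk (.A φ d) z (.G φ) z none
  /-- the head comes back with the label -/
  | K (φ : Ph) (d : Data) : Own c (cur φ d) false (.A φ d) z (.K φ) (c.get (tz φ)) (some (tz φ))
  /-- the label is in the wall, before the contact -/
  | C (φ : Ph) (d : Data) : Own c (cur φ d) false (.C φ d) (c.get (tz φ)) (.N φ) z (some (tz φ))
  /-- the label is in the wall, after the contact -/
  | D (φ : Ph) (d : Data) : Own c (nxt φ d) false (.D φ d) (c.get (tz φ)) (.N φ) z (some (tz φ))
  /-- the head brings the label back -/
  | P (φ : Ph) (d : Data) : Own c (nxt φ d) false (.B φ d) z (.P φ) (c.get (tz φ)) (some (tz φ))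
  /-- the head returns -/
  | R (φ : Ph) (d : Data) (lk : Bool) (h : lk = true → φ = 10) :
      Own c (nxt φ d) lk (.B φ d) z (.R φ) z none
  /-- test, idle context -/
  | Ti (t : TT) (b : Λ) (lk : Bool) (h : t ≠ .X → b = z) :
      Own c none lk (.S t none) z (.T t false) b none
  /-- test, busy context -/
  | Tb (t : TT) (b : Λ) (φ : Ph) (d : Data) (hφ : φ ≠ 0) (h : t ≠ .X → b = z) :
      Own c (some (φ, d)) false (.S t (some (φ, d))) z (.T t true) b none

/-- the head `(e, b)` can pass the letter `x` (which is consistent with `e`) -/
def Passable (e : EK) (b : Λ) (x : BK × Λ) : Prop :=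
  e.moving = true ∧ (e.target = some .X → x ≠ (.X, b)) ∧ (e.target ≠ some .X → e.target ≠ some x.1.ty)

/-- bag letters on the side `u` -/
def bg (u : Bool) (x : BK × Λ) : Let Λ := (.bag u x.1, x.2)

/-- the word of a block: wall, passed letters, head, unpassed letters -/
def bword (w : WK) (a : Λ) (P : List (BK × Λ)) (e : EK) (b : Λ) (U : List (BK × Λ)) :
    List (Let Λ) :=
  (.W w, a) :: (P.map (bg false) ++ (.E e, b) :: U.map (bg true))

/-- `B` is a full block in the abstract state `s` -/
def Conf [Fintype Λ] [LabelSys Λ] (s : BSt Λ) (B : List (Let Λ)) : Prop :=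
  ∃ (w : WK) (a : Λ) (e : EK) (b : Λ) (o : Option TT) (P U : List (BK × Λ)),
    B = bword w a P e b U ∧ Own s.c s.st s.lk w a e b o ∧
      ((P ++ U : List (BK × Λ)) : Multiset (BK × Λ)) = bagM s.c (hmark s.st s.lk) o ∧
      ∀ x ∈ P, Passable e b x

/-- the phases from `φ` on -/
def phFrom (φ : Ph) : List Ph := allPh.filter fun ψ => φ ≤ ψ

/-- the word over the letters of the next level represented by a list of abstract states -/
inductive Mac [DecidableEq Λ] [LabelSys Λ] : List (BSt Λ) → List (Let (Λ × Λ)) → Prop
  | nil : Mac [] []
  | one (x : Let (Λ × Λ)) (ss : List (BSt Λ)) (v : List (Let (Λ × Λ))) (h : Mac ss v) :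
      Mac (⟨cont x, none, false⟩ :: ss) (x :: v)
  | two (a b : Cont Λ) (φ : Ph) (hφ : φ ≠ 0) (d : Data) (x y : Let (Λ × Λ))
      (hr : runL (phFrom φ) d a b = some (cont x, cont y))
      (ss : List (BSt Λ)) (v : List (Let (Λ × Λ))) (h : Mac ss v) :
      Mac (⟨a, none, true⟩ :: ⟨b, some (φ, d), false⟩ :: ss) (x :: y :: v)

end defs

/-! ### nonvanishing from closed predicates -/

section closed
variable {L : Type} {st : L → L → Option (L × L)}

/-- a predicate on words which is closed under the moves (both directions) and contains no word
with a zero pair: all its words are nonzero -/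
theorem not_isZ_of_closed (P : List L → Prop)
    (hm : ∀ (p s : List L) (a b a' b' : L), st a b = some (a', b') →
      (P (p ++ a :: b :: s) ↔ P (p ++ a' :: b' :: s)))
    (hz : ∀ (p s : List L) (a b : L), st a b = none → ¬ P (p ++ a :: b :: s))
    {w : List L} (hw : P w) : ¬ IsZ st w := by
  intro h
  have := WEq.inv (step := st) (fun x => ∃ w, x = some w ∧ P w) ?_ h
  · have h1 : ∃ w', (some w : Option (List L)) = some w' ∧ P w' := ⟨w, rfl, hw⟩
    have h2 : ∃ w', (none : Option (List L)) = some w' ∧ P w' := by
      have := congrArg id this
      simpa using this.mp h1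
    obtain ⟨_, h3, _⟩ := h2
    exact absurd h3 (by simp)
  · intro x y hxy
    cases hxy with
    | move p s h =>
      have := hm p s _ _ _ _ h
      simpa using this
    | zero p s h =>
      have := hz p s _ _ h
      simpa using this

end closed

set_option linter.unusedVariables false in
/-- forces the equation lemmas to be generated in this module -/
theorem force_eqns_Conf : True := by
  have _ := @Crest.Agent.R176.Machine.bword.eq_1
  have _ := @Crest.Agent.R176.Machine.cur.eq_1
  have _ := @Crest.Agent.R176.Machine.hmark.eq_1
  have _ := @Crest.Agent.R176.Machine.hmark.eq_2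
  have _ := @Crest.Agent.R176.Machine.letH.eq_1
  have _ := @Crest.Agent.R176.Machine.letY.eq_1
  have _ := @Crest.Agent.R176.Machine.nxt.eq_1
  trivial

end Crest.Agent.R176.Machine
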