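import Crest.Agent.R176.Machine.Conf845

/-!
# Row 176, part A: boundary facts on configurations of full blocks (helper845)
-/

set_option autoImplicit false

namespace Crest.Agent.R176.Machine

open Crest.Agent.R176.QAlg206 (WEq IsZ Mv)

variable {Λ : Type}

/-! ### contents -/

theorem Cont.get_set_self (c : Cont Λ) (t : TT) (a : Λ) : (c.set t a).get t = a := by
  rcases t with _ | _ | j <;> (try cases j) <;> rfl

theorem Cont.get_set_ne (c : Cont Λ) {t t' : TT} (h : t ≠ t') (ht : t ≠ .X) (ht' : t' ≠ .X) (a : Λ) :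
    (c.set t a).get t' = c.get t' := by
  rcases t with _ | _ | j <;> (try cases j) <;> rcases t' with _ | _ | j' <;> (try cases j') <;>
    simp_all [Cont.get, Cont.set]

theorem Cont.set_get (c : Cont Λ) (t : TT) : c.set t (c.get t) = c := by
  rcases t with _ | _ | j <;> (try cases j) <;> rfl

theorem Cont.set_set (c : Cont Λ) (t : TT) (a b : Λ) : (c.set t a).set t b = c.set t b := by
  rcases t with _ | _ | j <;> (try cases j) <;> rfl

theorem tz_ne_X (φ : Ph) : tz φ ≠ .X := by
  unfold tz; split_ifs <;> simp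

/-! ### cur, nxt, hmark -/

theorem cur_zero (d : Data) : cur 0 d = none := rfl
theorem nxt_ten (d : Data) : nxt 10 d = none := rfl
theorem cur_ne {φ : Ph} (h : φ ≠ 0) (d : Data) : cur φ d = some (φ, d) := by simp [cur, h]
theorem nxt_ne {φ : Ph} (h : φ ≠ 10) (d : Data) : nxt φ d = some (φ + 1, d) := by simp [nxt, h]
theorem cur_eq_none {φ : Ph} {d : Data} : cur φ d = none ↔ φ = 0 := by
  unfold cur; split_ifs <;> simp_all
theorem nxt_eq_none {φ : Ph} {d : Data} : nxt φ d = none ↔ φ = 10 := by
  unfold nxt; split_ifs <;> simp_all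

theorem succ_ne_zero_of_ne_ten : ∀ φ : Ph, φ ≠ 10 → φ + 1 ≠ 0 := by decide

theorem nxt_eq_cur {φ : Ph} (h : φ ≠ 10) (d : Data) : nxt φ d = cur (φ + 1) d := by
  rw [nxt_ne h, cur_ne (succ_ne_zero_of_ne_ten φ h)]

theorem tz_eq_H_of_zero : tz 0 = .H := by decide
theorem tz_eq_H_of_ten : tz 10 = .H := by decide

/-- if the target is not `H`, the block is busy before and after the contact -/
theorem phase_of_tz {φ : Ph} (h : tz φ ≠ .H) : φ ≠ 0 ∧ φ ≠ 10 := by
  revert φ; decide

theorem hmark_some (p : Ph × Data) (lk : Bool) : hmark (some p) lk = .b := rfl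
theorem hmark_none (lk : Bool) : hmark none lk = if lk then .l else .f := rfl

variable [LabelSys Λ]

/-! ### the bag -/

theorem letH_out (c : Cont Λ) (m : HM) : letH c m (some .H) = (.H .o, z) := rfl
theorem letH_in (c : Cont Λ) (m : HM) {o : Option TT} (h : o ≠ some .H) :
    letH c m o = (.H m, c.h) := by simp [letH, h]
theorem letY_out (c : Cont Λ) (j : Bool) : letY c j (some (.Y j)) = (.Y j true, z) := by
  simp [letY]
theorem letY_in (c : Cont Λ) (j : Bool) {o : Option TT} (h : o ≠ some (.Y j)) :
    letY c j o = (.Y j false, c.get (.Y j)) := by simp [letY, h]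

theorem letH_ty (c : Cont Λ) (m : HM) (o : Option TT) : (letH c m o).1.ty = .H := by
  unfold letH; split_ifs <;> rfl
theorem letY_ty (c : Cont Λ) (j : Bool) (o : Option TT) : (letY c j o).1.ty = .Y j := by
  unfold letY; split_ifs <;> rfl

theorem letY_set_ne (c : Cont Λ) {t : TT} (j : Bool) (h : t ≠ .Y j) (ht : t ≠ .X) (a : Λ)
    (o : Option TT) : letY (c.set t a) j o = letY c j o := by
  unfold letY
  rw [Cont.get_set_ne c h ht (by simp)]

theorem letH_set_ne (c : Cont Λ) (m : HM) {t : TT} (h : t ≠ .H) (ht : t ≠ .X) (a : Λ)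
    (o : Option TT) : letH (c.set t a) m o = letH c m o := by
  unfold letH
  have := Cont.get_set_ne c h ht (by simp) a
  simp only [Cont.get] at this
  rw [this]

variable [Fintype Λ]

theorem mem_bagM {c : Cont Λ} {m : HM} {o : Option TT} {x : BK × Λ} :
    x ∈ bagM c m o ↔ x = letH c m o ∨ x = letY c false o ∨ x = letY c true o ∨ x.1 = .X := by
  unfold bagM
  simp only [Multiset.mem_cons, Multiset.mem_map, Finset.mem_val, Finset.mem_univ, true_and]
  constructor
  · rintro (h | h | h | ⟨a, rfl⟩)
    · exact Or.inl h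
    · exact Or.inr (Or.inl h)
    · exact Or.inr (Or.inr (Or.inl h))
    · exact Or.inr (Or.inr (Or.inr rfl))
  · rintro (h | h | h | h)
    · exact Or.inl h
    · exact Or.inr (Or.inl h)
    · exact Or.inr (Or.inr (Or.inl h))
    · exact Or.inr (Or.inr (Or.inr ⟨x.2, by rw [← h]⟩))

theorem letter_H {c : Cont Λ} {m : HM} {o : Option TT} {x : BK × Λ} (h : x ∈ bagM c m o)
    (ht : x.1.ty = .H) : x = letH c m o := by
  rcases mem_bagM.1 h with h | h | h | h
  · exact h
  · rw [h, letY_ty] at ht; exact absurd ht (by simp)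
  · rw [h, letY_ty] at ht; exact absurd ht (by simp)
  · rw [h] at ht; exact absurd ht (by simp [BK.ty])

theorem letter_Y {c : Cont Λ} {m : HM} {o : Option TT} {x : BK × Λ} {j : Bool}
    (h : x ∈ bagM c m o) (ht : x.1.ty = .Y j) : x = letY c j o := by
  rcases mem_bagM.1 h with h | h | h | h
  · rw [h, letH_ty] at ht; exact absurd ht (by simp)
  · have := ht; rw [h, letY_ty] at this; cases this; exact h
  · have := ht; rw [h, letY_ty] at this; cases this; exact h
  · rw [h] at ht; exact absurd ht (by simp [BK.ty])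

theorem letH_mem (c : Cont Λ) (m : HM) (o : Option TT) : letH c m o ∈ bagM c m o :=
  mem_bagM.2 (Or.inl rfl)
theorem letY_mem (c : Cont Λ) (m : HM) (j : Bool) (o : Option TT) : letY c j o ∈ bagM c m o := by
  rw [mem_bagM]; cases j <;> simp
theorem X_mem (c : Cont Λ) (m : HM) (o : Option TT) (a : Λ) : ((BK.X, a) : BK × Λ) ∈ bagM c m o :=
  mem_bagM.2 (Or.inr (Or.inr (Or.inr rfl)))

theorem card_bagM (c : Cont Λ) (m : HM) (o : Option TT) :
    Multiset.card (bagM c m o) = Fintype.card Λ + 3 := by
  unfold bagM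
  rw [Multiset.card_cons, Multiset.card_cons, Multiset.card_cons, Multiset.card_map]
  rfl

/-- the part of the bag without the letter of type `t` (`t = H` or `t = Y j`) -/
def bagR (c : Cont Λ) (m : HM) (o : Option TT) : TT → Multiset (BK × Λ)
  | .H => letY c false o ::ₘ letY c true o ::ₘ (Finset.univ : Finset Λ).val.map fun a => (BK.X, a)
  | .Y j => letH c m o ::ₘ letY c (!j) o ::ₘ (Finset.univ : Finset Λ).val.map fun a => (BK.X, a)
  | .X => ∅

theorem bagM_H (c : Cont Λ) (m : HM) (o : Option TT) : bagM c m o = letH c m o ::ₘ bagR c m o .H := rfl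
theorem bagM_Y (c : Cont Λ) (m : HM) (o : Option TT) (j : Bool) :
    bagM c m o = letY c j o ::ₘ bagR c m o (.Y j) := by
  cases j
  · show letH c m o ::ₘ letY c false o ::ₘ letY c true o ::ₘ _ = _
    rw [Multiset.cons_swap]; rfl
  · show letH c m o ::ₘ letY c false o ::ₘ letY c true o ::ₘ _ =
      letY c true o ::ₘ letH c m o ::ₘ letY c false o ::ₘ _
    rw [Multiset.cons_swap (letY c true o), Multiset.cons_swap (letY c true o)]

/-- the rest of the bag does not see the label of the letter `t` -/
theorem bagR_H (c : Cont Λ) (m m' : HM) (a : Λ) (o : Option TT) :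
    bagR (c.set .H a) m' o .H = bagR c m o .H := by
  show letY _ false o ::ₘ letY _ true o ::ₘ _ = letY _ false o ::ₘ letY _ true o ::ₘ _
  rw [letY_set_ne c _ (by simp) (by simp), letY_set_ne c _ (by simp) (by simp)]

theorem bagR_Y (c : Cont Λ) (m : HM) (j : Bool) (a : Λ) (o : Option TT) :
    bagR (c.set (.Y j) a) m o (.Y j) = bagR c m o (.Y j) := by
  show letH _ m o ::ₘ letY _ (!j) o ::ₘ _ = letH _ m o ::ₘ letY _ (!j) o ::ₘ _
  rw [letH_set_ne c _ (by simp) (by simp),
    letY_set_ne c _ (by intro h; cases j <;> exact absurd h (by simp)) (by simp)]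

/-- the whole bag does not see the label of the letter which is out -/
theorem bagM_set_out (c : Cont Λ) (m : HM) {t : TT} (ht : t ≠ .X) (a : Λ) :
    bagM (c.set t a) m (some t) = bagM c m (some t) := by
  rcases t with _ | _ | j
  · exact absurd rfl ht
  · rw [bagM_H, bagM_H, bagR_H c m m]; rfl
  · rw [bagM_Y _ _ _ j, bagM_Y _ _ _ j, bagR_Y, letY_out, letY_out]

theorem bagM_hmark_out (c : Cont Λ) (m m' : HM) : bagM c m (some .H) = bagM c m' (some .H) := rfl

/-! ### walls and heads -/

omit [Fintype Λ]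

/-- the letter which is out, from the mode of the head -/
def outOf (e : EK) : Option TT := e.outPh.map tz

theorem Own.o_eq {c : Cont Λ} {st lk w a e b o} (h : Own c st lk w a e b o) : o = outOf e := by
  cases h <;> rfl

theorem Own.congr {c c' : Cont Λ} {st lk w a e b o} (h : Own c st lk w a e b o)
    (hc : ∀ t, o = some t → c'.get t = c.get t) : Own c' st lk w a e b o := by
  cases h with
  | rest lk => exact .rest lk
  | G φ d lk h => exact .G φ d lk h
  | K φ d => rw [← hc _ rfl]; exact .K φ d
  | C φ d => rw [← hc _ rfl]; exact .C φ d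
  | D φ d => rw [← hc _ rfl]; exact .D φ d
  | P φ d => rw [← hc _ rfl]; exact .P φ d
  | R φ d lk h => exact .R φ d lk h
  | Ti t b lk h => exact .Ti t b lk h
  | Tb t b φ d hφ h => exact .Tb t b φ d hφ h

theorem Own.of_lk {c : Cont Λ} {st w a e b o} (h : Own c st true w a e b o) :
    st = none ∧ o = none := by
  cases h with
  | rest lk => exact ⟨rfl, rfl⟩
  | G φ d lk h => rw [h rfl]; exact ⟨rfl, rfl⟩
  | R φ d lk h => rw [h rfl]; exact ⟨rfl, rfl⟩
  | Ti t b lk h => exact ⟨rfl, rfl⟩

theorem Own.relock {c : Cont Λ} {st lk w a e b o} (h : Own c st lk w a e b o) (hst : st = none)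
    (ho : o ≠ some .H) (lk' : Bool) : Own c st lk' w a e b o := by
  cases h with
  | rest lk => exact .rest lk'
  | G φ d lk h => exact .G φ d lk' (fun _ => cur_eq_none.1 hst)
  | K φ d => rw [cur_eq_none.1 hst] at ho; exact absurd rfl ho
  | C φ d => rw [cur_eq_none.1 hst] at ho; exact absurd rfl ho
  | D φ d => rw [nxt_eq_none.1 hst] at ho; exact absurd rfl ho
  | P φ d => rw [nxt_eq_none.1 hst] at ho; exact absurd rfl ho
  | R φ d lk h => exact .R φ d lk' (fun _ => nxt_eq_none.1 hst)
  | Ti t b lk h => exact .Ti t b lk' h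
  | Tb t b φ d hφ h => exact absurd hst (by simp)

theorem Own.locked_eq {c : Cont Λ} {st lk w a e b o} (h : Own c st lk w a e b o) :
    locked w = st.isSome := by
  have hc : ∀ (φ : Ph) (d : Data), decide (φ ≠ 0) = (cur φ d).isSome := by
    intro φ d; unfold cur; split_ifs with h <;> simp [h]
  have hn : ∀ (φ : Ph) (d : Data), decide (φ ≠ 10) = (nxt φ d).isSome := by
    intro φ d; unfold nxt; split_ifs with h <;> simp [h]
  cases h with
  | rest lk => rfl
  | G φ d lk h => exact hc φ d
  | K φ d => exact hc φ d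
  | C φ d => exact hc φ d
  | D φ d => exact hn φ d
  | P φ d => exact hn φ d
  | R φ d lk h => exact hn φ d
  | Ti t b lk h => rfl
  | Tb t b φ d hφ h => simp [locked, hφ]

theorem Own.unique_aux {c c' : Cont Λ} {st st' lk lk' w a e b o w' a' e' b' o'}
    (h : Own c st lk w a e b o)
    (h' : Own c' st' lk' w' a' e' b' o') (hw : w = w') (ha : a = a') (he : e = e') (hb : b = b') :
    st = st' ∧ (∀ t, o = some t → c.get t = c'.get t) ∧ (o = some .H → lk = lk') := by
  cases h <;> cases h' <;> first
    | (simp at hw; done)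
    | (simp at he; done)
    | skip
  all_goals
    refine ⟨?_, ?_, ?_⟩ <;> simp_all

theorem Own.unique {c c' : Cont Λ} {st st' lk lk' w a e b o o'} (h : Own c st lk w a e b o)
    (h' : Own c' st' lk' w a e b o') :
    st = st' ∧ (∀ t, o = some t → c.get t = c'.get t) ∧ (o = some .H → lk = lk') :=
  h.unique_aux h' rfl rfl rfl rfl

variable [Fintype Λ]

omit [Fintype Λ] [LabelSys Λ] in
theorem coe_concat {α : Type} (l : List α) (x : α) :
    ((l ++ [x] : List α) : Multiset α) = x ::ₘ (l : Multiset α) := by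
  rw [Multiset.cons_coe, Multiset.coe_eq_coe]
  exact List.perm_append_singleton x l

/-- some letter of the bag is not passable -/
theorem exists_not_passable (c : Cont Λ) (m : HM) (o : Option TT) (e : EK) (b : Λ) :
    ∃ x ∈ bagM c m o, ¬ Passable e b x := by
  unfold Passable
  cases ht : e.target with
  | none => exact ⟨_, letH_mem c m o, by simp [EK.moving, ht]⟩
  | some t =>
    rcases t with _ | _ | j
    · exact ⟨_, X_mem c m o b, by simp⟩
    · exact ⟨_, letH_mem c m o, by simp [letH_ty]⟩
    · exact ⟨_, letY_mem c m j o, by simp [letY_ty]⟩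

/-- the last letter of a block is an unpassed bag letter -/
theorem Conf.last {s : BSt Λ} {q : List (Let Λ)} {x : Let Λ} (h : Conf s (q ++ [x])) :
    ∃ (w : WK) (a : Λ) (e : EK) (b : Λ) (o : Option TT) (P U : List (BK × Λ)) (x0 : BK × Λ),
      q = (.W w, a) :: (P.map (bg false) ++ (.E e, b) :: U.map (bg true)) ∧ x = bg true x0 ∧
      Own s.c s.st s.lk w a e b o ∧
      (x0 ::ₘ ((P ++ U : List (BK × Λ)) : Multiset (BK × Λ))) = bagM s.c (hmark s.st s.lk) o ∧
      ∀ y ∈ P, Passable e b y := by
  obtain ⟨w, a, e, b, o, P, U, hB, hO, hM, hP⟩ := h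
  rcases List.eq_nil_or_concat U with rfl | ⟨U', x0, rfl⟩
  · exfalso
    obtain ⟨y, hy, hn⟩ := exists_not_passable s.c (hmark s.st s.lk) o e b
    rw [← hM] at hy
    simp only [List.append_nil, Multiset.mem_coe] at hy
    exact hn (hP y hy)
  · rw [List.concat_eq_append] at hB hM
    have hb : bword w a P e b (U' ++ [x0]) =
        ((.W w, a) :: (P.map (bg false) ++ (.E e, b) :: U'.map (bg true))) ++ [bg true x0] := by
      simp [bword]
    rw [hb] at hB
    refine ⟨w, a, e, b, o, P, U', x0, (List.append_inj' hB rfl).1, ?_, hO, ?_, hP⟩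
    · simpa using (List.append_inj' hB rfl).2
    · rw [← hM, ← List.append_assoc, coe_concat]

/-- rebuild a block from its last letter -/
theorem Conf.of_last {s : BSt Λ} {w : WK} {a : Λ} {e : EK} {b : Λ} {o : Option TT}
    {P U : List (BK × Λ)} {x0 : BK × Λ}
    (hO : Own s.c s.st s.lk w a e b o)
    (hM : (x0 ::ₘ ((P ++ U : List (BK × Λ)) : Multiset (BK × Λ))) = bagM s.c (hmark s.st s.lk) o)
    (hP : ∀ y ∈ P, Passable e b y) :
    Conf s (((.W w, a) :: (P.map (bg false) ++ (.E e, b) :: U.map (bg true))) ++ [bg true x0]) := by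
  refine ⟨w, a, e, b, o, P, U ++ [x0], ?_, hO, ?_, hP⟩
  · unfold bword
    simp
  · rw [← hM, ← List.append_assoc, coe_concat]

/-- the last letter is `Y j` with its label in -/
theorem conf_lastY {s : BSt Λ} {q : List (Let Λ)} {u j : Bool} {α : Λ}
    (h : Conf s (q ++ [(.bag u (.Y j false), α)])) :
    u = true ∧ α = s.c.get (.Y j) ∧
      ∀ β, Conf ⟨s.c.set (.Y j) β, s.st, s.lk⟩ (q ++ [(.bag true (.Y j false), β)]) := by
  obtain ⟨w, a, e, b, o, P, U, x0, hq, hx, hO, hM, hP⟩ := h.last
  obtain ⟨k0, l0⟩ := x0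
  simp only [bg, Prod.mk.injEq, KK.bag.injEq] at hx
  obtain ⟨⟨rfl, rfl⟩, rfl⟩ := hx
  have hmem : ((BK.Y j false, α) : BK × Λ) ∈ bagM s.c (hmark s.st s.lk) o := by
    rw [← hM]; exact Multiset.mem_cons_self _ _
  have hl := letter_Y hmem (j := j) rfl
  have ho : o ≠ some (.Y j) := by
    rintro rfl
    rw [letY_out] at hl
    exact absurd hl (by simp)
  rw [letY_in _ _ ho] at hl
  have hα : α = s.c.get (.Y j) := (Prod.mk.inj hl).2
  refine ⟨rfl, hα, fun β => ?_⟩
  subst hq
  have hM' : ((P ++ U : List (BK × Λ)) : Multiset (BK × Λ)) =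
      bagR s.c (hmark s.st s.lk) o (.Y j) := by
    rw [bagM_Y _ _ _ j, letY_in _ _ ho, ← hα, Multiset.cons_inj_right] at hM
    exact hM
  refine Conf.of_last (x0 := (BK.Y j false, β)) (o := o) ?_ ?_ hP
  · refine hO.congr ?_
    intro t ht
    have htX : t ≠ .X := by
      have := hO.o_eq
      rw [ht] at this
      unfold outOf at this
      rcases hp : e.outPh with _ | φ
      · rw [hp] at this; simp at this
      · rw [hp] at this; simp at this; rw [this]; exact tz_ne_X φ
    exact Cont.get_set_ne _ (by rintro rfl; exact ho ht) (by simp) htX _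
  · show _ = bagM (s.c.set (.Y j) β) _ _
    rw [bagM_Y _ _ _ j, letY_in _ _ ho, bagR_Y, hM', Cont.get_set_self]

/-- the last letter is `H` -/
theorem conf_lastH {s : BSt Λ} {q : List (Let Λ)} {u : Bool} {m : HM} {α : Λ}
    (h : Conf s (q ++ [(.bag u (.H m), α)])) :
    u = true ∧ (m = .l ↔ s.lk = true) ∧ (m = .f ∨ m = .l → s.st = none ∧ α = s.c.h ∧
      ∀ β lk', Conf ⟨s.c.set .H β, none, lk'⟩
        (q ++ [(.bag true (.H (if lk' then .l else .f)), β)])) := by
  obtain ⟨w, a, e, b, o, P, U, x0, hq, hx, hO, hM, hP⟩ := h.last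
  obtain ⟨k0, l0⟩ := x0
  simp only [bg, Prod.mk.injEq, KK.bag.injEq] at hx
  obtain ⟨⟨rfl, rfl⟩, rfl⟩ := hx
  have hmem : ((BK.H m, α) : BK × Λ) ∈ bagM s.c (hmark s.st s.lk) o := by
    rw [← hM]; exact Multiset.mem_cons_self _ _
  have hl := letter_H hmem rfl
  refine ⟨rfl, ?_, ?_⟩
  · constructor
    · rintro rfl
      have ho : o ≠ some .H := by
        rintro rfl
        rw [letH_out] at hl
        exact absurd hl (by simp)
      rw [letH_in _ _ ho] at hl
      have hm := (Prod.mk.inj hl).1
      simp only [BK.H.injEq] at hm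
      cases hst : s.st with
      | some p => rw [hst, hmark_some] at hm; exact absurd hm (by simp)
      | none =>
        rw [hst, hmark_none] at hm
        by_contra hlk
        simp [hlk] at hm
    · intro hlk
      have h2 := hO
      rw [hlk] at h2
      obtain ⟨hst, rfl⟩ := h2.of_lk
      rw [letH_in _ _ (by simp)] at hl
      have hm := (Prod.mk.inj hl).1
      simp only [BK.H.injEq] at hm
      rw [hst, hlk, hmark_none] at hm
      simpa using hm
  · intro hm
    have ho : o ≠ some .H := by
      rintro rfl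
      rw [letH_out] at hl
      have := (Prod.mk.inj hl).1
      simp only [BK.H.injEq] at this
      rw [this] at hm; simp at hm
    rw [letH_in _ _ ho] at hl
    have hm2 := (Prod.mk.inj hl).1
    simp only [BK.H.injEq] at hm2
    have hα : α = s.c.h := (Prod.mk.inj hl).2
    have hst : s.st = none := by
      cases hst : s.st with
      | none => rfl
      | some p => rw [hst, hmark_some] at hm2; rw [hm2] at hm; simp at hm
    refine ⟨hst, hα, fun β lk' => ?_⟩
    subst hq
    have hM' : ((P ++ U : List (BK × Λ)) : Multiset (BK × Λ)) =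
        bagR s.c (hmark s.st s.lk) o .H := by
      rw [bagM_H, letH_in _ _ ho, ← hα, ← hm2, Multiset.cons_inj_right] at hM
      exact hM
    have key : Conf ⟨s.c.set .H β, none, lk'⟩
        (((.W w, a) :: (P.map (bg false) ++ (.E e, b) :: U.map (bg true))) ++
          [bg true (BK.H (if lk' then .l else .f), β)]) := by
      refine Conf.of_last (o := o) ?_ ?_ hP
      · have h1 := hO.relock hst ho lk'
        rw [hst] at h1
        refine h1.congr ?_
        intro t ht
        have htX : t ≠ .X := by
          have := hO.o_eq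
          rw [ht] at this
          unfold outOf at this
          rcases hp : e.outPh with _ | φ
          · rw [hp] at this; simp at this
          · rw [hp] at this; simp at this; rw [this]; exact tz_ne_X φ
        exact Cont.get_set_ne _ (by rintro rfl; exact ho ht) (by simp) htX _
      · show _ = bagM (s.c.set .H β) (hmark none lk') _
        rw [bagM_H, letH_in _ _ ho, bagR_H s.c (hmark s.st s.lk), hM', hmark_none]
        rfl
    exact key

end Crest.Agent.R176.Machine
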