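import Crest.Agent.R176.Machine.ConfIn291B

/-!
# Row 176, part A, block (5B-IN): moves inside one block (helper291)

`conf_step_ne_none`, `conf_forward`, `conf_backward`.
-/

set_option autoImplicit false
set_option linter.unusedSectionVars false
set_option linter.unusedSimpArgs false
set_option linter.unusedVariables false

namespace Crest.Agent.R176.Machine

variable {Λ : Type} [DecidableEq Λ] [LabelSys Λ] [Fintype Λ]

/-! ### splitting the word of a block at an adjacent pair -/

/-- adjacent pairs in the word of a block -/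
inductive Split (w : WK) (a : Λ) (P : List (BK × Λ)) (e : EK) (b : Λ) (U : List (BK × Λ)) :
    List (Let Λ) → List (Let Λ) → Let Λ → Let Λ → Prop
  | WE (h : P = []) : Split w a P e b U [] (U.map (bg true)) (.W w, a) (.E e, b)
  | WB (x : BK × Λ) (P' : List (BK × Λ)) (h : P = x :: P') :
      Split w a P e b U [] (P'.map (bg false) ++ (.E e, b) :: U.map (bg true)) (.W w, a)
        (bg false x)
  | PP (P1 : List (BK × Λ)) (x y : BK × Λ) (P2 : List (BK × Λ)) (h : P = P1 ++ x :: y :: P2) :
      Split w a P e b U ((.W w, a) :: P1.map (bg false))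
        (P2.map (bg false) ++ (.E e, b) :: U.map (bg true)) (bg false x) (bg false y)
  | PE (P1 : List (BK × Λ)) (x : BK × Λ) (h : P = P1 ++ [x]) :
      Split w a P e b U ((.W w, a) :: P1.map (bg false)) (U.map (bg true)) (bg false x) (.E e, b)
  | EU (x : BK × Λ) (U' : List (BK × Λ)) (h : U = x :: U') :
      Split w a P e b U ((.W w, a) :: P.map (bg false)) (U'.map (bg true)) (.E e, b) (bg true x)
  | UU (U1 : List (BK × Λ)) (x y : BK × Λ) (U2 : List (BK × Λ)) (h : U = U1 ++ x :: y :: U2) :
      Split w a P e b U ((.W w, a) :: (P.map (bg false) ++ (.E e, b) :: U1.map (bg true)))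
        (U2.map (bg true)) (bg true x) (bg true y)

theorem pair_append {α : Type} {p q l1 l2 : List α} {x y : α} (h : l1 ++ l2 = p ++ x :: y :: q) :
    (∃ q', l1 = p ++ x :: y :: q' ∧ q = q' ++ l2) ∨ (l1 = p ++ [x] ∧ l2 = y :: q) ∨
      (∃ p', l2 = p' ++ x :: y :: q ∧ p = l1 ++ p') := by
  rcases List.append_eq_append_iff.1 h with ⟨c, h1, h2⟩ | ⟨c, h1, h2⟩
  · exact Or.inr (Or.inr ⟨c, h2, h1⟩)
  · cases c with
    | nil =>
      right; right
      refine ⟨[], ?_, ?_⟩
      · simpa using h2.symm
      · simpa using h1.symm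
    | cons x' c =>
      simp only [List.cons_append, List.cons.injEq] at h2
      obtain ⟨rfl, h2⟩ := h2
      cases c with
      | nil =>
        right; left
        simp only [List.nil_append] at h2
        exact ⟨h1, h2.symm⟩
      | cons y' c =>
        left
        simp only [List.cons_append, List.cons.injEq] at h2
        obtain ⟨rfl, h2⟩ := h2
        exact ⟨c, h1, h2⟩

theorem pair_map {α β : Type} {f : α → β} {l : List α} {p q : List β} {x y : β}
    (h : l.map f = p ++ x :: y :: q) :
    ∃ l1 x0 y0 l2, l = l1 ++ x0 :: y0 :: l2 ∧ l1.map f = p ∧ f x0 = x ∧ f y0 = y ∧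
      l2.map f = q := by
  obtain ⟨l1, l', rfl, h1, h2⟩ := List.map_eq_append_iff.1 h
  obtain ⟨x0, l'', rfl, h3, h4⟩ := List.map_eq_cons_iff.1 h2
  obtain ⟨y0, l2, rfl, h5, h6⟩ := List.map_eq_cons_iff.1 h4
  exact ⟨l1, x0, y0, l2, rfl, h1, h3, h5, h6⟩

theorem split_bword {w : WK} {a : Λ} {P : List (BK × Λ)} {e : EK} {b : Λ}
    {U : List (BK × Λ)} {p q : List (Let Λ)} {x y : Let Λ}
    (h : bword w a P e b U = p ++ x :: y :: q) : Split w a P e b U p q x y := by
  unfold bword at h
  have h' : [((KK.W w, a) : Let Λ)] ++ (P.map (bg false) ++ (.E e, b) :: U.map (bg true)) =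
      p ++ x :: y :: q := h
  rcases pair_append h' with ⟨q', h1, h2⟩ | ⟨h1, h2⟩ | ⟨p', h1, h2⟩
  · exfalso
    have := congrArg List.length h1
    simp at this
    omega
  · have hp : p = [] ∧ x = (KK.W w, a) := by
      cases p with
      | nil => simpa using h1.symm
      | cons u v =>
        exfalso
        have := congrArg List.length h1
        simp at this
    obtain ⟨rfl, rfl⟩ := hp
    cases P with
    | nil =>
      simp only [List.map_nil, List.nil_append, List.cons.injEq] at h2
      obtain ⟨rfl, rfl⟩ := h2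
      exact Split.WE rfl
    | cons x0 P' =>
      simp only [List.map_cons, List.cons_append, List.cons.injEq] at h2
      obtain ⟨rfl, rfl⟩ := h2
      exact Split.WB x0 P' rfl
  · subst h2
    rcases pair_append h1 with ⟨q', h3, rfl⟩ | ⟨h3, h4⟩ | ⟨p'', h3, rfl⟩
    · obtain ⟨l1, x0, y0, l2, rfl, rfl, rfl, rfl, rfl⟩ := pair_map h3
      exact Split.PP l1 x0 y0 l2 rfl
    · simp only [List.cons.injEq] at h4
      obtain ⟨rfl, rfl⟩ := h4
      obtain ⟨l1, l', rfl, rfl, h5⟩ := List.map_eq_append_iff.1 h3
      obtain ⟨x0, l'', rfl, rfl, h7⟩ := List.map_eq_cons_iff.1 h5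
      have : l'' = [] := by simpa using h7
      subst this
      exact Split.PE l1 x0 rfl
    · cases p'' with
      | nil =>
        simp only [List.nil_append, List.cons.injEq] at h3
        obtain ⟨rfl, h4⟩ := h3
        obtain ⟨x0, U', rfl, rfl, rfl⟩ := List.map_eq_cons_iff.1 h4
        simp only [List.append_nil]
        exact Split.EU x0 U' rfl
      | cons u v =>
        simp only [List.cons_append, List.cons.injEq] at h3
        obtain ⟨rfl, h4⟩ := h3
        obtain ⟨l1, x0, y0, l2, rfl, rfl, rfl, rfl, rfl⟩ := pair_map h4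
        exact Split.UU l1 x0 y0 l2 rfl

theorem coe_mid (P1 P2 : List (BK × Λ)) (x y : BK × Λ) (U : List (BK × Λ)) :
    (((P1 ++ x :: y :: P2) ++ U : List (BK × Λ)) : Multiset (BK × Λ)) =
      x ::ₘ y ::ₘ ((P1 ++ P2 ++ U : List (BK × Λ)) : Multiset (BK × Λ)) := by
  simp only [← Multiset.coe_add, ← Multiset.cons_coe]
  simp only [Multiset.add_cons, Multiset.cons_add, Multiset.cons_swap]

theorem coe_mid' (P : List (BK × Λ)) (U1 U2 : List (BK × Λ)) (x y : BK × Λ) :
    ((P ++ (U1 ++ x :: y :: U2) : List (BK × Λ)) : Multiset (BK × Λ)) =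
      x ::ₘ y ::ₘ ((P ++ (U1 ++ U2) : List (BK × Λ)) : Multiset (BK × Λ)) := by
  simp only [← Multiset.coe_add, ← Multiset.cons_coe]
  simp only [Multiset.add_cons, Multiset.cons_add, Multiset.cons_swap]

theorem coe_one (P U : List (BK × Λ)) (x : BK × Λ) :
    ((P ++ x :: U : List (BK × Λ)) : Multiset (BK × Λ)) =
      x ::ₘ ((P ++ U : List (BK × Λ)) : Multiset (BK × Λ)) := by
  simp only [← Multiset.coe_add, ← Multiset.cons_coe, Multiset.add_cons]

/-! ### the theorems -/

/-- walls next to a passed letter -/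
theorem own_moving {c : Cont Λ} {st : Option (Ph × Data)} {lk : Bool} {w : WK} {a : Λ}
    {e : EK} {b : Λ} {o : Option TT} (h : Own c st lk w a e b o) (hm : e.moving = true) :
    w ≠ .w0 ∧ (∀ φ d, w ≠ .C φ d) ∧ (∀ φ d, w ≠ .D φ d) := by
  cases h <;> simp [EK.moving, EK.target] at hm ⊢

/-- (O1) + (O2) -/
theorem conf_forward_aux {s : BSt Λ} {p q : List (Let Λ)} {x y : Let Λ}
    (h : Conf s (p ++ x :: y :: q)) :
    ∃ x' y', step x y = some (x', y') ∧ Conf s (p ++ x' :: y' :: q) := by
  obtain ⟨w, a, e, b, o, P, U, hB, hO, hM, hP⟩ := h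
  have hS := split_bword hB.symm
  cases hS with
  | WE hP0 =>
    subst hP0
    obtain ⟨w', a', e', b', hs, hO'⟩ := own_we_forward hO
    exact ⟨_, _, hs, w', a', e', b', o, [], U, rfl, hO', hM, by simp⟩
  | WB x0 P' hP0 =>
    subst hP0
    have hm : e.moving = true := (hP x0 (by simp)).1
    refine ⟨(.W w, a), bg false x0, ?_, w, a, e, b, o, x0 :: P', U, rfl, hO, hM, hP⟩
    rw [step_wb, if_pos ⟨rfl, own_moving hO hm⟩]
  | PP P1 x0 y0 P2 hP0 =>
    subst hP0
    have hM' := hM
    rw [coe_mid] at hM'
    have hcl := cl_ne hM'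
    refine ⟨bg false y0, bg false x0, ?_, w, a, e, b, o, P1 ++ y0 :: x0 :: P2, U, ?_, hO, ?_, ?_⟩
    · rw [step_bb, if_pos ⟨rfl, hcl⟩]
    · simp [bword]
    · rw [coe_mid, Multiset.cons_swap]; exact hM'
    · intro x hx
      apply hP
      simp only [List.mem_append, List.mem_cons] at hx ⊢
      tauto
  | PE P1 x0 hP0 =>
    subst hP0
    have hx0 : x0 ∈ bagM s.c (hmark s.st s.lk) o := by
      rw [← hM]; simp
    refine ⟨bg false x0, (.E e, b), ?_, w, a, e, b, o, P1 ++ [x0], U, ?_, hO, hM, hP⟩
    · exact step_be_pass (cons_of_mem hO hx0) (hP x0 (by simp))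
    · simp [bword]
  | EU x0 U' hU0 =>
    subst hU0
    have hM' := hM
    rw [coe_one] at hM'
    have hx0 : x0 ∈ bagM s.c (hmark s.st s.lk) o := by
      rw [← hM]; simp
    have hc := cons_of_mem hO hx0
    by_cases hp : Passable e b x0
    · refine ⟨_, _, step_eb_pass hc hp, w, a, e, b, o, P ++ [x0], U', ?_, hO, ?_, ?_⟩
      · simp [bword]
      · rw [← hM]; simp
      · intro x hx
        simp only [List.mem_append, List.mem_singleton] at hx
        rcases hx with hx | rfl
        · exact hP x hx
        · exact hp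
    · obtain ⟨e', b', x', o', hs, hO', hM2, hpass⟩ := own_eb_forward hO hM' hp
      refine ⟨_, _, hs, w, a, e', b', o', P, x' :: U', ?_, hO', ?_, ?_⟩
      · simp [bword]
      · rw [coe_one]; exact hM2
      · intro x hx; exact hpass x (hP x hx)
  | UU U1 x0 y0 U2 hU0 =>
    subst hU0
    have hM' := hM
    rw [coe_mid'] at hM'
    have hcl := cl_ne hM'
    refine ⟨bg true y0, bg true x0, ?_, w, a, e, b, o, P, U1 ++ y0 :: x0 :: U2, ?_, hO, ?_, hP⟩
    · rw [step_bb, if_pos ⟨rfl, hcl⟩]
    · simp [bword]
    · rw [coe_mid', Multiset.cons_swap]; exact hM'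

/-- no zero pair inside a block -/
theorem conf_step_ne_none {s : BSt Λ} {p q : List (Let Λ)} {x y : Let Λ}
    (h : Conf s (p ++ x :: y :: q)) : step x y ≠ none := by
  obtain ⟨x', y', hs, -⟩ := conf_forward_aux h
  rw [hs]; simp

/-- a move inside a block, forward -/
theorem conf_forward {s : BSt Λ} {p q : List (Let Λ)} {x y x' y' : Let Λ}
    (h : Conf s (p ++ x :: y :: q)) (hs : step x y = some (x', y')) :
    Conf s (p ++ x' :: y' :: q) := by
  obtain ⟨x1, y1, hs1, h1⟩ := conf_forward_aux h
  rw [hs] at hs1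
  simp only [Option.some.injEq, Prod.mk.injEq] at hs1
  obtain ⟨rfl, rfl⟩ := hs1
  exact h1

/-- result `(W, bag)` -/
theorem from_wb {x y : Let Λ} {w : WK} {a : Λ} {s : Bool} {t : BK × Λ}
    (hs : step x y = some ((.W w, a), bg s t)) : x = (.W w, a) ∧ y = bg s t := by
  obtain ⟨κ, a'⟩ := x
  obtain ⟨κ', b'⟩ := y
  cases κ with
  | bag s x =>
    cases κ' with
    | bag t y =>
      have := step_bb s t (x, a') (y, b')
      unfold bg at this
      rw [this] at hs
      split_ifs at hs
      simp at hs
    | E e =>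
      have := (step_be s (x, a') e b' _ hs).1
      simp [bg] at this
    | W w =>
      obtain ⟨⟨x', h1⟩, -⟩ := step_bw_kind hs
      simp at h1
  | E e =>
    cases κ' with
    | bag t y =>
      rcases step_eb_kind hs with ⟨⟨x', h1⟩, -⟩ | ⟨⟨x', h1⟩, -⟩ <;> simp at h1
    | E e => rw [step_ee] at hs; simp at hs
    | W w => rw [step_ew] at hs; simp at hs
  | W w =>
    cases κ' with
    | bag t y =>
      have := step_wb w a' t (y, b')
      unfold bg at this hs
      rw [this] at hs
      split_ifs at hs
      simp only [Option.some.injEq, Prod.mk.injEq, KK.W.injEq, KK.bag.injEq] at hs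
      obtain ⟨⟨rfl, rfl⟩, ⟨rfl, rfl⟩, rfl⟩ := hs
      exact ⟨rfl, rfl⟩
    | E e =>
      exfalso
      have h1 := step_shape hs
      simp only [rule] at h1
      revert h1
      cases w <;> cases e <;> simp only [ruleWE, Rule.zero, bg] <;> (try split_ifs) <;> simp
    | W w => rw [step_ww] at hs; simp at hs

/-- result `(bag, bag)` -/
theorem from_bb {x y : Let Λ} {s t : Bool} {u v : BK × Λ}
    (hs : step x y = some (bg s u, bg t v)) :
    s = t ∧ x = bg s v ∧ y = bg t u ∧ cl v ≠ cl u := by
  obtain ⟨κ, a'⟩ := x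
  obtain ⟨κ', b'⟩ := y
  cases κ with
  | bag s' x =>
    cases κ' with
    | bag t' y =>
      have := step_bb s' t' (x, a') (y, b')
      unfold bg at this hs
      rw [this] at hs
      split_ifs at hs with h
      simp only [Option.some.injEq, Prod.mk.injEq, KK.bag.injEq] at hs
      obtain ⟨⟨⟨rfl, h2⟩, h3⟩, ⟨h4, h5⟩, h6⟩ := hs
      obtain ⟨rfl, hcl⟩ := h
      have e1 : u = (y, b') := Prod.ext h2.symm h3.symm
      have e2 : v = (x, a') := Prod.ext h5.symm h6.symm
      subst e1 e2
      refine ⟨?_, rfl, ?_, hcl⟩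
      · exact h4
      · rw [← h4]; rfl
    | E e =>
      have := (step_be s' (x, a') e b' _ hs).1
      simp [bg] at this
    | W w =>
      obtain ⟨-, w', h1⟩ := step_bw_kind hs
      simp [bg] at h1
  | E e =>
    cases κ' with
    | bag t y =>
      rcases step_eb_kind hs with ⟨-, e', h1⟩ | ⟨⟨e', h1⟩, -⟩ <;> simp [bg] at h1
    | E e => rw [step_ee] at hs; simp at hs
    | W w => rw [step_ew] at hs; simp at hs
  | W w =>
    cases κ' with
    | bag t y =>
      have := step_wb w a' t (y, b')
      unfold bg at this hs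
      rw [this] at hs
      split_ifs at hs
      simp at hs
    | E e =>
      exfalso
      have h1 := step_shape hs
      simp only [rule] at h1
      revert h1
      cases w <;> cases e <;> simp only [ruleWE, Rule.zero, bg] <;> (try split_ifs) <;> simp
    | W w => rw [step_ww] at hs; simp at hs

/-- result `(bag, E)` -/
theorem from_be {x y : Let Λ} {s : Bool} {u : BK × Λ} {e : EK} {b : Λ}
    (hs : step x y = some (bg s u, (.E e, b))) :
    (x = bg s u ∧ y = (.E e, b)) ∨
      (s = false ∧ x = (.E e, b) ∧ y = bg true u ∧ cons e u.1 = true ∧ Passable e b u) := by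
  obtain ⟨κ, a'⟩ := x
  obtain ⟨κ', b'⟩ := y
  cases κ with
  | bag s' x =>
    cases κ' with
    | bag t' y =>
      have := step_bb s' t' (x, a') (y, b')
      unfold bg at this hs
      rw [this] at hs
      split_ifs at hs with h
      simp at hs
    | E e' =>
      left
      have := (step_be s' (x, a') e' b' _ hs).1
      simp only [Prod.mk.injEq] at this
      exact ⟨this.1.symm, by rw [Prod.mk.injEq]; exact ⟨this.2.1.symm, this.2.2.symm⟩⟩
    | W w =>
      obtain ⟨-, w', h1⟩ := step_bw_kind hs
      simp at h1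
  | E e' =>
    cases κ' with
    | bag t y =>
      right
      obtain ⟨rfl, hc⟩ := step_eb_some (x := (y, b')) hs
      by_cases hp : Passable e' a' (y, b')
      · have := step_eb_pass hc hp
        have hs' : step (.E e', a') (bg true (y, b')) = some (bg s u, (.E e, b)) := hs
        rw [this] at hs'
        simp only [bg, Option.some.injEq, Prod.mk.injEq, KK.bag.injEq, KK.E.injEq] at hs'
        obtain ⟨⟨⟨h1, h2⟩, h3⟩, rfl, rfl⟩ := hs'
        have e1 : u = (y, b') := Prod.ext h2.symm h3.symm
        subst e1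
        exact ⟨h1.symm, rfl, rfl, hc, hp⟩
      · exfalso
        have h2 := step_eb_not hc hp
        have hs' : step (.E e', a') (bg true (y, b')) = some (bg s u, (.E e, b)) := hs
        rw [h2] at hs'
        by_cases hq : e'.moving = true ∧ e'.target ≠ some .X
        · rw [if_pos hq] at hs'
          have hk : ∀ p, ((ruleTgt e' y).g0 = some p ∨ (ruleTgt e' y).g1 = some p) →
              ∃ e1, p.1 = .E e1 := by
            intro p hp'
            unfold ruleTgt at hp'
            cases e' <;> simp only [Rule.stay] at hp' <;> (try split_ifs at hp') <;>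
              simp at hp' <;> exact ⟨_, by rw [← hp']⟩
          by_cases he : (ruleTgt e' y).rd.eval a' b' = true
          · simp only [he, if_true, Option.map_eq_some_iff] at hs'
            obtain ⟨p, hp1, hp2⟩ := hs'
            obtain ⟨e1, h3⟩ := hk p (Or.inr hp1)
            simp only [Prod.mk.injEq, bg, h3] at hp2
            simp at hp2
          · simp only [he, if_false, Bool.false_eq_true, Option.bind_eq_some_iff,
              Option.map_eq_some_iff] at hs'
            obtain ⟨p, hp1, q, -, hp2⟩ := hs'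
            obtain ⟨e1, h3⟩ := hk p (Or.inl hp1)
            simp only [Prod.mk.injEq, bg, h3] at hp2
            simp at hp2
        · rw [if_neg hq] at hs'
          simp [bg] at hs'
    | E e => rw [step_ee] at hs; simp at hs
    | W w => rw [step_ew] at hs; simp at hs
  | W w =>
    cases κ' with
    | bag t y =>
      have := step_wb w a' t (y, b')
      unfold bg at this hs
      rw [this] at hs
      split_ifs at hs
      simp at hs
    | E e =>
      exfalso
      have h1 := step_shape hs
      simp only [rule] at h1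
      revert h1
      cases w <;> cases e <;> simp only [ruleWE, Rule.zero, bg] <;> (try split_ifs) <;> simp
    | W w => rw [step_ww] at hs; simp at hs

/-- result `(E, bag)` -/
theorem from_eb {x y : Let Λ} {s : Bool} {u : BK × Λ} {e : EK} {b : Λ}
    (hs : step x y = some ((.E e, b), bg s u)) :
    ∃ e' b' u', x = (.E e', b') ∧ y = bg true u' := by
  obtain ⟨κ, a'⟩ := x
  obtain ⟨κ', b'⟩ := y
  cases κ with
  | bag s' x =>
    cases κ' with
    | bag t' y =>
      have := step_bb s' t' (x, a') (y, b')
      unfold bg at this hs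
      rw [this] at hs
      split_ifs at hs with h
      simp at hs
    | E e' =>
      have := (step_be s' (x, a') e' b' _ hs).1
      simp [bg] at this
    | W w =>
      obtain ⟨⟨x', h1⟩, -⟩ := step_bw_kind hs
      simp at h1
  | E e' =>
    cases κ' with
    | bag t y =>
      obtain ⟨rfl, hc⟩ := step_eb_some (x := (y, b')) hs
      exact ⟨e', a', (y, b'), rfl, rfl⟩
    | E e => rw [step_ee] at hs; simp at hs
    | W w => rw [step_ew] at hs; simp at hs
  | W w =>
    cases κ' with
    | bag t y =>
      have := step_wb w a' t (y, b')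
      unfold bg at this hs
      rw [this] at hs
      split_ifs at hs
      simp at hs
    | E e =>
      exfalso
      have h1 := step_shape hs
      simp only [rule] at h1
      revert h1
      cases w <;> cases e <;> simp only [ruleWE, Rule.zero, bg] <;> (try split_ifs) <;> simp
    | W w => rw [step_ww] at hs; simp at hs

/-- (O3) a move inside a block, backward -/
theorem conf_backward {s : BSt Λ} {p q : List (Let Λ)} {x y x' y' : Let Λ}
    (h : Conf s (p ++ x' :: y' :: q)) (hs : step x y = some (x', y')) :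
    Conf s (p ++ x :: y :: q) := by
  obtain ⟨w, a, e, b, o, P, U, hB, hO, hM, hP⟩ := h
  have hS := split_bword hB.symm
  cases hS with
  | WE hP0 =>
    subst hP0
    obtain ⟨w', a', e', b', rfl, rfl⟩ := from_we hs
    have hO' := own_we_backward hO hs
    exact ⟨w', a', e', b', o, [], U, rfl, hO', hM, by simp⟩
  | WB x0 P' hP0 =>
    subst hP0
    obtain ⟨rfl, rfl⟩ := from_wb hs
    exact ⟨w, a, e, b, o, x0 :: P', U, rfl, hO, hM, hP⟩
  | PP P1 x0 y0 P2 hP0 =>
    subst hP0
    obtain ⟨-, rfl, rfl, -⟩ := from_bb hs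
    have hM' := hM
    rw [coe_mid] at hM'
    refine ⟨w, a, e, b, o, P1 ++ y0 :: x0 :: P2, U, ?_, hO, ?_, ?_⟩
    · simp [bword]
    · rw [coe_mid, Multiset.cons_swap]; exact hM'
    · intro x hx
      apply hP
      simp only [List.mem_append, List.mem_cons] at hx ⊢
      tauto
  | PE P1 x0 hP0 =>
    subst hP0
    rcases from_be hs with ⟨rfl, rfl⟩ | ⟨-, rfl, rfl, hc, hp⟩
    · refine ⟨w, a, e, b, o, P1 ++ [x0], U, ?_, hO, hM, hP⟩
      simp [bword]
    · refine ⟨w, a, e, b, o, P1, x0 :: U, ?_, hO, ?_, ?_⟩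
      · simp [bword]
      · rw [← hM]; simp
      · intro x hx; exact hP x (by simp [hx])
  | EU x0 U' hU0 =>
    subst hU0
    obtain ⟨e', b', u', rfl, rfl⟩ := from_eb hs
    have hM' := hM
    rw [coe_one] at hM'
    obtain ⟨o', hO', hM2, hpass⟩ := own_eb_backward hO hM' hs
    refine ⟨w, a, e', b', o', P, u' :: U', ?_, hO', ?_, ?_⟩
    · simp [bword]
    · rw [coe_one]; exact hM2
    · intro x hx; exact hpass x (hP x hx)
  | UU U1 x0 y0 U2 hU0 =>
    subst hU0
    obtain ⟨-, rfl, rfl, -⟩ := from_bb hs
    have hM' := hM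
    rw [coe_mid'] at hM'
    refine ⟨w, a, e, b, o, P, U1 ++ y0 :: x0 :: U2, ?_, hO, ?_, hP⟩
    · simp [bword]
    · rw [coe_mid', Multiset.cons_swap]; exact hM'

end Crest.Agent.R176.Machine
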