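import Crest.Agent.R176.Machine.Conf845

/-!
# Row 176, part A, block (5B-IN): moves inside one block (helper291)

Local part: the step function on pairs inside a block, wall and head, the bag.
-/

set_option autoImplicit false
set_option linter.unusedSectionVars false
set_option linter.unusedSimpArgs false
set_option linter.unusedVariables false

namespace Crest.Agent.R176.Machine

variable {Λ : Type} [DecidableEq Λ] [LabelSys Λ]

/-! ### the step function on pairs inside a block -/

/-- class of a bag letter: letters of the same class never occur twice -/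
def cl (x : BK × Λ) : TT × Option Λ := (x.1.ty, if x.1 = .X then some x.2 else none)

theorem step_bb (s t : Bool) (x y : BK × Λ) :
    step (bg s x) (bg t y) = if s = t ∧ cl x ≠ cl y then some (bg s y, bg s x) else none := by
  obtain ⟨x, a⟩ := x
  obtain ⟨y, b⟩ := y
  unfold step bg
  simp only [rule, ruleBB]
  by_cases hs : s = t
  · subst hs
    cases x <;> cases y <;>
      simp [RD.eval, AC.eval, cl, BK.ty, Rule.zero]
    · rename_i j o j' o'
      by_cases hj : j = j' <;> simp [hj]
  · simp [hs, Rule.zero, RD.eval]

theorem step_be (s : Bool) (x : BK × Λ) (e : EK) (b : Λ) (y' : Let Λ × Let Λ)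
    (h : step (bg s x) (.E e, b) = some y') :
    y' = (bg s x, (.E e, b)) ∧ s = false ∧ cons e x.1 = true ∧ Passable e b x := by
  obtain ⟨x, a⟩ := x
  unfold step bg at h
  simp only [rule, ruleBE] at h
  cases s with
  | true => simp [Rule.zero, RD.eval] at h
  | false =>
    by_cases hm : e.moving = true
    · by_cases hc : cons e x = true
      · simp only [hm, hc, Bool.and_self, if_true, Bool.false_eq_true, if_false] at h
        by_cases hx : x = .X ∧ e.target = some .X
        · simp only [hx, and_self, if_true, RD.eval, AC.eval] at h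
          by_cases hab : a = b
          · simp [hab] at h
          · simp only [hab, decide_false, Bool.false_eq_true, if_false, Option.map_some,
              Option.bind_some, Option.some.injEq] at h
            refine ⟨?_, rfl, hc, hm, ?_, ?_⟩
            · rw [← h]; simp [bg, hx.1]
            · intro _ h2
              simp only [Prod.mk.injEq] at h2
              exact hab h2.2
            · intro h2; exact absurd hx.2 h2
        · simp only [hx, if_false] at h
          by_cases ht : e.target = some x.ty
          · simp [ht, Rule.zero, RD.eval] at h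
          · simp only [ht, if_false, Rule.stay, RD.eval, AC.eval, Bool.false_eq_true,
              Option.map_some, Option.bind_some, Option.some.injEq] at h
            refine ⟨?_, rfl, hc, hm, ?_, ?_⟩
            · rw [← h]; rfl
            · intro h1 h2
              simp only [Prod.mk.injEq] at h2
              exact hx ⟨h2.1, h1⟩
            · intro _; exact ht
      · simp [hc, Rule.zero, RD.eval] at h
    · simp [hm, Rule.zero, RD.eval] at h

theorem step_be_pass {x : BK × Λ} {e : EK} {b : Λ} (hc : cons e x.1 = true)
    (hp : Passable e b x) : step (bg false x) (.E e, b) = some (bg false x, (.E e, b)) := by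
  obtain ⟨x, a⟩ := x
  obtain ⟨hm, h1, h2⟩ := hp
  unfold step bg
  simp only [rule, ruleBE]
  simp only at hc
  simp only [hm, hc, Bool.and_self, if_true, Bool.false_eq_true, if_false]
  by_cases hx : x = .X ∧ e.target = some .X
  · have hab : a ≠ b := by
      rintro rfl
      exact h1 hx.2 (by rw [hx.1])
    simp [hx, RD.eval, AC.eval, hab]
  · by_cases ht : e.target = some x.ty
    · exfalso
      by_cases h3 : e.target = some .X
      · apply hx
        refine ⟨?_, h3⟩
        rw [h3] at ht
        cases x <;> simp_all [BK.ty]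
      · exact h2 h3 ht
    · simp [hx, ht, Rule.stay, RD.eval, AC.eval]

theorem step_wb (w : WK) (a : Λ) (s : Bool) (x : BK × Λ) :
    step (.W w, a) (bg s x) =
      if s = false ∧ w ≠ .w0 ∧ (∀ φ d, w ≠ .C φ d) ∧ (∀ φ d, w ≠ .D φ d) then
        some ((.W w, a), bg s x) else none := by
  obtain ⟨x, b⟩ := x
  unfold step bg
  simp only [rule, ruleWB]
  cases s with
  | true => simp [Rule.zero, RD.eval]
  | false => cases w <;> simp [Rule.zero, Rule.stay, RD.eval, AC.eval]

/-- head and passable unpassed letter -/
theorem step_eb_pass {x : BK × Λ} {e : EK} {b : Λ} (hc : cons e x.1 = true)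
    (hp : Passable e b x) : step (.E e, b) (bg true x) = some (bg false x, (.E e, b)) := by
  obtain ⟨x, a⟩ := x
  obtain ⟨hm, h1, h2⟩ := hp
  unfold step bg
  simp only [rule, ruleEB]
  simp only at hc
  simp only [hm, hc, Bool.and_self, if_true]
  by_cases hx : x = .X ∧ e.target = some .X
  · have hab : b ≠ a := by
      rintro rfl
      exact h1 hx.2 (by rw [hx.1])
    simp [hx, RD.eval, AC.eval, hab]
  · by_cases ht : e.target = some x.ty
    · exfalso
      by_cases h3 : e.target = some .X
      · apply hx
        refine ⟨?_, h3⟩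
        rw [h3] at ht
        cases x <;> simp_all [BK.ty]
      · exact h2 h3 ht
    · simp [hx, ht, RD.eval, AC.eval]

/-- head and non-passable unpassed letter -/
theorem step_eb_not {x : BK × Λ} {e : EK} {b : Λ} (hc : cons e x.1 = true)
    (hp : ¬ Passable e b x) : step (.E e, b) (bg true x) =
      if e.moving = true ∧ e.target ≠ some .X then
        (if (ruleTgt e x.1).rd.eval b x.2 then
          (ruleTgt e x.1).g1.map fun p => ((p.1, b), (p.2, x.2))
        else (ruleTgt e x.1).g0.bind fun p =>
          ((ruleTgt e x.1).ac.eval b x.2).map fun q => ((p.1, q.1), (p.2, q.2)))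
      else some ((.E e, b), bg true x) := by
  obtain ⟨x, a⟩ := x
  unfold step bg
  simp only [rule, ruleEB]
  simp only at hc
  unfold Passable at hp
  by_cases hm : e.moving = true
  · simp only [hm, hc, Bool.and_self, if_true, true_and]
    by_cases h3 : e.target = some .X
    · have hx : x = .X ∧ a = b := by
        by_contra hne
        apply hp
        refine ⟨hm, ?_, ?_⟩
        · intro _ h4
          simp only [Prod.mk.injEq] at h4
          exact hne h4
        · intro h4; exact absurd h3 h4
      obtain ⟨rfl, rfl⟩ := hx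
      simp [h3, RD.eval]
    · have ht : e.target = some x.ty := by
        by_contra hne
        apply hp
        exact ⟨hm, fun h4 => absurd h4 h3, fun _ => hne⟩
      have hx : ¬ (x = .X ∧ e.target = some .X) := fun h => h3 h.2
      rw [if_neg hx, if_pos ht]
      simp only [ne_eq, h3, not_false_eq_true, if_true]
  · simp [hm, hc, Rule.stay, RD.eval, AC.eval]

/-- general inversion of the pairs head - bag -/
theorem step_eb_some {s : Bool} {x : BK × Λ} {e : EK} {b : Λ} {r : Let Λ × Let Λ}
    (h : step (.E e, b) (bg s x) = some r) : s = true ∧ cons e x.1 = true := by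
  obtain ⟨x, a⟩ := x
  unfold step bg at h
  simp only [rule, ruleEB] at h
  cases s with
  | false => simp [Rule.zero, RD.eval] at h
  | true =>
    by_cases hc : cons e x = true
    · exact ⟨rfl, hc⟩
    · simp [hc, Rule.zero, RD.eval] at h

theorem step_ee (e e' : EK) (a b : Λ) : step (.E e, a) (.E e', b) = none := by
  simp [step, rule, Rule.zero, RD.eval]
theorem step_ew (e : EK) (w : WK) (a b : Λ) : step (.E e, a) (.W w, b) = none := by
  simp [step, rule, Rule.zero, RD.eval]
theorem step_ww (w w' : WK) (a b : Λ) : step (.W w, a) (.W w', b) = none := by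
  simp [step, rule, Rule.zero, RD.eval]

/-- the result of a rule with fixed result kinds -/
theorem step_shape {κ κ' : KK} {a b : Λ} {r : Let Λ × Let Λ} (h : step (κ, a) (κ', b) = some r) :
    (rule κ κ').g0 = some (r.1.1, r.2.1) ∨ (rule κ κ').g1 = some (r.1.1, r.2.1) := by
  unfold step at h
  by_cases he : (rule κ κ').rd.eval a b = true
  · simp only [he, if_true, Option.map_eq_some_iff] at h
    obtain ⟨p, hp, rfl⟩ := h
    exact Or.inr hp
  · simp only [he, if_false, Bool.false_eq_true, Option.bind_eq_some_iff,
      Option.map_eq_some_iff] at h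
    obtain ⟨p, hp, q, -, rfl⟩ := h
    exact Or.inl hp

theorem contact_shape (x x' : BK) (φ : Ph) (d : Data) (p : KK × KK)
    (h : (contact x x' φ d).g0 = some p ∨ (contact x x' φ d).g1 = some p) :
    (∃ x', p.1 = .bag true x') ∧ ∃ w', p.2 = .W w' := by
  simp only [contact, Option.map_eq_some_iff] at h
  rcases h with ⟨d', -, rfl⟩ | ⟨d', -, rfl⟩
  · exact ⟨⟨_, rfl⟩, _, rfl⟩
  · exact ⟨⟨_, rfl⟩, _, rfl⟩

theorem stay_shape (x : BK) (w : WK) (p : KK × KK)
    (h : (Rule.stay (.bag true x) (.W w)).g0 = some p ∨
      (Rule.stay (.bag true x) (.W w)).g1 = some p) :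
    (∃ x', p.1 = .bag true x') ∧ ∃ w', p.2 = .W w' := by
  simp only [Rule.stay, Option.some.injEq, reduceCtorEq, or_false] at h
  subst h
  exact ⟨⟨_, rfl⟩, _, rfl⟩

theorem ruleBW_shape (s : Bool) (x : BK) (w : WK) (p : KK × KK)
    (h : (ruleBW s x w).g0 = some p ∨ (ruleBW s x w).g1 = some p) :
    (∃ x', p.1 = .bag true x') ∧ ∃ w', p.2 = .W w' := by
  unfold ruleBW at h
  cases s with
  | false => simp [Rule.zero] at h
  | true =>
    simp only [if_true] at h
    cases x with
    | X => exact stay_shape _ _ _ h
    | H mm =>
      simp only at h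
      by_cases h2 : (mm = .l) ↔ locked w = true
      · rw [if_pos h2] at h
        cases w with
        | C φ d =>
          simp only at h
          by_cases h3 : tz φ = .H ∧ (mm = .l ∨ (φ = 0 ∧ mm = .f))
          · rw [if_pos h3] at h
            exact contact_shape _ _ _ _ _ h
          · rw [if_neg h3] at h
            exact stay_shape _ _ _ h
        | _ => exact stay_shape _ _ _ h
      · rw [if_neg h2] at h
        simp [Rule.zero] at h
    | Y j o =>
      cases w with
      | C φ d =>
        simp only at h
        by_cases h3 : tz φ = .Y j ∧ o = false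
        · rw [if_pos h3] at h
          exact contact_shape _ _ _ _ _ h
        · rw [if_neg h3] at h
          exact stay_shape _ _ _ h
      | _ => exact stay_shape _ _ _ h

theorem step_bw_kind {s : Bool} {x : BK} {w : WK} {a b : Λ} {r : Let Λ × Let Λ}
    (h : step (.bag s x, a) (.W w, b) = some r) :
    (∃ x', r.1.1 = .bag true x') ∧ ∃ w', r.2.1 = .W w' :=
  ruleBW_shape s x w _ (step_shape h)

theorem step_eb_kind {s : Bool} {x : BK} {e : EK} {a b : Λ} {r : Let Λ × Let Λ}
    (h : step (.E e, a) (.bag s x, b) = some r) :
    ((∃ x', r.1.1 = .bag false x') ∧ ∃ e', r.2.1 = .E e') ∨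
      ((∃ e', r.1.1 = .E e') ∧ ∃ x', r.2.1 = .bag true x') := by
  have h1 := step_shape h
  simp only [rule, ruleEB] at h1
  split_ifs at h1 with h2 h3 h4 h5
  · simp only [Option.some.injEq, Prod.mk.injEq] at h1
    rcases h1 with h1 | h1
    · exact Or.inl ⟨⟨_, h1.1.symm⟩, _, h1.2.symm⟩
    · exact Or.inr ⟨⟨_, h1.1.symm⟩, _, h1.2.symm⟩
  · right
    unfold ruleTgt at h1
    split at h1
    · split_ifs at h1
      · simp only [Rule.stay, Option.some.injEq, Prod.mk.injEq, reduceCtorEq, or_false] at h1
        exact ⟨⟨_, h1.1.symm⟩, _, h1.2.symm⟩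
      · simp only [Option.some.injEq, Prod.mk.injEq, reduceCtorEq, or_false] at h1
        exact ⟨⟨_, h1.1.symm⟩, _, h1.2.symm⟩
    all_goals
      simp only [Rule.stay, Option.some.injEq, Prod.mk.injEq, reduceCtorEq, or_false] at h1
      exact ⟨⟨_, h1.1.symm⟩, _, h1.2.symm⟩
  · simp only [Option.some.injEq, Prod.mk.injEq, reduceCtorEq, or_false] at h1
    exact Or.inl ⟨⟨_, h1.1.symm⟩, _, h1.2.symm⟩
  · simp only [Rule.stay, Option.some.injEq, Prod.mk.injEq, reduceCtorEq, or_false] at h1
    exact Or.inr ⟨⟨_, h1.1.symm⟩, _, h1.2.symm⟩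
  · simp [Rule.zero] at h1

/-! ### wall and head -/

theorem succ_ne_zero' : ∀ φ : Ph, φ ≠ 10 → φ + 1 ≠ 0 := by decide

theorem cur_ne_i {φ : Ph} (hφ : φ ≠ 0) (d : Data) : cur φ d = some (φ, d) := by
  unfold cur; rw [if_neg hφ]
theorem nxt_eq {φ : Ph} (hφ : φ ≠ 10) (d : Data) : nxt φ d = cur (φ + 1) d := by
  unfold nxt cur
  have : φ + 1 ≠ 0 := by revert hφ; revert φ; decide
  rw [if_neg hφ, if_neg this]

theorem own_we_forward {c : Cont Λ} {st : Option (Ph × Data)} {lk : Bool} {w : WK} {a : Λ}
    {e : EK} {b : Λ} {o : Option TT} (h : Own c st lk w a e b o) :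
    ∃ w' a' e' b', step (.W w, a) (.E e, b) = some ((.W w', a'), (.E e', b')) ∧
      Own c st lk w' a' e' b' o := by
  cases h with
  | rest lk =>
    exact ⟨_, _, _, _, by simp [step, rule, ruleWE, RD.eval, AC.eval], Own.rest lk⟩
  | G φ d lk h =>
    by_cases hφ : φ = 0
    · subst hφ
      exact ⟨_, _, _, _, by simp [step, rule, ruleWE, RD.eval, AC.eval], Own.rest lk⟩
    · exact ⟨_, _, _, _, by simp [step, rule, ruleWE, RD.eval, AC.eval, hφ], Own.G φ d lk h⟩
  | K φ d =>
    exact ⟨_, _, _, _, by simp [step, rule, ruleWE, RD.eval, AC.eval], Own.K φ d⟩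
  | C φ d =>
    exact ⟨_, _, _, _, by simp [step, rule, ruleWE, RD.eval, AC.eval], Own.K φ d⟩
  | D φ d =>
    exact ⟨_, _, _, _, by simp [step, rule, ruleWE, RD.eval, AC.eval], Own.P φ d⟩
  | P φ d =>
    exact ⟨_, _, _, _, by simp [step, rule, ruleWE, RD.eval, AC.eval], Own.P φ d⟩
  | R φ d lk h =>
    by_cases hφ : φ = 10
    · subst hφ
      exact ⟨_, _, _, _, by simp [step, rule, ruleWE, RD.eval, AC.eval], Own.rest lk⟩
    · have hlk : lk = false := by
        cases lk with
        | false => rfl
        | true => exact absurd (h rfl) hφ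
      subst hlk
      have hO : Own c (cur (φ + 1) d) false (.A (φ + 1) d) z (.G (φ + 1)) z none :=
        Own.G (φ + 1) d false (by simp)
      rw [← nxt_eq hφ] at hO
      exact ⟨_, _, _, _, by simp [step, rule, ruleWE, RD.eval, AC.eval, hφ], hO⟩
  | Ti t b lk h =>
    by_cases ht : t = .X
    · subst ht
      exact ⟨_, _, _, _, by simp [step, rule, ruleWE, ctxOK, homeW, homeE, RD.eval, AC.eval],
        Own.rest lk⟩
    · have hb := h ht
      subst hb
      exact ⟨_, _, _, _, by simp [step, rule, ruleWE, ctxOK, homeW, homeE, RD.eval, AC.eval, ht],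
        Own.rest lk⟩
  | Tb t b φ d hφ h =>
    have hO : Own c (cur φ d) false (.A φ d) z (.G φ) z none := Own.G φ d false (by simp)
    rw [cur_ne_i hφ] at hO
    by_cases ht : t = .X
    · subst ht
      exact ⟨_, _, _, _,
        by simp [step, rule, ruleWE, ctxOK, homeW, homeE, RD.eval, AC.eval, hφ], hO⟩
    · have hb := h ht
      subst hb
      exact ⟨_, _, _, _,
        by simp [step, rule, ruleWE, ctxOK, homeW, homeE, RD.eval, AC.eval, ht, hφ], hO⟩

theorem own_we_backward {c : Cont Λ} {st : Option (Ph × Data)} {lk : Bool} {w w' : WK}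
    {a a' : Λ} {e e' : EK} {b b' : Λ} {o : Option TT} (h : Own c st lk w' a' e' b' o)
    (hs : step (.W w, a) (.E e, b) = some ((.W w', a'), (.E e', b'))) :
    Own c st lk w a e b o := by
  cases w with
  | w0 =>
    cases e with
    | home =>
      by_cases hab : a = z ∧ b = z
      · obtain ⟨rfl, rfl⟩ := hab
        simp [step, rule, ruleWE, RD.eval, AC.eval] at hs
        obtain ⟨⟨rfl, rfl⟩, rfl, rfl⟩ := hs
        exact h
      · exfalso
        by_cases ha : a = z
        · simp only [ha, true_and] at hab
          simp [step, rule, ruleWE, RD.eval, AC.eval, hab] at hs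
        · simp [step, rule, ruleWE, RD.eval, AC.eval, ha] at hs
    | _ => simp [step, rule, ruleWE, Rule.zero, RD.eval] at hs
  | A φ d =>
    cases e with
    | G ψ =>
      by_cases hψ : φ = ψ
      · subst hψ
        have hab : a = z ∧ b = z := by
          by_contra hab
          by_cases hφ : φ = 0
          · by_cases ha : a = z
            · simp only [ha, true_and] at hab
              simp [step, rule, ruleWE, RD.eval, AC.eval, hab, hφ] at hs
            · simp [step, rule, ruleWE, RD.eval, AC.eval, ha, hφ] at hs
          · by_cases ha : a = z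
            · simp only [ha, true_and] at hab
              simp [step, rule, ruleWE, RD.eval, AC.eval, hab, hφ] at hs
            · simp [step, rule, ruleWE, RD.eval, AC.eval, ha, hφ] at hs
        obtain ⟨rfl, rfl⟩ := hab
        by_cases hφ : φ = 0
        · subst hφ
          simp [step, rule, ruleWE, RD.eval, AC.eval] at hs
          obtain ⟨⟨rfl, ha'⟩, rfl, hb'⟩ := hs
          cases h with
          | rest lk =>
            have hO : Own c (cur 0 d) lk (.A 0 d) z (.G 0) z none := Own.G 0 d lk (fun _ => rfl)
            exact hO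
        · simp [step, rule, ruleWE, RD.eval, AC.eval, hφ] at hs
          obtain ⟨⟨rfl, rfl⟩, rfl, rfl⟩ := hs
          exact h
      · simp [step, rule, ruleWE, Rule.zero, RD.eval, hψ] at hs
    | K ψ =>
      by_cases hψ : φ = ψ
      · subst hψ
        by_cases ha : a = z
        · subst ha
          simp [step, rule, ruleWE, RD.eval, AC.eval] at hs
          obtain ⟨⟨rfl, rfl⟩, rfl, rfl⟩ := hs
          exact h
        · simp [step, rule, ruleWE, RD.eval, AC.eval, ha] at hs
      · simp [step, rule, ruleWE, Rule.zero, RD.eval, hψ] at hs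
    | _ => simp [step, rule, ruleWE, Rule.zero, RD.eval] at hs
  | C φ d =>
    cases e with
    | N ψ =>
      by_cases hψ : φ = ψ
      · subst hψ
        by_cases hb : b = z
        · subst hb
          simp [step, rule, ruleWE, RD.eval, AC.eval] at hs
          obtain ⟨⟨rfl, ha'⟩, rfl, hb'⟩ := hs
          cases h with
          | K φ d => rw [hb']; exact Own.C φ d
        · simp [step, rule, ruleWE, RD.eval, AC.eval, hb] at hs
      · simp [step, rule, ruleWE, Rule.zero, RD.eval, hψ] at hs
    | _ => simp [step, rule, ruleWE, Rule.zero, RD.eval] at hs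
  | D φ d =>
    cases e with
    | N ψ =>
      by_cases hψ : φ = ψ
      · subst hψ
        by_cases hb : b = z
        · subst hb
          simp [step, rule, ruleWE, RD.eval, AC.eval] at hs
          obtain ⟨⟨rfl, ha'⟩, rfl, hb'⟩ := hs
          cases h with
          | P φ d => rw [hb']; exact Own.D φ d
        · simp [step, rule, ruleWE, RD.eval, AC.eval, hb] at hs
      · simp [step, rule, ruleWE, Rule.zero, RD.eval, hψ] at hs
    | _ => simp [step, rule, ruleWE, Rule.zero, RD.eval] at hs
  | B φ d =>
    cases e with
    | P ψ =>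
      by_cases hψ : φ = ψ
      · subst hψ
        by_cases ha : a = z
        · subst ha
          simp [step, rule, ruleWE, RD.eval, AC.eval] at hs
          obtain ⟨⟨rfl, rfl⟩, rfl, rfl⟩ := hs
          exact h
        · simp [step, rule, ruleWE, RD.eval, AC.eval, ha] at hs
      · simp [step, rule, ruleWE, Rule.zero, RD.eval, hψ] at hs
    | R ψ =>
      by_cases hψ : φ = ψ
      · subst hψ
        have hab : a = z ∧ b = z := by
          by_contra hab
          by_cases hφ : φ = 10
          · by_cases ha : a = z
            · simp only [ha, true_and] at hab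
              simp [step, rule, ruleWE, RD.eval, AC.eval, hab, hφ] at hs
            · simp [step, rule, ruleWE, RD.eval, AC.eval, ha, hφ] at hs
          · by_cases ha : a = z
            · simp only [ha, true_and] at hab
              simp [step, rule, ruleWE, RD.eval, AC.eval, hab, hφ] at hs
            · simp [step, rule, ruleWE, RD.eval, AC.eval, ha, hφ] at hs
        obtain ⟨rfl, rfl⟩ := hab
        by_cases hφ : φ = 10
        · subst hφ
          simp [step, rule, ruleWE, RD.eval, AC.eval] at hs
          obtain ⟨⟨rfl, ha'⟩, rfl, hb'⟩ := hs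
          cases h with
          | rest lk =>
            have hO : Own c (nxt 10 d) lk (.B 10 d) z (.R 10) z none :=
              Own.R 10 d lk (fun _ => rfl)
            exact hO
        · simp [step, rule, ruleWE, RD.eval, AC.eval, hφ] at hs
          obtain ⟨⟨rfl, ha'⟩, rfl, hb'⟩ := hs
          cases h with
          | G _ _ lk hlk =>
            have h0 : φ + 1 ≠ 0 := succ_ne_zero' φ hφ
            have : lk = false := by
              cases lk with
              | false => rfl
              | true => exact absurd (hlk rfl) h0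
            subst this
            rw [← nxt_eq hφ]
            exact Own.R φ d false (by simp)
      · simp [step, rule, ruleWE, Rule.zero, RD.eval, hψ] at hs
    | _ => simp [step, rule, ruleWE, Rule.zero, RD.eval] at hs
  | S t ctx =>
    cases e with
    | T t' busy =>
      by_cases hc : t = t' ∧ ctxOK ctx busy = true
      · obtain ⟨rfl, hc⟩ := hc
        have ha : a = z := by
          by_contra ha
          by_cases ht : t = .X
          · simp [step, rule, ruleWE, RD.eval, AC.eval, ha, hc, ht] at hs
          · simp [step, rule, ruleWE, RD.eval, AC.eval, ha, hc, ht] at hs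
        subst ha
        have hb : t ≠ .X → b = z := by
          intro ht
          by_contra hb
          simp [step, rule, ruleWE, RD.eval, AC.eval, hb, hc, ht] at hs
        have hs' : WK.noConfusionType True (homeW ctx) w' → True := fun _ => trivial
        have hk := step_shape hs
        have hk' : homeW ctx = w' ∧ homeE ctx = e' := by
          simp only [rule, ruleWE, hc, and_self, if_true] at hk
          by_cases ht : t = .X
          · simpa [ht] using hk
          · simpa [ht] using hk
        obtain ⟨rfl, rfl⟩ := hk'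
        cases ctx with
        | none =>
          have hbusy : busy = false := by simpa [ctxOK] using hc
          subst hbusy
          simp only [homeW, homeE] at h
          cases h with
          | rest lk => exact Own.Ti t b lk hb
        | some p =>
          obtain ⟨φ, d⟩ := p
          have hbusy : busy = true ∧ φ ≠ 0 := by simpa [ctxOK] using hc
          obtain ⟨rfl, hφ⟩ := hbusy
          simp only [homeW, homeE] at h
          cases h with
          | G _ _ lk hlk =>
            have : lk = false := by
              cases lk with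
              | false => rfl
              | true => exact absurd (hlk rfl) hφ
            subst this
            rw [cur_ne_i hφ]
            exact Own.Tb t b φ d hφ hb
      · simp [step, rule, ruleWE, Rule.zero, RD.eval, hc] at hs
    | _ => simp [step, rule, ruleWE, Rule.zero, RD.eval] at hs

/-- result `(W, E)` only comes from a pair `(W, E)` -/
theorem from_we {x y : Let Λ} {w' : WK} {a' : Λ} {e' : EK} {b' : Λ}
    (hs : step x y = some ((.W w', a'), (.E e', b'))) :
    ∃ w a e b, x = (.W w, a) ∧ y = (.E e, b) := by
  obtain ⟨κ, a⟩ := x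
  obtain ⟨κ', b⟩ := y
  cases κ with
  | bag s x =>
    cases κ' with
    | bag t y =>
      have := step_bb s t (x, a) (y, b)
      unfold bg at this
      rw [this] at hs
      split_ifs at hs
      simp at hs
    | E e =>
      have := (step_be s (x, a) e b _ hs).1
      simp [bg] at this
    | W w =>
      obtain ⟨⟨x', h1⟩, -⟩ := step_bw_kind hs
      simp at h1
  | E e =>
    cases κ' with
    | bag t y =>
      rcases step_eb_kind hs with ⟨⟨x', h1⟩, -⟩ | ⟨⟨x', h1⟩, -⟩ <;> simp at h1
    | E e => rw [step_ee] at hs; simp at hs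
    | W w => rw [step_ew] at hs; simp at hs
  | W w =>
    cases κ' with
    | bag t y =>
      have := step_wb w a t (y, b)
      unfold bg at this
      rw [this] at hs
      split_ifs at hs
      simp at hs
    | E e => exact ⟨_, _, _, _, rfl, rfl⟩
    | W w => rw [step_ww] at hs; simp at hs

/-! ### the bag -/

/-- the letter of type `t` -/
def letT (c : Cont Λ) (m : HM) (t : TT) (o : Option TT) : BK × Λ :=
  match t with
  | .X => (.X, z)
  | .H => letH c m o
  | .Y j => letY c j o

variable [Fintype Λ]

theorem mem_bagM_i {c : Cont Λ} {m : HM} {o : Option TT} {x : BK × Λ} (hx : x ∈ bagM c m o) :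
    x = letH c m o ∨ x = letY c false o ∨ x = letY c true o ∨ x.1 = .X := by
  unfold bagM at hx
  simp only [Multiset.mem_cons, Multiset.mem_map] at hx
  rcases hx with h | h | h | ⟨a, -, rfl⟩
  · exact Or.inl h
  · exact Or.inr (Or.inl h)
  · exact Or.inr (Or.inr (Or.inl h))
  · exact Or.inr (Or.inr (Or.inr rfl))

theorem letH_ty_i (c : Cont Λ) (m : HM) (o : Option TT) : (letH c m o).1.ty = .H := by
  unfold letH; split_ifs <;> rfl
theorem letY_ty_i (c : Cont Λ) (j : Bool) (o : Option TT) : (letY c j o).1.ty = .Y j := by
  unfold letY; split_ifs <;> rfl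

theorem mem_ty {c : Cont Λ} {m : HM} {o : Option TT} {x : BK × Λ} (hx : x ∈ bagM c m o)
    (ht : x.1.ty ≠ .X) : x = letT c m x.1.ty o := by
  rcases mem_bagM_i hx with rfl | rfl | rfl | h
  · rw [letH_ty_i]; rfl
  · rw [letY_ty_i]; rfl
  · rw [letY_ty_i]; rfl
  · rw [h] at ht; exact absurd rfl ht

theorem ty_X {x : BK} : x.ty = .X ↔ x = .X := by cases x <;> simp [BK.ty]

theorem nodup_bagM (c : Cont Λ) (m : HM) (o : Option TT) : ((bagM c m o).map cl).Nodup := by
  have h1 : cl (letH c m o) = (.H, none) := by unfold letH; split_ifs <;> rfl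
  have h2 : ∀ j, cl (letY c j o) = (.Y j, none) := by intro j; unfold letY; split_ifs <;> rfl
  unfold bagM
  simp only [Multiset.map_cons, h1, h2, Multiset.map_map]
  have h3 : (cl ∘ fun a : Λ => (BK.X, a)) = fun a => (TT.X, some a) := by
    funext a; simp [cl, BK.ty]
  rw [h3]
  refine Multiset.nodup_cons.2 ⟨?_, Multiset.nodup_cons.2 ⟨?_, Multiset.nodup_cons.2 ⟨?_, ?_⟩⟩⟩
  · simp
  · simp
  · simp
  · refine Multiset.Nodup.map ?_ (Finset.univ : Finset Λ).nodup
    intro a b hab
    simpa using hab

theorem cl_ne {c : Cont Λ} {m : HM} {o : Option TT} {x y : BK × Λ} {s : Multiset (BK × Λ)}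
    (h : x ::ₘ y ::ₘ s = bagM c m o) : cl x ≠ cl y := by
  have h1 := nodup_bagM c m o
  rw [← h] at h1
  simp only [Multiset.map_cons, Multiset.nodup_cons, Multiset.mem_cons, not_or] at h1
  exact h1.1.1

theorem bagM_replace {c : Cont Λ} {m : HM} {t : TT} (ht : t ≠ .X) (s : Multiset (BK × Λ)) :
    letT c m t none ::ₘ s = bagM c m none ↔ letT c m t (some t) ::ₘ s = bagM c m (some t) := by
  cases t with
  | X => exact absurd rfl ht
  | H =>
    have e1 : bagM c m none = letT c m .H none ::ₘ letY c false none ::ₘ letY c true none ::ₘ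
      (Finset.univ : Finset Λ).val.map fun a => (BK.X, a) := rfl
    have e2 : bagM c m (some .H) = letT c m .H (some .H) ::ₘ letY c false none ::ₘ
      letY c true none ::ₘ (Finset.univ : Finset Λ).val.map fun a => (BK.X, a) := rfl
    rw [e1, e2, Multiset.cons_inj_right, Multiset.cons_inj_right]
  | Y j =>
    cases j with
    | false =>
      have e1 : bagM c m none = letT c m (.Y false) none ::ₘ letH c m none ::ₘ
          letY c true none ::ₘ (Finset.univ : Finset Λ).val.map fun a => (BK.X, a) := by
        unfold bagM; exact Multiset.cons_swap _ _ _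
      have e2 : bagM c m (some (.Y false)) = letT c m (.Y false) (some (.Y false)) ::ₘ
          letH c m none ::ₘ letY c true none ::ₘ
          (Finset.univ : Finset Λ).val.map fun a => (BK.X, a) := by
        unfold bagM; exact Multiset.cons_swap _ _ _
      rw [e1, e2, Multiset.cons_inj_right, Multiset.cons_inj_right]
    | true =>
      have e1 : bagM c m none = letT c m (.Y true) none ::ₘ letH c m none ::ₘ
          letY c false none ::ₘ (Finset.univ : Finset Λ).val.map fun a => (BK.X, a) := by
        unfold bagM
        rw [Multiset.cons_swap (letY c false none), Multiset.cons_swap (letH c m none)]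
        rfl
      have e2 : bagM c m (some (.Y true)) = letT c m (.Y true) (some (.Y true)) ::ₘ
          letH c m none ::ₘ letY c false none ::ₘ
          (Finset.univ : Finset Λ).val.map fun a => (BK.X, a) := by
        unfold bagM
        rw [Multiset.cons_swap (letY c false _), Multiset.cons_swap (letH c m _)]
        rfl
      rw [e1, e2, Multiset.cons_inj_right, Multiset.cons_inj_right]

theorem tz_ne : ∀ φ : Ph, tz φ ≠ .X := by decide
theorem tz_H_of : ∀ φ : Ph, tz φ ≠ .H → φ ≠ 0 ∧ φ ≠ 10 := by decide

theorem hmark_cur_i : ∀ (φ : Ph) (d : Data), hmark (cur φ d) false = if φ = 0 then .f else .b := by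
  intro φ d
  unfold cur
  split_ifs <;> rfl
theorem hmark_nxt_i : ∀ (φ : Ph) (d : Data), hmark (nxt φ d) false = if φ = 10 then .f else .b := by
  intro φ d
  unfold nxt
  split_ifs <;> rfl

/-- all letters of the bag are consistent with the head -/
theorem cons_of_mem {c : Cont Λ} {st : Option (Ph × Data)} {lk : Bool} {w : WK} {a : Λ}
    {e : EK} {b : Λ} {o : Option TT} (h : Own c st lk w a e b o) {x : BK × Λ}
    (hx : x ∈ bagM c (hmark st lk) o) : cons e x.1 = true := by
  have hX : ∀ e : EK, cons e .X = true := fun _ => rfl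
  have key : ∀ (φ : Ph) (e : EK), (e = .K φ ∨ e = .N φ ∨ e = .P φ) → ∀ (m : HM),
      (tz φ ≠ .H → m = .b) → ∀ x : BK × Λ, x ∈ bagM c m (some (tz φ)) → cons e x.1 = true := by
    intro φ e he m hm x hx
    have ho : e.outPh = some φ := by rcases he with rfl | rfl | rfl <;> rfl
    have hi : e.idle = false := by rcases he with rfl | rfl | rfl <;> rfl
    rcases mem_bagM_i hx with rfl | rfl | rfl | h
    · unfold letH
      by_cases ht : tz φ = .H
      · simp [ht, cons, hi, ho]
      · simp [ht, cons, hi, ho, hm ht]
    · unfold letY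
      by_cases ht : tz φ = .Y false
      · simp [ht, cons, hi, ho]
      · simp [ht, cons, hi, ho]
    · unfold letY
      by_cases ht : tz φ = .Y true
      · simp [ht, cons, hi, ho]
      · simp [ht, cons, hi, ho]
    · rw [h]; rfl
  have key2 : ∀ (e : EK) (m : HM), e.outPh = none →
      ((e.idle = true ∧ (m = .f ∨ m = .l)) ∨ (e.idle = false ∧ m = .b)) →
      ∀ x : BK × Λ, x ∈ bagM c m none → cons e x.1 = true := by
    intro e m ho hm x hx
    rcases mem_bagM_i hx with rfl | rfl | rfl | h
    · rcases hm with ⟨hi, hm | hm⟩ | ⟨hi, hm⟩ <;> simp [letH, cons, hi, ho, hm]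
    · simp [letY, cons, ho]
    · simp [letY, cons, ho]
    · rw [h]; rfl
  have hfl : ∀ lk : Bool, hmark none lk = .f ∨ hmark none lk = .l := by
    intro lk; cases lk
    · exact Or.inl rfl
    · exact Or.inr rfl
  cases h with
  | rest lk => exact key2 _ _ rfl (Or.inl ⟨rfl, hfl lk⟩) x hx
  | G φ d lk h =>
    refine key2 _ _ rfl ?_ x hx
    by_cases hφ : φ = 0
    · subst hφ
      exact Or.inl ⟨rfl, hfl lk⟩
    · right
      rw [cur_ne_i hφ]
      exact ⟨by simp [EK.idle, hφ], rfl⟩
  | K φ d =>
    refine key φ _ (Or.inl rfl) _ ?_ x hx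
    intro ht; rw [hmark_cur_i, if_neg (tz_H_of φ ht).1]
  | C φ d =>
    refine key φ _ (Or.inr (Or.inl rfl)) _ ?_ x hx
    intro ht; rw [hmark_cur_i, if_neg (tz_H_of φ ht).1]
  | D φ d =>
    refine key φ _ (Or.inr (Or.inl rfl)) _ ?_ x hx
    intro ht; rw [hmark_nxt_i, if_neg (tz_H_of φ ht).2]
  | P φ d =>
    refine key φ _ (Or.inr (Or.inr rfl)) _ ?_ x hx
    intro ht; rw [hmark_nxt_i, if_neg (tz_H_of φ ht).2]
  | R φ d lk h =>
    refine key2 _ _ rfl ?_ x hx
    by_cases hφ : φ = 10
    · subst hφ
      exact Or.inl ⟨rfl, hfl lk⟩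
    · right
      unfold nxt
      rw [if_neg hφ]
      exact ⟨by simp [EK.idle, hφ], rfl⟩
  | Ti t b lk h => exact key2 _ _ rfl (Or.inl ⟨rfl, hfl lk⟩) x hx
  | Tb t b φ d hφ h => exact key2 _ _ rfl (Or.inr ⟨rfl, rfl⟩) x hx

end Crest.Agent.R176.Machine
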