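import Crest.Agent.R176.Machine.ConfIn291A

/-!
# Row 176, part A, block (5B-IN): the head and the next unpassed letter (helper291)
-/

set_option autoImplicit false
set_option linter.unusedSectionVars false
set_option linter.unusedSimpArgs false
set_option linter.unusedVariables false

namespace Crest.Agent.R176.Machine

variable {Λ : Type} [DecidableEq Λ] [LabelSys Λ] [Fintype Λ]

/-! ### the head and the next unpassed letter -/

theorem passable_congr {e e' : EK} {b b' : Λ} (h1 : e'.moving = true)
    (h2 : e'.target = e.target) (h3 : e.target ≠ some .X) {x : BK × Λ}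
    (h : Passable e b x) : Passable e' b' x := by
  obtain ⟨-, -, h4⟩ := h
  refine ⟨h1, ?_, ?_⟩
  · intro h5; rw [h2] at h5; exact absurd h5 h3
  · intro _; rw [h2]; exact h4 h3

theorem not_passable {e : EK} {b : Λ} {x : BK × Λ} (h : ¬ Passable e b x)
    (hm : e.moving = true) (ht : e.target ≠ some .X) : e.target = some x.1.ty := by
  by_contra hne
  exact h ⟨hm, fun h4 => absurd h4 ht, fun _ => hne⟩

theorem own_eb_forward {c : Cont Λ} {st : Option (Ph × Data)} {lk : Bool} {w : WK} {a : Λ}
    {e : EK} {b : Λ} {o : Option TT} (h : Own c st lk w a e b o) {x : BK × Λ}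
    {s : Multiset (BK × Λ)} (hx : x ::ₘ s = bagM c (hmark st lk) o) (hp : ¬ Passable e b x) :
    ∃ e' b' x' o', step (.E e, b) (bg true x) = some ((.E e', b'), bg true x') ∧
      Own c st lk w a e' b' o' ∧ x' ::ₘ s = bagM c (hmark st lk) o' ∧
      ∀ y, Passable e b y → Passable e' b' y := by
  have hmem : x ∈ bagM c (hmark st lk) o := by rw [← hx]; exact Multiset.mem_cons_self _ _
  have hc := cons_of_mem h hmem
  have hst := step_eb_not hc hp
  -- nothing happens
  have same : step (.E e, b) (bg true x) = some ((.E e, b), bg true x) →
      ∃ e' b' x' o', step (.E e, b) (bg true x) = some ((.E e', b'), bg true x') ∧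
      Own c st lk w a e' b' o' ∧ x' ::ₘ s = bagM c (hmark st lk) o' ∧
      ∀ y, Passable e b y → Passable e' b' y :=
    fun hs => ⟨e, b, x, o, hs, h, hx, fun _ hy => hy⟩
  cases h with
  | rest lk => exact same (by rw [hst]; simp [EK.moving, EK.target])
  | G φ d lk h =>
    have hm : (EK.G φ).moving = true := rfl
    have ht : (EK.G φ).target ≠ some .X := by
      show some (tz φ) ≠ some .X
      simpa using tz_ne φ
    have hty := not_passable hp hm ht
    have hty' : x.1.ty = tz φ := by
      have : some (tz φ) = some x.1.ty := hty
      simpa using this.symm
    have hxe : x = letT c (hmark (cur φ d) lk) (tz φ) none := by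
      rw [← hty']; exact mem_ty hmem (by rw [hty']; exact tz_ne φ)
    rw [if_pos ⟨hm, ht⟩] at hst
    cases lk with
    | true =>
      have hφ := h rfl
      subst hφ
      have hx1 : x = (.H .l, c.h) := hxe
      subst hx1
      exact same (by rw [hst]; simp [ruleTgt, Rule.stay, RD.eval, AC.eval, bg])
    | false =>
      have hl : ¬ (φ = 0 ∧ x.1 = .H .l) := by
        rintro ⟨rfl, h2⟩
        have hx1 : x = (.H .f, c.h) := hxe
        rw [hx1] at h2
        simp at h2
      have hs : step (.E (.G φ), z) (bg true x) =
          some ((.E (.K φ), x.2), bg true (x.1.out, z)) := by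
        rw [hst]
        simp only [ruleTgt, if_neg hl]
        simp [RD.eval, AC.eval, bg]
      have hx2 : x.2 = c.get (tz φ) := by
        rw [hxe]
        cases ht2 : tz φ with
        | X => exact absurd ht2 (tz_ne φ)
        | H => rfl
        | Y j => rfl
      have hx3 : (x.1.out, (z : Λ)) = letT c (hmark (cur φ d) false) (tz φ) (some (tz φ)) := by
        rw [hxe]
        cases ht2 : tz φ with
        | X => exact absurd ht2 (tz_ne φ)
        | H => simp [letT, letH, BK.out]
        | Y j => simp [letT, letY, BK.out]
      refine ⟨.K φ, x.2, (x.1.out, z), some (tz φ), hs, ?_, ?_, ?_⟩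
      · rw [hx2]; exact Own.K φ d
      · rw [hx3, ← bagM_replace (tz_ne φ), ← hxe]; exact hx
      · intro y hy; exact passable_congr rfl rfl ht hy
  | K φ d =>
    have hm : (EK.K φ).moving = true := rfl
    have ht : (EK.K φ).target ≠ some .X := by
      show some (tz φ) ≠ some .X
      simpa using tz_ne φ
    have hty' : x.1.ty = tz φ := by
      have : some (tz φ) = some x.1.ty := not_passable hp hm ht
      simpa using this.symm
    have hxe : x = letT c (hmark (cur φ d) false) (tz φ) (some (tz φ)) := by
      rw [← hty']
      have := mem_ty hmem (by rw [hty']; exact tz_ne φ)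
      rw [hty'] at this ⊢
      exact this
    have hx2 : x.2 = z := by
      rw [hxe]
      cases ht2 : tz φ with
      | X => exact absurd ht2 (tz_ne φ)
      | H => simp [letT, letH]
      | Y j => simp [letT, letY]
    refine same ?_
    rw [hst, if_pos ⟨hm, ht⟩]
    simp [ruleTgt, RD.eval, AC.eval, hx2, bg]
  | C φ d => exact same (by rw [hst]; simp [EK.moving, EK.target])
  | D φ d => exact same (by rw [hst]; simp [EK.moving, EK.target])
  | P φ d =>
    have hm : (EK.P φ).moving = true := rfl
    have ht : (EK.P φ).target ≠ some .X := by
      show some (tz φ) ≠ some .X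
      simpa using tz_ne φ
    have hty' : x.1.ty = tz φ := by
      have : some (tz φ) = some x.1.ty := not_passable hp hm ht
      simpa using this.symm
    have hxe : x = letT c (hmark (nxt φ d) false) (tz φ) (some (tz φ)) := by
      have := mem_ty hmem (by rw [hty']; exact tz_ne φ)
      rw [hty'] at this
      exact this
    have hx2 : x.2 = z := by
      rw [hxe]
      cases ht2 : tz φ with
      | X => exact absurd ht2 (tz_ne φ)
      | H => simp [letT, letH]
      | Y j => simp [letT, letY]
    have hs : step (.E (.P φ), c.get (tz φ)) (bg true x) =
        some ((.E (.R φ), z), bg true (x.1.inn φ, c.get (tz φ))) := by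
      rw [hst, if_pos ⟨hm, ht⟩]
      simp [ruleTgt, RD.eval, AC.eval, hx2, bg]
    have hx3 : (x.1.inn φ, c.get (tz φ)) = letT c (hmark (nxt φ d) false) (tz φ) none := by
      rw [hxe, hmark_nxt_i]
      cases ht2 : tz φ with
      | X => exact absurd ht2 (tz_ne φ)
      | H =>
        by_cases hφ : φ = 10
        · simp [letT, letH, BK.inn, Cont.get, hφ]
        · simp [letT, letH, BK.inn, Cont.get, hφ]
      | Y j => simp [letT, letY, BK.inn]
    refine ⟨.R φ, z, (x.1.inn φ, c.get (tz φ)), none, hs, ?_, ?_, ?_⟩
    · exact Own.R φ d false (by simp)
    · rw [hx3, bagM_replace (tz_ne φ), ← hxe]; exact hx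
    · intro y hy; exact passable_congr rfl rfl ht hy
  | R φ d lk h =>
    have hm : (EK.R φ).moving = true := rfl
    have ht : (EK.R φ).target ≠ some .X := by
      show some (tz φ) ≠ some .X
      simpa using tz_ne φ
    refine same ?_
    rw [hst, if_pos ⟨hm, ht⟩]
    simp [ruleTgt, RD.eval, AC.eval, bg]
  | Ti t b lk h =>
    refine same ?_
    rw [hst]
    by_cases hq : (EK.T t false).moving = true ∧ (EK.T t false).target ≠ some .X
    · rw [if_pos hq]; simp [ruleTgt, Rule.stay, RD.eval, AC.eval, bg]
    · rw [if_neg hq]
  | Tb t b φ d hφ h =>
    refine same ?_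
    rw [hst]
    by_cases hq : (EK.T t true).moving = true ∧ (EK.T t true).target ≠ some .X
    · rw [if_pos hq]; simp [ruleTgt, Rule.stay, RD.eval, AC.eval, bg]
    · rw [if_neg hq]

/-- backward: the letter `x'` after the head `(e', b')` -/
theorem own_eb_backward {c : Cont Λ} {st : Option (Ph × Data)} {lk : Bool} {w : WK} {a : Λ}
    {e' : EK} {b' : Λ} {o' : Option TT} (h : Own c st lk w a e' b' o') {x' : BK × Λ}
    {s : Multiset (BK × Λ)} (hx : x' ::ₘ s = bagM c (hmark st lk) o')
    {e : EK} {b : Λ} {x : BK × Λ}
    (hs : step (.E e, b) (bg true x) = some ((.E e', b'), bg true x')) :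
    ∃ o, Own c st lk w a e b o ∧ x ::ₘ s = bagM c (hmark st lk) o ∧
      ∀ y, Passable e' b' y → Passable e b y := by
  have hmem : x' ∈ bagM c (hmark st lk) o' := by rw [← hx]; exact Multiset.mem_cons_self _ _
  have hc : cons e x.1 = true := (step_eb_some (x := x) hs).2
  have hp : ¬ Passable e b x := by
    intro hp
    rw [step_eb_pass hc hp] at hs
    simp [bg] at hs
  -- nothing happened
  have same : e' = e → b' = b → x' = x →
      ∃ o, Own c st lk w a e b o ∧ x ::ₘ s = bagM c (hmark st lk) o ∧
      ∀ y, Passable e' b' y → Passable e b y := by
    rintro rfl rfl rfl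
    exact ⟨o', h, hx, fun _ hy => hy⟩
  rw [step_eb_not hc hp] at hs
  by_cases hq : e.moving = true ∧ e.target ≠ some .X
  swap
  · rw [if_neg hq] at hs
    simp only [Option.some.injEq, Prod.mk.injEq, KK.E.injEq, bg, KK.bag.injEq, true_and] at hs
    exact same hs.1.1.symm hs.1.2.symm (Prod.ext hs.2.1.symm hs.2.2.symm)
  rw [if_pos hq] at hs
  obtain ⟨hm, ht⟩ := hq
  have hty := not_passable hp hm ht
  cases e with
  | home => simp [EK.moving, EK.target] at hm
  | N φ => simp [EK.moving, EK.target] at hm
  | G φ =>
    have hty' : x.1.ty = tz φ := by
      have : some (tz φ) = some x.1.ty := hty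
      simpa using this.symm
    by_cases hl : φ = 0 ∧ x.1 = .H .l
    · simp only [ruleTgt, if_pos hl, Rule.stay, RD.eval, AC.eval, Bool.false_eq_true, if_false,
        Option.map_some, Option.bind_some, Option.some.injEq, Prod.mk.injEq, KK.E.injEq, bg,
        KK.bag.injEq, true_and] at hs
      exact same hs.1.1.symm hs.1.2.symm (Prod.ext hs.2.1.symm hs.2.2.symm)
    · simp only [ruleTgt, if_neg hl] at hs
      by_cases hb : b = z
      · subst hb
        simp only [RD.eval, AC.eval, ne_eq, not_true_eq_false, decide_false, Bool.false_eq_true,
          if_false, Option.map_some, Option.bind_some, Option.some.injEq, Prod.mk.injEq,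
          KK.E.injEq, bg, KK.bag.injEq, true_and] at hs
        obtain ⟨⟨rfl, hx2b⟩, hx1, hx2⟩ := hs
        have hx' : x' = (x.1.out, z) := Prod.ext hx1.symm hx2.symm
        cases h with
        | K _ d =>
          have hxe : x = letT c (hmark (cur φ d) false) (tz φ) none := by
            rw [hmark_cur_i]
            cases ht2 : tz φ with
            | X => exact absurd ht2 (tz_ne φ)
            | H =>
              rw [ht2] at hty'
              have h2 : x.2 = c.h := by rw [hx2b, ht2]; rfl
              cases hx3 : x.1 with
              | X => rw [hx3] at hty'; simp [BK.ty] at hty'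
              | Y j o => rw [hx3] at hty'; simp [BK.ty] at hty'
              | H mm =>
                rw [hx3] at hc hl
                have h4 : mm = if φ = 0 then .f else .b := by
                  by_cases hφ : φ = 0
                  · subst hφ
                    simp [cons, EK.idle] at hc hl
                    rcases hc with rfl | rfl
                    · rfl
                    · exact absurd rfl hl
                  · simpa [cons, EK.idle, EK.outPh, hφ] using hc
                simp only [letT, letH]
                rw [← h4, ← h2, ← hx3]
                simp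
            | Y j =>
              rw [ht2] at hty'
              have h2 : x.2 = c.get (.Y j) := by rw [hx2b, ht2]
              cases hx3 : x.1 with
              | X => rw [hx3] at hty'; simp [BK.ty] at hty'
              | H mm => rw [hx3] at hty'; simp [BK.ty] at hty'
              | Y j' o =>
                rw [hx3] at hty' hc
                simp only [BK.ty, TT.Y.injEq] at hty'
                subst hty'
                have h4 : o = false := by
                  cases o with
                  | false => rfl
                  | true => simp [cons, EK.outPh] at hc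
                subst h4
                simp only [letT, letY]
                rw [← h2, ← hx3]
                simp
          refine ⟨none, Own.G φ d false (by simp), ?_, ?_⟩
          · have hx3 : x' = letT c (hmark (cur φ d) false) (tz φ) (some (tz φ)) := by
              rw [hx', hxe]
              cases ht2 : tz φ with
              | X => exact absurd ht2 (tz_ne φ)
              | H => simp [letT, letH, BK.out]
              | Y j => simp [letT, letY, BK.out]
            rw [hxe, bagM_replace (tz_ne φ), ← hx3]; exact hx
          · intro y hy
            exact passable_congr rfl rfl ht hy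
      · simp [RD.eval, hb] at hs
  | K φ =>
    simp only [ruleTgt] at hs
    by_cases h2 : x.2 = z
    · simp only [RD.eval, AC.eval, h2, ne_eq, not_true_eq_false, decide_false,
        Bool.false_eq_true, if_false, Option.map_some, Option.bind_some, Option.some.injEq,
        Prod.mk.injEq, KK.E.injEq, bg, KK.bag.injEq, true_and] at hs
      exact same hs.1.1.symm hs.1.2.symm (Prod.ext hs.2.1.symm (by rw [← hs.2.2, h2]))
    · simp [RD.eval, h2] at hs
  | P φ =>
    have hty' : x.1.ty = tz φ := by
      have : some (tz φ) = some x.1.ty := hty
      simpa using this.symm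
    simp only [ruleTgt] at hs
    by_cases h2 : x.2 = z
    · simp only [RD.eval, AC.eval, h2, ne_eq, not_true_eq_false, decide_false,
        Bool.false_eq_true, if_false, Option.map_some, Option.bind_some, Option.some.injEq,
        Prod.mk.injEq, KK.E.injEq, bg, KK.bag.injEq, true_and] at hs
      obtain ⟨⟨rfl, hb'⟩, hx1, hx2⟩ := hs
      cases h with
      | R _ d lk hlk =>
        have hx'm := mem_ty hmem
        -- the letter x
        have hxty' : x'.1.ty = tz φ := by
          rw [← hx1, ← hty']
          cases hx3 : x.1 with
          | X => rfl
          | H mm => simp only [BK.inn]; split_ifs <;> rfl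
          | Y j o => rfl
        have hx'e : x' = letT c (hmark (nxt φ d) lk) (tz φ) none := by
          have := hx'm (by rw [hxty']; exact tz_ne φ)
          rw [hxty'] at this
          exact this
        have hlk0 : lk = false ∧ b = c.get (tz φ) ∧
            x = letT c (hmark (nxt φ d) lk) (tz φ) (some (tz φ)) := by
          cases ht2 : tz φ with
          | X => exact absurd ht2 (tz_ne φ)
          | H =>
            rw [ht2] at hty' hx'e
            cases hx3 : x.1 with
            | X => rw [hx3] at hty'; simp [BK.ty] at hty'
            | Y j o => rw [hx3] at hty'; simp [BK.ty] at hty'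
            | H mm =>
              rw [hx3] at hc hx1
              have h4 : mm = .o := by simpa [cons, EK.idle, EK.outPh, ht2] using hc
              subst h4
              simp only [letT, letH] at hx'e
              rw [if_neg (by simp)] at hx'e
              have hb2 : b = c.h := by rw [hx2, hx'e]
              have hxx : x = (.H .o, z) := by rw [← hx3, ← h2]
              have hlk0 : lk = false := by
                cases lk with
                | false => rfl
                | true =>
                  have hφ := hlk rfl
                  subst hφ
                  exfalso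
                  rw [hx'e] at hx1
                  simp [BK.inn, nxt, hmark] at hx1
              refine ⟨hlk0, by rw [hb2]; rfl, ?_⟩
              rw [hxx]; simp [letT, letH]
          | Y j =>
            rw [ht2] at hty' hx'e
            have hφ := (tz_H_of φ (by rw [ht2]; simp)).2
            cases hx3 : x.1 with
            | X => rw [hx3] at hty'; simp [BK.ty] at hty'
            | H mm => rw [hx3] at hty'; simp [BK.ty] at hty'
            | Y j' o =>
              rw [hx3] at hty' hc
              simp only [BK.ty, TT.Y.injEq] at hty'
              subst hty'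
              have h4 : o = true := by simpa [cons, EK.outPh, ht2] using hc
              subst h4
              simp only [letT, letY] at hx'e
              rw [if_neg (by simp)] at hx'e
              have hb2 : b = c.get (.Y j') := by rw [hx2, hx'e]
              have hxx : x = (.Y j' true, z) := by rw [← hx3, ← h2]
              refine ⟨?_, hb2, ?_⟩
              · cases lk with
                | false => rfl
                | true => exact absurd (hlk rfl) hφ
              · rw [hxx]; simp [letT, letY]
        obtain ⟨rfl, hb2, hxe⟩ := hlk0
        refine ⟨some (tz φ), ?_, ?_, ?_⟩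
        · rw [hb2]; exact Own.P φ d
        · rw [hxe, ← bagM_replace (tz_ne φ), ← hx'e]; exact hx
        · intro y hy
          exact passable_congr rfl rfl ht hy
    · simp [RD.eval, h2] at hs
  | R φ =>
    simp only [ruleTgt] at hs
    by_cases h2 : b = z
    · simp only [RD.eval, AC.eval, h2, ne_eq, not_true_eq_false, decide_false,
        Bool.false_eq_true, if_false, Option.map_some, Option.bind_some, Option.some.injEq,
        Prod.mk.injEq, KK.E.injEq, bg, KK.bag.injEq, true_and] at hs
      exact same hs.1.1.symm (by rw [← hs.1.2, h2]) (Prod.ext hs.2.1.symm hs.2.2.symm)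
    · simp [RD.eval, h2] at hs
  | T t busy =>
    simp only [ruleTgt, Rule.stay, RD.eval, AC.eval, Bool.false_eq_true, if_false,
      Option.map_some, Option.bind_some, Option.some.injEq, Prod.mk.injEq, KK.E.injEq, bg,
      KK.bag.injEq, true_and] at hs
    exact same hs.1.1.symm hs.1.2.symm (Prod.ext hs.2.1.symm hs.2.2.symm)

end Crest.Agent.R176.Machine
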