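import Mathlib

/-!
# Row 176, part A (S0266): the machine (helper655, post 3548)

Kinds, rule table, label systems, letters and the one-step function `step`.

* `KK` : kinds of letters (bag letters on side `u = true` (unpassed) / `u = false` (passed), heads
  `E`, walls `W`).
* `rule κ₁ κ₂` : the rule of an ordered pair of adjacent kinds: reading `rd`, action `ac`, results
  `g0` (reading false; the action is applied to the labels), `g1` (reading true; labels unchanged);
  `none` means: the product is zero.
* `LabelSys Λ` : finite label sets with base point `z` and codes of all kinds.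
* `Let Λ = KK × Λ` : letters of the algebra `C(Λ)`; relations `x y = step x y` (`0` if `none`).
* `Λ × Λ` is again a label system.
-/

set_option autoImplicit false

namespace Crest.Agent.R176.Machine

/-- phases `0..10` -/
abbrev Ph := Fin 11

/-- data: bits `0..5` instruction code, bits `6,7` results of the two readings -/
abbrev Data := Fin 8 → Bool

/-- readings -/
inductive RD
  | F | EQ | N1 | N2 | NN
  | IB (i : Fin 6)
  deriving DecidableEq, Fintype

/-- actions -/
inductive AC
  | ID | SW | ER
  | APP (j : Bool)
  deriving DecidableEq, Fintype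

/-- marks of the letter `H`: free, locked, busy, out -/
inductive HM
  | f | l | b | o
  deriving DecidableEq

instance : Fintype HM := ⟨{.f, .l, .b, .o}, by intro x; cases x <;> decide⟩

/-- types of bag letters (also targets of head modes, types of tests) -/
inductive TT
  | X | H
  | Y (j : Bool)
  deriving DecidableEq, Fintype

/-- kinds of bag letters -/
inductive BK
  | X
  | H (m : HM)
  | Y (j : Bool) (out : Bool)
  deriving DecidableEq, Fintype

/-- head modes -/
inductive EK
  | home
  | N (φ : Ph)
  | G (φ : Ph)
  | K (φ : Ph)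
  | P (φ : Ph)
  | R (φ : Ph)
  | T (t : TT) (busy : Bool)
  deriving DecidableEq, Fintype

/-- wall marks -/
inductive WK
  | w0
  | A (φ : Ph) (d : Data)
  | C (φ : Ph) (d : Data)
  | D (φ : Ph) (d : Data)
  | B (φ : Ph) (d : Data)
  | S (t : TT) (w : Option (Ph × Data))
  deriving DecidableEq, Fintype

/-- kinds -/
inductive KK
  | bag (u : Bool) (x : BK)
  | E (e : EK)
  | W (w : WK)
  deriving DecidableEq, Fintype

/-- rule of an ordered pair of kinds -/
structure Rule where
  rd : RD
  ac : AC
  g0 : Option (KK × KK)
  g1 : Option (KK × KK)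

/-- the type of a bag letter -/
def BK.ty : BK → TT
  | .X => .X
  | .H _ => .H
  | .Y j _ => .Y j

/-- target of a phase -/
def tz (φ : Ph) : TT :=
  if φ = 6 ∨ φ = 8 then .Y false else if φ = 7 ∨ φ = 9 then .Y true else .H

/-- the target of a head mode (never passed by the head) -/
def EK.target : EK → Option TT
  | .home => none
  | .N _ => none
  | .G φ => some (tz φ)
  | .K φ => some (tz φ)
  | .P φ => some (tz φ)
  | .R φ => some (tz φ)
  | .T t _ => some t

/-- moving modes -/
def EK.moving (e : EK) : Bool := e.target.isSome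

/-- idle modes -/
def EK.idle : EK → Bool
  | .home => true
  | .N _ => false
  | .G φ => φ = 0
  | .K _ => false
  | .P _ => false
  | .R φ => φ = 10
  | .T _ busy => !busy

/-- phase whose target letter is out, if any -/
def EK.outPh : EK → Option Ph
  | .N φ => some φ
  | .K φ => some φ
  | .P φ => some φ
  | _ => none

/-- the mark of a bag letter is consistent with the mode of the own head -/
def cons (e : EK) : BK → Bool
  | .X => true
  | .H m =>
      if e.idle then m = .f || m = .l
      else if e.outPh.any (fun φ => tz φ = .H) then m = .o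
      else m = .b
  | .Y j out => out = (e.outPh.any fun φ => tz φ = .Y j)

/-- locked wall marks: the right neighbour of the wall is engaged with the block on the left -/
def locked : WK → Bool
  | .w0 => false
  | .A φ _ => φ ≠ 0
  | .C φ _ => φ ≠ 0
  | .D φ _ => φ ≠ 10
  | .B φ _ => φ ≠ 10
  | .S _ none => false
  | .S _ (some (φ, _)) => φ ≠ 0

/-! ### instruction codes -/

def RD.idx : RD → ℕ
  | .F => 0 | .EQ => 1 | .N1 => 2 | .N2 => 3 | .NN => 4 | .IB i => 5 + i.val

def AC.idx : AC → ℕ
  | .ID => 0 | .SW => 1 | .ER => 2 | .APP false => 3 | .APP true => 4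

def rdOf (n : ℕ) : RD :=
  if n = 0 then .F else if n = 1 then .EQ else if n = 2 then .N1 else if n = 3 then .N2
  else if n = 4 then .NN else .IB (Fin.ofNat 6 (n - 5))

def acOf (n : ℕ) : AC :=
  if n = 0 then .ID else if n = 1 then .SW else if n = 2 then .ER else if n = 3 then .APP false
  else .APP true

/-- six bit code of an instruction -/
def icode (r : RD) (a : AC) (i : Fin 6) : Bool := (r.idx * 5 + a.idx).testBit i.val

/-- number of a bit vector -/
def bnum (b : Fin 6 → Bool) : ℕ := ∑ i : Fin 6, if b i then 2 ^ i.val else 0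

/-- decoding of instructions -/
def idec (b : Fin 6 → Bool) : RD × AC := (rdOf (bnum b / 5), acOf (bnum b % 5))

/-- instruction stored in the data -/
def instr (d : Data) : RD × AC := idec fun i => d (Fin.castLE (by decide) i)

/-- combination of the two coordinate readings -/
def RD.comb : RD → Bool → Bool → Bool
  | .F, _, _ => false
  | .EQ, c, c' => c && c'
  | .N1, c, c' => c || c'
  | .N2, c, c' => c || c'
  | .NN, c, c' => c || c'
  | .IB _, c, c' => c && !c'

/-- reading on the second coordinate -/
def RD.snd : RD → RD
  | .IB _ => .NN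
  | r => r

/-- final bit stored in the data -/
def bit (d : Data) : Bool := (instr d).1.comb (d 6) (d 7)

/-- contact operation of phase `φ` with data `d` -/
structure Op where
  rd : RD
  ac : AC
  g0 : Option Data
  g1 : Option Data

/-- operation of the phase `φ` -/
def op (φ : Ph) (d : Data) : Op :=
  if h : φ.val < 6 then
    ⟨.IB ⟨φ.val, h⟩, .ID, some (Function.update d (Fin.castLE (by decide) (⟨φ.val, h⟩ : Fin 6)) false),
      some (Function.update d (Fin.castLE (by decide) (⟨φ.val, h⟩ : Fin 6)) true)⟩
  else if φ = 6 then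
    ⟨(instr d).1, .ID, some (Function.update d 6 false), some (Function.update d 6 true)⟩
  else if φ = 7 then
    ⟨(instr d).1.snd, .ID, some (Function.update d 7 false), some (Function.update d 7 true)⟩
  else if φ = 8 then
    ⟨.F, if bit d then .ID else (instr d).2, some d, none⟩
  else if φ = 9 then
    (if bit d then ⟨.F, .ID, some d, none⟩
    else match (instr d).2 with
      | .APP _ => ⟨.NN, .ID, some d, none⟩
      | a => ⟨.F, a, some d, none⟩)
  else ⟨.F, .APP (bit d), some d, none⟩

/-! ### the rule table -/

/-- the rule "nothing happens" -/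
def Rule.stay (κ κ' : KK) : Rule := ⟨.F, .ID, some (κ, κ'), none⟩
/-- the rule "product is zero" -/
def Rule.zero : Rule := ⟨.F, .ID, none, none⟩

/-- the letter after its label has been taken -/
def BK.out : BK → BK
  | .X => .X
  | .H _ => .H .o
  | .Y j _ => .Y j true

/-- the letter after a label has been put back in phase `φ` -/
def BK.inn (φ : Ph) : BK → BK
  | .X => .X
  | .H _ => if φ = 10 then .H .f else .H .b
  | .Y j _ => .Y j false

/-- two bag letters -/
def ruleBB (s : Bool) (x : BK) (t : Bool) (y : BK) : Rule :=
  if s = t then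
    match x, y with
    | .X, .X => ⟨.EQ, .SW, some (.bag s .X, .bag s .X), none⟩
    | x, y => if x.ty = y.ty then Rule.zero else ⟨.F, .SW, some (.bag s y, .bag s x), none⟩
  else Rule.zero

/-- bag letter, head -/
def ruleBE (s : Bool) (x : BK) (e : EK) : Rule :=
  if s then Rule.zero
  else if e.moving && cons e x then
    (if x = .X ∧ e.target = some .X then ⟨.EQ, .ID, some (.bag false .X, .E e), none⟩
    else if e.target = some x.ty then Rule.zero
    else Rule.stay (.bag false x) (.E e))
  else Rule.zero

/-- head, target letter (unpassed, consistent) -/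
def ruleTgt (e : EK) (x : BK) : Rule :=
  match e with
  | .G φ => if φ = 0 ∧ x = .H .l then Rule.stay (.E (.G φ)) (.bag true x)
      else ⟨.N1, .SW, some (.E (.K φ), .bag true x.out), none⟩
  | .K _ => ⟨.N2, .ID, some (.E e, .bag true x), none⟩
  | .P φ => ⟨.N2, .SW, some (.E (.R φ), .bag true (x.inn φ)), none⟩
  | .R _ => ⟨.N1, .ID, some (.E e, .bag true x), none⟩
  | _ => Rule.stay (.E e) (.bag true x)

/-- head, bag letter -/
def ruleEB (e : EK) (s : Bool) (x : BK) : Rule :=
  if s && cons e x then
    (if e.moving then
      (if x = .X ∧ e.target = some .X then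
        ⟨.EQ, .SW, some (.bag false .X, .E e), some (.E e, .bag true .X)⟩
      else if e.target = some x.ty then ruleTgt e x
      else ⟨.F, .SW, some (.bag false x, .E e), none⟩)
    else Rule.stay (.E e) (.bag true x))
  else Rule.zero

/-- head mode at home in the context `w` of a test -/
def homeE : Option (Ph × Data) → EK
  | none => .home
  | some (φ, _) => .G φ

/-- wall mark of the context `w` of a test -/
def homeW : Option (Ph × Data) → WK
  | none => .w0
  | some (φ, d) => .A φ d

/-- context of a test is admissible with the flag `busy` -/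
def ctxOK (w : Option (Ph × Data)) (busy : Bool) : Bool :=
  match w with
  | none => !busy
  | some (φ, _) => busy && (φ ≠ 0)

/-- wall, head; at home all labels of the pair (wall, head) must be `z` (`NN`), except that a test
`T_X` comes home with an arbitrary label, which is erased -/
def ruleWE (w : WK) (e : EK) : Rule :=
  match w, e with
  | .w0, .home => ⟨.NN, .ID, some (.W .w0, .E .home), none⟩
  | .A φ d, .G ψ => if φ = ψ then
      (if φ = 0 then ⟨.NN, .ID, some (.W .w0, .E .home), none⟩
      else ⟨.NN, .ID, some (.W (.A φ d), .E (.G φ)), none⟩) else Rule.zero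
  | .A φ d, .K ψ => if φ = ψ then ⟨.N1, .ID, some (.W (.A φ d), .E (.K φ)), none⟩ else Rule.zero
  | .C φ d, .N ψ => if φ = ψ then ⟨.N2, .SW, some (.W (.A φ d), .E (.K φ)), none⟩ else Rule.zero
  | .D φ d, .N ψ => if φ = ψ then ⟨.N2, .SW, some (.W (.B φ d), .E (.P φ)), none⟩ else Rule.zero
  | .B φ d, .P ψ => if φ = ψ then ⟨.N1, .ID, some (.W (.B φ d), .E (.P φ)), none⟩ else Rule.zero
  | .B φ d, .R ψ => if φ = ψ then
      (if φ = 10 then ⟨.NN, .ID, some (.W .w0, .E .home), none⟩
      else ⟨.NN, .ID, some (.W (.A (φ + 1) d), .E (.G (φ + 1))), none⟩) else Rule.zero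
  | .S t c, .T t' busy => if t = t' ∧ ctxOK c busy then
      (if t = .X then ⟨.N1, .ER, some (.W (homeW c), .E (homeE c)), none⟩
      else ⟨.NN, .ID, some (.W (homeW c), .E (homeE c)), none⟩) else Rule.zero
  | _, _ => Rule.zero

/-- wall, bag letter -/
def ruleWB (w : WK) (s : Bool) (x : BK) : Rule :=
  if s then Rule.zero
  else match w with
    | .w0 => Rule.zero
    | .C _ _ => Rule.zero
    | .D _ _ => Rule.zero
    | w => Rule.stay (.W w) (.bag false x)

/-- contact rule of phase `φ`: bag letter `x` of the left block, wall `C φ d` -/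
def contact (x x' : BK) (φ : Ph) (d : Data) : Rule :=
  ⟨(op φ d).rd, (op φ d).ac,
    (op φ d).g0.map fun d' => (.bag true x', .W (.D φ d')),
    (op φ d).g1.map fun d' => (.bag true x', .W (.D φ d'))⟩

/-- bag letter, wall of the next block -/
def ruleBW (s : Bool) (x : BK) (w : WK) : Rule :=
  if s then
    match x with
    | .X => Rule.stay (.bag true x) (.W w)
    | .H m =>
        if (m = .l) ↔ locked w = true then
          match w with
          | .C φ d => if tz φ = .H ∧ (m = .l ∨ (φ = 0 ∧ m = .f)) then
              contact (.H m) (.H (if φ = 10 then .f else .l)) φ d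
              else Rule.stay (.bag true x) (.W w)
          | _ => Rule.stay (.bag true x) (.W w)
        else Rule.zero
    | .Y j out =>
        match w with
        | .C φ d => if tz φ = .Y j ∧ out = false then contact (.Y j out) (.Y j out) φ d
            else Rule.stay (.bag true x) (.W w)
        | _ => Rule.stay (.bag true x) (.W w)
  else Rule.zero

/-- THE RULE TABLE -/
def rule : KK → KK → Rule
  | .bag s x, .bag t y => ruleBB s x t y
  | .bag s x, .E e => ruleBE s x e
  | .bag s x, .W w => ruleBW s x w
  | .E e, .bag s x => ruleEB e s x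
  | .E _, .E _ => Rule.zero
  | .E _, .W _ => Rule.zero
  | .W w, .bag s x => ruleWB w s x
  | .W w, .E e => ruleWE w e
  | .W _, .W _ => Rule.zero

/-- the result `g0` (`j = false`) or `g1` (`j = true`) -/
def Rule.g (r : Rule) (j : Bool) : Option (KK × KK) := if j then r.g1 else r.g0

/-- `i`-th bit of the instruction code of the pair `(κ, κ')` -/
def ibit (κ κ' : KK) (i : Fin 6) : Bool := icode (rule κ κ').rd (rule κ κ').ac i

/-! ### label systems -/

/-- label systems: base point `z` and codes of kinds -/
class LabelSys (Λ : Type) where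
  z : Λ
  code : KK → Λ
  decode : Λ → Option KK
  decode_code : ∀ κ, decode (code κ) = some κ
  code_decode : ∀ a κ, decode a = some κ → a = code κ
  decode_z : decode z = none

export LabelSys (z code decode)

section eval
variable {Λ : Type} [DecidableEq Λ] [LabelSys Λ]

/-- evaluation of readings on the labels of two adjacent letters -/
def RD.eval : RD → Λ → Λ → Bool
  | .F, _, _ => false
  | .EQ, a, b => decide (a = b)
  | .N1, a, _ => decide (a ≠ z)
  | .N2, _, b => decide (b ≠ z)
  | .NN, a, b => decide (a ≠ z ∨ b ≠ z)
  | .IB i, a, b => match decode a, decode b with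
      | some κ, some κ' => ibit κ κ' i
      | _, _ => false

/-- evaluation of actions; `none` is zero -/
def AC.eval : AC → Λ → Λ → Option (Λ × Λ)
  | .ID, a, b => some (a, b)
  | .SW, a, b => some (b, a)
  | .ER, a, _ => some (a, z)
  | .APP j, a, b => match decode a, decode b with
      | some κ, some κ' => ((rule κ κ').g j).map fun p => (code p.1, code p.2)
      | _, _ => none

end eval

/-- letters -/
abbrev Let (Λ : Type) := KK × Λ

/-- one step: the product of two letters (`none` is zero) -/
def step {Λ : Type} [DecidableEq Λ] [LabelSys Λ] (x y : Let Λ) : Option (Let Λ × Let Λ) :=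
  if (rule x.1 y.1).rd.eval x.2 y.2 then
    (rule x.1 y.1).g1.map fun p => ((p.1, x.2), (p.2, y.2))
  else (rule x.1 y.1).g0.bind fun p =>
    ((rule x.1 y.1).ac.eval x.2 y.2).map fun q => ((p.1, q.1), (p.2, q.2))

/-- the square of a label system -/
instance LabelSys.sq (Λ : Type) [DecidableEq Λ] [LabelSys Λ] : LabelSys (Λ × Λ) where
  z := (z, z)
  code κ := (code κ, z)
  decode a := if a.2 = z then decode a.1 else none
  decode_code κ := by simp [LabelSys.decode_code]
  code_decode a κ h := by
    by_cases h2 : a.2 = z
    · rw [if_pos h2] at h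
      exact Prod.ext (LabelSys.code_decode _ _ h) h2
    · rw [if_neg h2] at h; exact absurd h (by simp)
  decode_z := by simp [LabelSys.decode_z]

/-- the first label system; its cardinality is even -/
abbrev Lab0 := Option KK × Bool

instance : LabelSys Lab0 where
  z := (none, false)
  code κ := (some κ, false)
  decode a := if a.2 = false then a.1 else none
  decode_code κ := by simp
  code_decode a κ h := by
    obtain ⟨a1, a2⟩ := a
    cases a2 <;> simp_all
  decode_z := by simp

set_option linter.unusedVariables false in
/-- forces the equation lemmas to be generated in this module -/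
theorem force_eqns_Defs : True := by
  have _ := @Crest.Agent.R176.Machine.BK.out.eq_1
  have _ := @Crest.Agent.R176.Machine.BK.out.eq_2
  have _ := @Crest.Agent.R176.Machine.BK.out.eq_3
  have _ := @Crest.Agent.R176.Machine.BK.ty.eq_1
  have _ := @Crest.Agent.R176.Machine.BK.ty.eq_2
  have _ := @Crest.Agent.R176.Machine.BK.ty.eq_3
  have _ := @Crest.Agent.R176.Machine.EK.idle.eq_1
  have _ := @Crest.Agent.R176.Machine.EK.idle.eq_2
  have _ := @Crest.Agent.R176.Machine.EK.idle.eq_3
  have _ := @Crest.Agent.R176.Machine.EK.idle.eq_4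
  have _ := @Crest.Agent.R176.Machine.EK.idle.eq_5
  have _ := @Crest.Agent.R176.Machine.EK.idle.eq_6
  have _ := @Crest.Agent.R176.Machine.EK.idle.eq_7
  have _ := @Crest.Agent.R176.Machine.EK.moving.eq_1
  have _ := @Crest.Agent.R176.Machine.EK.outPh.eq_1
  have _ := @Crest.Agent.R176.Machine.EK.outPh.eq_2
  have _ := @Crest.Agent.R176.Machine.EK.outPh.eq_3
  have _ := @Crest.Agent.R176.Machine.EK.outPh.eq_4
  have _ := @Crest.Agent.R176.Machine.EK.target.eq_1
  have _ := @Crest.Agent.R176.Machine.EK.target.eq_2
  have _ := @Crest.Agent.R176.Machine.EK.target.eq_3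
  have _ := @Crest.Agent.R176.Machine.EK.target.eq_4
  have _ := @Crest.Agent.R176.Machine.EK.target.eq_5
  have _ := @Crest.Agent.R176.Machine.EK.target.eq_6
  have _ := @Crest.Agent.R176.Machine.EK.target.eq_7
  have _ := @Crest.Agent.R176.Machine.Rule.stay.eq_1
  have _ := @Crest.Agent.R176.Machine.Rule.zero.eq_1
  have _ := @Crest.Agent.R176.Machine.cons.eq_1
  have _ := @Crest.Agent.R176.Machine.cons.eq_2
  have _ := @Crest.Agent.R176.Machine.cons.eq_3
  have _ := @Crest.Agent.R176.Machine.ctxOK.eq_1
  have _ := @Crest.Agent.R176.Machine.ctxOK.eq_2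
  have _ := @Crest.Agent.R176.Machine.homeE.eq_1
  have _ := @Crest.Agent.R176.Machine.homeE.eq_2
  have _ := @Crest.Agent.R176.Machine.homeW.eq_1
  have _ := @Crest.Agent.R176.Machine.homeW.eq_2
  have _ := @Crest.Agent.R176.Machine.locked.eq_1
  have _ := @Crest.Agent.R176.Machine.locked.eq_2
  have _ := @Crest.Agent.R176.Machine.locked.eq_3
  have _ := @Crest.Agent.R176.Machine.locked.eq_4
  have _ := @Crest.Agent.R176.Machine.locked.eq_5
  have _ := @Crest.Agent.R176.Machine.locked.eq_6
  have _ := @Crest.Agent.R176.Machine.locked.eq_7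
  have _ := @Crest.Agent.R176.Machine.rule.eq_1
  have _ := @Crest.Agent.R176.Machine.rule.eq_2
  have _ := @Crest.Agent.R176.Machine.rule.eq_3
  have _ := @Crest.Agent.R176.Machine.rule.eq_4
  have _ := @Crest.Agent.R176.Machine.rule.eq_5
  have _ := @Crest.Agent.R176.Machine.rule.eq_6
  have _ := @Crest.Agent.R176.Machine.rule.eq_7
  have _ := @Crest.Agent.R176.Machine.rule.eq_8
  have _ := @Crest.Agent.R176.Machine.rule.eq_9
  have _ := @Crest.Agent.R176.Machine.ruleBB.eq_1
  have _ := @Crest.Agent.R176.Machine.ruleBB.eq_2
  have _ := @Crest.Agent.R176.Machine.ruleBE.eq_1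
  have _ := @Crest.Agent.R176.Machine.ruleBW.eq_1
  have _ := @Crest.Agent.R176.Machine.ruleBW.eq_2
  have _ := @Crest.Agent.R176.Machine.ruleBW.eq_3
  have _ := @Crest.Agent.R176.Machine.ruleBW.eq_4
  have _ := @Crest.Agent.R176.Machine.ruleBW.eq_5
  have _ := @Crest.Agent.R176.Machine.ruleEB.eq_1
  have _ := @Crest.Agent.R176.Machine.ruleTgt.eq_1
  have _ := @Crest.Agent.R176.Machine.ruleTgt.eq_2
  have _ := @Crest.Agent.R176.Machine.ruleTgt.eq_3
  have _ := @Crest.Agent.R176.Machine.ruleTgt.eq_4
  have _ := @Crest.Agent.R176.Machine.ruleTgt.eq_5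
  have _ := @Crest.Agent.R176.Machine.ruleWB.eq_1
  have _ := @Crest.Agent.R176.Machine.ruleWB.eq_2
  have _ := @Crest.Agent.R176.Machine.ruleWB.eq_3
  have _ := @Crest.Agent.R176.Machine.ruleWB.eq_4
  have _ := @Crest.Agent.R176.Machine.ruleWE.eq_1
  have _ := @Crest.Agent.R176.Machine.ruleWE.eq_2
  have _ := @Crest.Agent.R176.Machine.ruleWE.eq_3
  have _ := @Crest.Agent.R176.Machine.ruleWE.eq_4
  have _ := @Crest.Agent.R176.Machine.ruleWE.eq_5
  have _ := @Crest.Agent.R176.Machine.ruleWE.eq_6
  have _ := @Crest.Agent.R176.Machine.ruleWE.eq_7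
  have _ := @Crest.Agent.R176.Machine.ruleWE.eq_8
  have _ := @Crest.Agent.R176.Machine.ruleWE.eq_9
  have _ := @Crest.Agent.R176.Machine.step.eq_1
  trivial

end Crest.Agent.R176.Machine
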