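import Crest.Agent.R176.Machine.Key309A
import Crest.Agent.R176.Machine.Key593Defs

/-!
# Row 176, part A, block (6): LEN and DENS (helper309)

Over the interfaces `NormQ` (own normalisation), `LockP`, `RunP`, `StartP`:
* `locked_locked` : a full block between two locked walls is zero;
* `bad_label` : an unlocked interior wall with inadmissible label gives zero;
* `len` : words without `Ω` letters of length `≥ 5 |Λ| + 30` are zero;
* `dens` : number of non-`X` letters of a nonzero word.
-/

set_option autoImplicit false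
set_option linter.unusedSectionVars false

namespace Crest.Agent.R176.Machine.Key309

open Crest.Agent.R176.Gen Crest.Agent.R176.Machine Crest.Agent.R176.Machine.Key

variable {Λ : Type} [Fintype Λ] [DecidableEq Λ] [LabelSys Λ] {M : Type*} [MonoidWithZero M]

/-- (NORM) own normalisation of a block followed by a wall; if the wall is unlocked and carries a
label `≠ z` then it is the label of `H`, and `H` is free afterwards -/
def NormQ (m : Model (step (Λ := Λ)) M) : Prop :=
  ∀ (w : WK) (a : Λ) (t : List (Let Λ)), (∀ x ∈ t, ¬ IsW x) →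
    (∀ (w' : WK) (b : Λ), m.ev ((((.W w, a) : Let Λ) :: t) ++ [(.W w', b)]) = 0) ∨
    ∃ (c : Option (Ph × Data)) (hm : HM) (q : Cont Λ),
      t.length = Fintype.card Λ + 4 ∧
      (∀ (w' : WK) (b : Λ), m.ev ((((.W w, a) : Let Λ) :: t) ++ [(.W w', b)]) =
        m.ev (blkL c hm q ++ [(.W w', b)])) ∧
      ((c = none ∧ locked w = false ∧ (a = z ∨ (a = q.h ∧ hm = .f)) ∧ (hm = .f ∨ hm = .l)) ∨
       (∃ φ d, φ ≠ 0 ∧ c = some (φ, d) ∧ locked w = true ∧ hm = .b))

theorem NormQ.normP {m : Model (step (Λ := Λ)) M} (h : NormQ m) : NormP m := by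
  intro w a t ht
  rcases h w a t ht with h | ⟨c, hm, q, h1, h2, h3⟩
  · exact Or.inl h
  · refine Or.inr ⟨c, hm, q, h1, h2, ?_⟩
    rcases h3 with ⟨h4, h5, h6, h7⟩ | h3
    · exact Or.inl ⟨h4, h5, h6.imp id And.left, h7⟩
    · exact Or.inr h3

theorem isWb_iff (x : Let Λ) : isWb x = true ↔ IsW x := by
  obtain ⟨κ, a⟩ := x
  rcases κ with _ | _ | w
  · simp [isWb, IsW]
  · simp [isWb, IsW]
  · simp [isWb, IsW]

theorem isWb_false_iff (x : Let Λ) : isWb x = false ↔ ¬ IsW x := by
  rw [← isWb_iff, Bool.not_eq_true]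

/-! ### the run kills inadmissible labels of `H` -/

theorem cstep_h {φ : Ph} (hφ : φ ≠ 10) {d : Data} {a b : Cont Λ} {p : Data × Cont Λ × Cont Λ}
    (h : cstep φ d a b = some p) : p.2.1.h = a.h ∧ p.2.2.h = b.h := by
  by_cases h6 : φ.val < 6
  · rw [cstep_lt6 h6] at h
    cases h; exact ⟨rfl, rfl⟩
  · have : φ = 6 ∨ φ = 7 ∨ φ = 8 ∨ φ = 9 := by
      have h5 : ∀ ψ : Ph, ψ ≠ 10 → ¬ ψ.val < 6 → ψ = 6 ∨ ψ = 7 ∨ ψ = 8 ∨ ψ = 9 := by decide
      exact h5 φ hφ h6
    rcases this with rfl | rfl | rfl | rfl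
    · rw [cstep_6] at h; cases h; exact ⟨rfl, rfl⟩
    · rw [cstep_7] at h; cases h; exact ⟨rfl, rfl⟩
    · rw [cstep_8] at h
      simp only [Option.map_eq_some_iff] at h
      obtain ⟨q, -, rfl⟩ := h; exact ⟨rfl, rfl⟩
    · rw [cstep_9] at h
      split at h
      · cases h; exact ⟨rfl, rfl⟩
      · split at h
        · split at h
          · simp at h
          · cases h; exact ⟨rfl, rfl⟩
        · simp only [Option.map_eq_some_iff] at h
          obtain ⟨q, -, rfl⟩ := h; exact ⟨rfl, rfl⟩

theorem runL_none (l : List Ph) (hl : (10 : Ph) ∈ l) (d : Data) (a b : Cont Λ)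
    (hb : decode b.h = none ∨ decode a.h = none) : runL l d a b = none := by
  induction l generalizing d a b with
  | nil => simp at hl
  | cons φ l ih =>
    rw [runL]
    by_cases hφ : φ = 10
    · subst hφ
      rw [cstep_10]
      have : (AC.APP (bit d)).eval a.h b.h = none := by
        simp only [AC.eval]
        rcases hb with hb | hb <;> rw [hb]
        cases decode a.h <;> rfl
      rw [this]; rfl
    · have hl' : (10 : Ph) ∈ l := by
        simp only [List.mem_cons] at hl
        rcases hl with h | h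
        · exact absurd h.symm hφ
        · exact h
      cases hc : cstep φ d a b with
      | none => rfl
      | some p =>
        have h1 := cstep_h hφ hc
        simp only [Option.bind_some]
        exact ih hl' _ _ _ (by rw [h1.1, h1.2]; exact hb)

theorem ten_mem_allPh : (10 : Ph) ∈ allPh := by decide

theorem not_adm_decode {a : Λ} (h : ¬ Adm a) : decode a = none := by
  cases hd : decode a with
  | none => rfl
  | some κ => exact absurd (Or.inr ⟨κ, LabelSys.code_decode _ _ hd⟩) h

variable {m : Model (step (Λ := Λ)) M}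

/-- a full block between two locked walls is zero -/
theorem locked_locked (hN : NormQ m) (hL : LockP m) {w w' : WK} {a b : Λ} {t : List (Let Λ)}
    (ht : ∀ x ∈ t, ¬ IsW x) (hw : locked w = true) (hw' : locked w' = true) :
    m.ev ((((.W w, a) : Let Λ) :: t) ++ [(.W w', b)]) = 0 := by
  rcases hN w a t ht with h | ⟨c, hm, q, -, h2, h3⟩
  · exact h w' b
  · rw [h2]
    rcases h3 with ⟨-, h, -⟩ | ⟨φ, d, -, -, -, rfl⟩
    · rw [hw] at h; simp at h
    · exact hL c .b q w' b (by simp [hw'])

/-- the two home-empty blocks `A` (any state) and `B` (idle, free, bad label of `H`), with a full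
block before `A` -/
theorem bad_pair (hN : NormQ m) (hL : LockP m) (hR : RunP m) (hS : StartP m)
    {w1 w2 : WK} {a1 a2 : Λ} {t1 t2 : List (Let Λ)} (ht1 : ∀ x ∈ t1, ¬ IsW x)
    (ht2 : ∀ x ∈ t2, ¬ IsW x) (q : Cont Λ) (hq : decode q.h = none) :
    m.ev ((((.W w1, a1) : Let Λ) :: t1) ++ (((.W w2, a2) : Let Λ) :: t2) ++ blkL none .f q) = 0 := by
  -- the third block starts with the wall `w0`
  have hblk : ∀ (c : Option (Ph × Data)) (hm : HM) (q : Cont Λ), ∃ r : List (Let Λ),
      blkL c hm q = [(.W (homeW c), z)] ++ r := fun c hm q => ⟨_, rfl⟩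
  obtain ⟨r, hr⟩ := hblk none .f q
  rcases hN w2 a2 t2 ht2 with h | ⟨c, hm, q2, -, h2, h3⟩
  · rw [hr, List.append_assoc, ← List.append_assoc (_ :: t2), m.ev_append, m.ev_append, h,
      zero_mul, mul_zero]
  · have e1 : m.ev ((((.W w1, a1) : Let Λ) :: t1) ++ (((.W w2, a2) : Let Λ) :: t2) ++ blkL none .f q) =
        m.ev ((((.W w1, a1) : Let Λ) :: t1) ++ blkL c hm q2 ++ blkL none .f q) := by
      rw [hr, List.append_assoc, List.append_assoc, ← List.append_assoc (_ :: t2),
        ← List.append_assoc (blkL c hm q2)]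
      simp only [m.ev_append] at h2 ⊢
      rw [h2]
    rw [e1]
    have hrun : ∀ (q2 : Cont Λ), m.ev (blkL none .f q2 ++ blkL none .f q) = 0 := by
      intro q2
      rw [hS (fun _ => false) q2 q, runL_none _ ten_mem_allPh _ _ _ (Or.inl hq)]
    rcases h3 with ⟨rfl, -, -, rfl | rfl⟩ | ⟨φ, d, hφ, rfl, -, rfl⟩
    · rw [List.append_assoc, m.ev_append, hrun, mul_zero]
    · -- the lock of the middle block does not fit
      have : m.ev (blkL none .l q2 ++ [(.W (homeW none), z)]) = 0 :=
        hL none .l q2 _ _ (by simp [homeW, locked])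
      rw [hr, List.append_assoc, ← List.append_assoc (blkL none .l q2), m.ev_append,
        m.ev_append, this, zero_mul, mul_zero]
    · -- the middle block is busy
      obtain ⟨r2, hr2⟩ := hblk (some (φ, d)) .b q2
      rcases hN w1 a1 t1 ht1 with h | ⟨c1, hm1, q1, -, h4, h5⟩
      · rw [hr2, List.append_assoc, List.append_assoc, ← List.append_assoc (_ :: t1), m.ev_append, h,
          zero_mul]
      · have e2 : m.ev ((((.W w1, a1) : Let Λ) :: t1) ++ blkL (some (φ, d)) .b q2 ++ blkL none .f q) =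
            m.ev (blkL c1 hm1 q1 ++ blkL (some (φ, d)) .b q2 ++ blkL none .f q) := by
          rw [hr2, List.append_assoc, List.append_assoc, ← List.append_assoc (_ :: t1),
            m.ev_append, h4, ← m.ev_append]
          simp only [List.append_assoc]
        rw [e2]
        have hlk : locked (homeW (some (φ, d))) = true := by
          simp [homeW, locked, hφ]
        rcases h5 with ⟨rfl, -, -, rfl | rfl⟩ | ⟨φ', d', -, rfl, -, rfl⟩
        · have := hL none .f q1 (homeW (some (φ, d))) z (by simp [hlk])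
          rw [hr2, List.append_assoc, List.append_assoc, ← List.append_assoc (blkL none .f q1),
            m.ev_append, this, zero_mul]
        · rw [m.ev_append, hR φ d q1 q2 hφ]
          cases runL (allPh.drop φ.val) d q1 q2 with
          | none => simp
          | some p =>
            simp only
            rw [← m.ev_append, List.append_assoc, m.ev_append, hrun, mul_zero]
        · have := hL (some (φ', d')) .b q1 (homeW (some (φ, d))) z (by simp [hlk])
          rw [hr2, List.append_assoc, List.append_assoc, ← List.append_assoc (blkL _ .b q1),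
            m.ev_append, this, zero_mul]

/-- an unlocked wall with an inadmissible label, with two full blocks before it and a full block
after it: zero -/
theorem bad_label (hN : NormQ m) (hL : LockP m) (hR : RunP m) (hS : StartP m)
    {w1 w2 w3 w4 : WK} {a1 a2 a3 a4 : Λ} {t1 t2 t3 : List (Let Λ)} (ht1 : ∀ x ∈ t1, ¬ IsW x)
    (ht2 : ∀ x ∈ t2, ¬ IsW x) (ht3 : ∀ x ∈ t3, ¬ IsW x) (h3 : locked w3 = false)
    (ha3 : ¬ Adm a3) :
    m.ev ((((.W w1, a1) : Let Λ) :: t1) ++ (((.W w2, a2) : Let Λ) :: t2) ++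
      (((.W w3, a3) : Let Λ) :: t3) ++ [(.W w4, a4)]) = 0 := by
  rcases hN w3 a3 t3 ht3 with h | ⟨c, hm, q, -, h2, h4⟩
  · rw [List.append_assoc, m.ev_append, h, mul_zero]
  · rw [List.append_assoc, m.ev_append, h2, ← m.ev_append, ← List.append_assoc, m.ev_append]
    rcases h4 with ⟨rfl, -, h5, -⟩ | ⟨φ, d, -, -, h5, -⟩
    · rcases h5 with h5 | ⟨h5, rfl⟩
      · exact absurd (Or.inl h5) ha3
      · rw [bad_pair hN hL hR hS ht1 ht2 q (by rw [← h5]; exact not_adm_decode ha3), zero_mul]
    · rw [h3] at h5; simp at h5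

/-! ### decomposition of words at the walls -/

/-- segments: a wall and the wall-free word after it -/
def segs (bs : List (WK × Λ × List (Let Λ))) : List (Let Λ) :=
  (bs.map fun p => ((.W p.1, p.2.1) : Let Λ) :: p.2.2).flatten

@[simp] theorem segs_nil : segs ([] : List (WK × Λ × List (Let Λ))) = [] := rfl
@[simp] theorem segs_cons (p : WK × Λ × List (Let Λ)) (bs : List (WK × Λ × List (Let Λ))) :
    segs (p :: bs) = (((.W p.1, p.2.1) : Let Λ) :: p.2.2) ++ segs bs := rfl

theorem exists_segs (w : List (Let Λ)) : ∃ (t : List (Let Λ)) (bs : List (WK × Λ × List (Let Λ))),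
    w = t ++ segs bs ∧ (∀ x ∈ t, ¬ IsW x) ∧ ∀ p ∈ bs, ∀ x ∈ p.2.2, ¬ IsW x := by
  induction w with
  | nil => exact ⟨[], [], rfl, by simp, by simp⟩
  | cons x w ih =>
    obtain ⟨t, bs, rfl, h1, h2⟩ := ih
    by_cases hx : IsW x
    · obtain ⟨wk, hw⟩ := hx
      obtain ⟨κ, a⟩ := x
      simp only at hw
      subst hw
      refine ⟨[], (wk, a, t) :: bs, by simp, by simp, ?_⟩
      intro p hp
      simp only [List.mem_cons] at hp
      rcases hp with rfl | hp
      · exact h1
      · exact h2 p hp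
    · refine ⟨x :: t, bs, by simp, ?_, h2⟩
      intro y hy
      simp only [List.mem_cons] at hy
      rcases hy with rfl | hy
      · exact hx
      · exact h1 y hy

theorem ev_infix_ne {u v w : List (Let Λ)} (h : m.ev (u ++ v ++ w) ≠ 0) : m.ev v ≠ 0 := by
  intro h0; apply h
  rw [m.ev_append, m.ev_append, h0, mul_zero, zero_mul]

theorem segs_len (bs : List (WK × Λ × List (Let Λ))) (h : ∀ p ∈ bs, ∀ x ∈ p.2.2, ¬ IsW x)
    (h0 : m.ev (segs bs) ≠ 0) : (segs bs).length ≤ bs.length * (Fintype.card Λ + 5) := by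
  induction bs with
  | nil => simp
  | cons p bs ih =>
    rw [segs_cons] at h0 ⊢
    have h1 : m.ev (segs bs) ≠ 0 := by
      intro h2; apply h0; rw [m.ev_append, h2, mul_zero]
    have h2 : m.ev p.2.2 ≠ 0 := by
      intro h2; apply h0; rw [m.ev_append, m.ev_cons, h2, mul_zero, zero_mul]
    have h3 := (wfree m p.2.2 (fun x hx => (isWb_false_iff x).2 (h p (by simp) x hx)) h2).1
    have h4 := ih (fun q hq => h q (by simp [hq])) h1
    simp only [List.length_append, List.length_cons]
    have : (bs.length + 1) * (Fintype.card Λ + 5) =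
      bs.length * (Fintype.card Λ + 5) + (Fintype.card Λ + 5) := by ring
    omega

/-- five consecutive walls which are not in `Ω` give zero -/
theorem five (hN : NormQ m) (hL : LockP m) (hR : RunP m) (hS : StartP m)
    {w1 w2 w3 w4 w5 : WK} {a1 a2 a3 a4 a5 : Λ} {t1 t2 t3 t4 : List (Let Λ)}
    (ht1 : ∀ x ∈ t1, ¬ IsW x) (ht2 : ∀ x ∈ t2, ¬ IsW x) (ht3 : ∀ x ∈ t3, ¬ IsW x)
    (ht4 : ∀ x ∈ t4, ¬ IsW x)
    (h3 : ¬ Om ((.W w3, a3) : Let Λ)) (h4 : ¬ Om ((.W w4, a4) : Let Λ)) :
    m.ev ((((.W w1, a1) : Let Λ) :: t1) ++ (((.W w2, a2) : Let Λ) :: t2) ++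
      (((.W w3, a3) : Let Λ) :: t3) ++ (((.W w4, a4) : Let Λ) :: t4) ++ [(.W w5, a5)]) = 0 := by
  cases h3l : locked w3 with
  | false =>
    have hb : ¬ Adm a3 := fun ha => h3 ⟨w3, rfl, h3l, ha⟩
    have := bad_label hN hL hR hS (w1 := w1) (w2 := w2) (w4 := w4) (a1 := a1) (a2 := a2) (a4 := a4)
      ht1 ht2 ht3 h3l hb
    rw [show ((.W w4, a4) : Let Λ) :: t4 = [(.W w4, a4)] ++ t4 from rfl, ← List.append_assoc,
      m.ev_append, m.ev_append, this, zero_mul, zero_mul]
  | true =>
    cases h4l : locked w4 with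
    | true =>
      have := locked_locked hN hL (a := a3) (b := a4) ht3 h3l h4l
      rw [show ((.W w4, a4) : Let Λ) :: t4 = [(.W w4, a4)] ++ t4 from rfl, ← List.append_assoc,
        m.ev_append, m.ev_append, List.append_assoc _ (_ :: t3), m.ev_append, this, mul_zero,
        zero_mul, zero_mul]
    | false =>
      have hb : ¬ Adm a4 := fun ha => h4 ⟨w4, rfl, h4l, ha⟩
      have := bad_label hN hL hR hS (w1 := w2) (w2 := w3) (w4 := w5) (a1 := a2) (a2 := a3)
        (a4 := a5) ht2 ht3 ht4 h4l hb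
      simp only [List.append_assoc] at this ⊢
      rw [m.ev_append, this, mul_zero]

/-- **LEN** -/
theorem len (hN : NormQ m) (hL : LockP m) (hR : RunP m) (hS : StartP m) (w : List (Let Λ))
    (hw : 5 * Fintype.card Λ + 30 ≤ w.length) (hΩ : ∀ x ∈ w, ¬ Om x) : m.ev w = 0 := by
  by_contra h0
  obtain ⟨t, bs, rfl, ht, hbs⟩ := exists_segs w
  have h1 : m.ev t ≠ 0 := by intro h; apply h0; rw [m.ev_append, h, zero_mul]
  have h2 : m.ev (segs bs) ≠ 0 := by intro h; apply h0; rw [m.ev_append, h, mul_zero]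
  have h3 := (wfree m t (fun x hx => (isWb_false_iff x).2 (ht x hx)) h1).1
  have h4 := segs_len bs hbs h2
  have h5 : 5 ≤ bs.length := by
    by_contra h5
    have : bs.length * (Fintype.card Λ + 5) ≤ 4 * (Fintype.card Λ + 5) :=
      Nat.mul_le_mul_right _ (by omega)
    rw [List.length_append] at hw
    omega
  match bs, h5, hbs, h2, hΩ with
  | ⟨w1, a1, t1⟩ :: ⟨w2, a2, t2⟩ :: ⟨w3, a3, t3⟩ :: ⟨w4, a4, t4⟩ :: ⟨w5, a5, t5⟩ :: bs', _, hbs, h2,
      hΩ =>
    have hO : ∀ x, x ∈ segs ((w1, a1, t1) :: (w2, a2, t2) :: (w3, a3, t3) :: (w4, a4, t4) ::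
        (w5, a5, t5) :: bs') → ¬ Om x := fun x hx => hΩ x (by simp only [List.mem_append]; exact Or.inr hx)
    have := five hN hL hR hS (w1 := w1) (w2 := w2) (w5 := w5) (a1 := a1) (a2 := a2) (a5 := a5)
      (hbs (w1, a1, t1) (by simp)) (hbs (w2, a2, t2) (by simp)) (hbs (w3, a3, t3) (by simp))
      (hbs (w4, a4, t4) (by simp)) (hO (.W w3, a3) (by simp)) (hO (.W w4, a4) (by simp))
    apply h2
    have e : segs ((w1, a1, t1) :: (w2, a2, t2) :: (w3, a3, t3) :: (w4, a4, t4) ::
        (w5, a5, t5) :: bs') = ((((.W w1, a1) : Let Λ) :: t1) ++ (((.W w2, a2) : Let Λ) :: t2) ++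
      (((.W w3, a3) : Let Λ) :: t3) ++ (((.W w4, a4) : Let Λ) :: t4) ++ [(.W w5, a5)]) ++
        (t5 ++ segs bs') := by
      simp [segs_cons]
    rw [e, m.ev_append, this, zero_mul]

/-! ### density -/

theorem segs_dens (hN : NormQ m) (bs : List (WK × Λ × List (Let Λ)))
    (h : ∀ p ∈ bs, ∀ x ∈ p.2.2, ¬ IsW x) (h0 : m.ev (segs bs) ≠ 0) :
    ((segs bs).filter nonX).length * (Fintype.card Λ + 5) ≤
      5 * (segs bs).length + 5 * (Fintype.card Λ + 5) := by
  induction bs with
  | nil => simp
  | cons p bs ih =>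
    rw [segs_cons] at h0 ⊢
    have h1 : m.ev (segs bs) ≠ 0 := by
      intro h2; apply h0; rw [m.ev_append, h2, mul_zero]
    have h2 : m.ev p.2.2 ≠ 0 := by
      intro h2; apply h0; rw [m.ev_append, m.ev_cons, h2, mul_zero, zero_mul]
    have h3 := (wfree m p.2.2 (fun x hx => (isWb_false_iff x).2 (h p (by simp) x hx)) h2).2
    have h4 := ih (fun q hq => h q (by simp [hq])) h1
    have h5 : ((((.W p.1, p.2.1) : Let Λ) :: p.2.2).filter nonX).length ≤ 5 := by
      rw [List.filter_cons]
      simp only [nonX, if_true, List.length_cons]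
      omega
    rw [List.filter_append, List.length_append, List.length_append, add_mul]
    cases bs with
    | nil =>
      simp only [segs_nil, List.filter_nil, List.length_nil, zero_mul, add_zero]
      have := Nat.mul_le_mul_right (Fintype.card Λ + 5) h5
      omega
    | cons p' bs =>
      have h6 : p.2.2.length = Fintype.card Λ + 4 := by
        rcases hN p.1 p.2.1 p.2.2 (h p (by simp)) with h7 | ⟨c, hm, q, h7, -⟩
        · exfalso
          apply h0
          rw [segs_cons, show ((.W p'.1, p'.2.1) : Let Λ) :: p'.2.2 = [(.W p'.1, p'.2.1)] ++ p'.2.2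
            from rfl, List.append_assoc, ← List.append_assoc (_ :: p.2.2), m.ev_append, h7, zero_mul]
        · exact h7
      have := Nat.mul_le_mul_right (Fintype.card Λ + 5) h5
      rw [List.length_cons, h6]
      omega

/-- **DENS** -/
theorem dens (hN : NormQ m) (w : List (Let Λ)) (h0 : m.ev w ≠ 0) :
    (w.filter nonX).length * (Fintype.card Λ + 5) ≤
      5 * w.length + 9 * (Fintype.card Λ + 5) := by
  obtain ⟨t, bs, rfl, ht, hbs⟩ := exists_segs w
  have h1 : m.ev t ≠ 0 := by intro h; apply h0; rw [m.ev_append, h, zero_mul]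
  have h2 : m.ev (segs bs) ≠ 0 := by intro h; apply h0; rw [m.ev_append, h, mul_zero]
  have h3 := (wfree m t (fun x hx => (isWb_false_iff x).2 (ht x hx)) h1).2
  have h4 := segs_dens hN bs hbs h2
  rw [List.filter_append, List.length_append, List.length_append, add_mul]
  have := Nat.mul_le_mul_right (Fintype.card Λ + 5) h3
  omega

/-- **DENS**, the form of the hypothesis `hdens` of `Cut660.dens_lemma` -/
theorem dens_chunks (hN : NormQ m) (l : ℕ) (hl : 20 * l < Fintype.card Λ + 5)
    (cs : List (List (Let Λ))) (hcs : 9 * (Fintype.card Λ + 5) < cs.length)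
    (hc : ∀ c ∈ cs, c.length ≤ 4 * l ∧ ∃ x ∈ c, nonX x = true) : m.ev cs.flatten = 0 := by
  by_contra h0
  have h1 := dens hN cs.flatten h0
  have h2 : cs.flatten.length ≤ 4 * l * cs.length ∧
      cs.length ≤ (cs.flatten.filter nonX).length := by
    clear h0 h1 hcs
    induction cs with
    | nil => simp
    | cons c cs ih =>
      obtain ⟨h3, x, hx, hx'⟩ := hc c (by simp)
      obtain ⟨h4, h5⟩ := ih (fun c hc' => hc c (by simp [hc']))
      have h6 : 1 ≤ (c.filter nonX).length :=
        List.length_pos_of_mem (List.mem_filter.2 ⟨hx, hx'⟩)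
      rw [List.flatten_cons, List.filter_append, List.length_append, List.length_append,
        List.length_cons, Nat.mul_add, Nat.mul_one]
      omega
  obtain ⟨h3, h4⟩ := h2
  have h5 : cs.length * (Fintype.card Λ + 5) ≤
      5 * (4 * l * cs.length) + 9 * (Fintype.card Λ + 5) :=
    (Nat.mul_le_mul_right _ h4).trans (h1.trans (by omega))
  have h6 : cs.length * (20 * l + 1) ≤ cs.length * (Fintype.card Λ + 5) :=
    Nat.mul_le_mul_left _ hl
  have h7 : cs.length * (20 * l + 1) = 5 * (4 * l * cs.length) + cs.length := by ring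
  omega

end Crest.Agent.R176.Machine.Key309
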