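import Crest.Agent.R176.Machine.Key593Run

/-!
# Row 176, part A, block (6): KEY (helper593)

Between two segments every segment equals a word of length one or two of the next level, or zero.
-/

set_option autoImplicit false

namespace Crest.Agent.R176.Machine.Key

open Gen Sim

section runs
variable {Λ : Type} [DecidableEq Λ] [LabelSys Λ]

/-- codes -/
def IsCode (a : Λ) : Prop := ∃ κ, a = code κ

theorem ph_cases : ∀ φ : Ph, φ ≠ 10 → ¬ φ.val < 6 → φ = 6 ∨ φ = 7 ∨ φ = 8 ∨ φ = 9 := by decide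

theorem cstep_h {φ : Ph} (hφ : φ ≠ 10) {d : Data} {a b : Cont Λ} {p : Data × Cont Λ × Cont Λ}
    (h : cstep φ d a b = some p) : p.2.1.h = a.h ∧ p.2.2.h = b.h := by
  by_cases h6 : φ.val < 6
  · rw [cstep_lt6 h6] at h
    cases h
    exact ⟨rfl, rfl⟩
  · rcases ph_cases φ hφ h6 with rfl | rfl | rfl | rfl
    · rw [cstep_6] at h; cases h; exact ⟨rfl, rfl⟩
    · rw [cstep_7] at h; cases h; exact ⟨rfl, rfl⟩
    · rw [cstep_8] at h
      obtain ⟨q, -, rfl⟩ := Option.map_eq_some_iff.1 h
      exact ⟨rfl, rfl⟩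
    · rw [cstep_9] at h
      by_cases hb : bit d = true
      · rw [if_pos hb] at h
        cases h; exact ⟨rfl, rfl⟩
      · rw [if_neg hb] at h
        cases hi : (instr d).2 with
        | ID => 
          rw [hi] at h
          obtain ⟨q, -, rfl⟩ := Option.map_eq_some_iff.1 h
          exact ⟨rfl, rfl⟩
        | SW => 
          rw [hi] at h
          obtain ⟨q, -, rfl⟩ := Option.map_eq_some_iff.1 h
          exact ⟨rfl, rfl⟩
        | ER => 
          rw [hi] at h
          obtain ⟨q, -, rfl⟩ := Option.map_eq_some_iff.1 h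
          exact ⟨rfl, rfl⟩
        | APP j =>
          rw [hi] at h
          simp only at h
          by_cases h2 : a.y2 ≠ z ∨ b.y2 ≠ z
          · rw [if_pos h2] at h; cases h
          · rw [if_neg h2] at h; cases h; exact ⟨rfl, rfl⟩

theorem app_codes {j : Bool} {a b : Λ} {q : Λ × Λ} (h : (AC.APP j).eval a b = some q) :
    IsCode a ∧ IsCode b ∧ IsCode q.1 ∧ IsCode q.2 := by
  simp only [AC.eval] at h
  cases ha : decode a with
  | none => rw [ha] at h; exact absurd h (by simp)
  | some κ =>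
    cases hb : decode b with
    | none => rw [ha, hb] at h; exact absurd h (by simp)
    | some κ' =>
      rw [ha, hb] at h
      obtain ⟨p, -, rfl⟩ := Option.map_eq_some_iff.1 h
      exact ⟨⟨κ, LabelSys.code_decode _ _ ha⟩, ⟨κ', LabelSys.code_decode _ _ hb⟩,
        ⟨p.1, rfl⟩, ⟨p.2, rfl⟩⟩

theorem runL_codes (l : List Ph) (hl : ∀ φ ∈ l, φ ≠ 10) :
    ∀ (d : Data) (a b : Cont Λ) (p : Cont Λ × Cont Λ), runL (l ++ [10]) d a b = some p →
      IsCode a.h ∧ IsCode b.h ∧ IsCode p.1.h ∧ IsCode p.2.h := by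
  induction l with
  | nil =>
    intro d a b p h
    simp only [List.nil_append, runL] at h
    rw [cstep_10] at h
    obtain ⟨q, hq, hp⟩ := Option.bind_eq_some_iff.1 h
    obtain ⟨r, hr, rfl⟩ := Option.map_eq_some_iff.1 hq
    cases hp
    exact app_codes hr
  | cons φ l ih =>
    intro d a b p h
    rw [List.cons_append] at h
    simp only [runL] at h
    obtain ⟨q, hq, hp⟩ := Option.bind_eq_some_iff.1 h
    have h1 := cstep_h (hl φ (by simp)) hq
    have h2 := ih (fun ψ hψ => hl ψ (by simp [hψ])) _ _ _ _ hp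
    rw [h1.1, h1.2] at h2
    exact h2

theorem drop_eq : ∀ φ : Ph, allPh.drop φ.val = (allPh.drop φ.val).dropLast ++ [10] ∧
    ∀ ψ ∈ (allPh.drop φ.val).dropLast, ψ ≠ 10 := by decide

theorem runL_drop (φ : Ph) (d : Data) (a b : Cont Λ) (p : Cont Λ × Cont Λ)
    (h : runL (allPh.drop φ.val) d a b = some p) :
    IsCode a.h ∧ IsCode b.h ∧ IsCode p.1.h ∧ IsCode p.2.h := by
  rw [(drop_eq φ).1] at h
  exact runL_codes _ (drop_eq φ).2 _ _ _ _ h

theorem runL_all (d : Data) (a b : Cont Λ) (p : Cont Λ × Cont Λ)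
    (h : runL allPh d a b = some p) :
    IsCode a.h ∧ IsCode b.h ∧ IsCode p.1.h ∧ IsCode p.2.h :=
  runL_drop 0 d a b p h

end runs

section split
variable {Λ : Type}

theorem split_left (v : List (Let Λ)) : (∀ x ∈ v, ¬ IsW x) ∨
    ∃ (t : List (Let Λ)) (w : WK) (a : Λ) (v' : List (Let Λ)),
      v = t ++ ((.W w, a) : Let Λ) :: v' ∧ ∀ x ∈ t, ¬ IsW x := by
  induction v with
  | nil => left; simp
  | cons x v ih =>
    by_cases hx : IsW x
    · right
      obtain ⟨κ, a⟩ := x
      obtain ⟨w, hw⟩ := hx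
      simp only at hw
      subst hw
      exact ⟨[], w, a, v, rfl, by simp⟩
    · rcases ih with h | ⟨t, w, a, v', rfl, ht⟩
      · left
        intro y hy
        rcases List.mem_cons.1 hy with rfl | hy
        · exact hx
        · exact h y hy
      · right
        refine ⟨x :: t, w, a, v', rfl, ?_⟩
        intro y hy
        rcases List.mem_cons.1 hy with rfl | hy
        · exact hx
        · exact ht y hy

theorem split_right (v : List (Let Λ)) : (∀ x ∈ v, ¬ IsW x) ∨
    ∃ (p : List (Let Λ)) (w : WK) (a : Λ) (t : List (Let Λ)),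
      v = p ++ ((.W w, a) : Let Λ) :: t ∧ ∀ x ∈ t, ¬ IsW x := by
  induction v using List.reverseRecOn with
  | nil => left; simp
  | append_singleton v x ih =>
    by_cases hx : IsW x
    · right
      obtain ⟨κ, a⟩ := x
      obtain ⟨w, hw⟩ := hx
      simp only at hw
      subst hw
      exact ⟨v, w, a, [], rfl, by simp⟩
    · rcases ih with h | ⟨p, w, a, t, rfl, ht⟩
      · left
        intro y hy
        rcases List.mem_append.1 hy with hy | hy
        · exact h y hy
        · rw [List.mem_singleton.1 hy]; exact hx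
      · right
        refine ⟨p, w, a, t ++ [x], by simp, ?_⟩
        intro y hy
        rcases List.mem_append.1 hy with hy | hy
        · exact ht y hy
        · rw [List.mem_singleton.1 hy]; exact hx

end split

variable {Λ : Type} [Fintype Λ] [DecidableEq Λ] [LabelSys Λ] {M : Type*} [MonoidWithZero M]
  (m : Model (step (Λ := Λ)) M)

/-- `R` starts with the wall `w` -/
def Sw (w : WK) (R : M) : Prop := ∃ (b : Λ) (r : M), R = m.f (.W w, b) * r

theorem Sw_word (w : WK) (a : Λ) (t : List (Let Λ)) (R : M) :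
    Sw m w (m.ev (((.W w, a) : Let Λ) :: t) * R) := by
  refine ⟨a, m.ev t * R, ?_⟩
  rw [Model.ev_cons, mul_assoc]

theorem Sw_blk (c : Option (Ph × Data)) (hm : HM) (q : Cont Λ) (R : M) :
    Sw m (homeW c) (m.ev (blkL c hm q) * R) := Sw_word m _ _ _ _

theorem lock_none : locked (homeW none) = false := rfl

theorem lock_some {φ : Ph} (d : Data) (hφ : φ ≠ 0) : locked (homeW (some (φ, d))) = true := by
  simp [homeW, locked, hφ]

/-- contextual form of `LockP` -/
theorem lock_zero {c : Option (Ph × Data)} {hm : HM} {q : Cont Λ} {w' : WK} {R : M}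
    (hR : Sw m w' R) (h : ¬ (hm = .l ↔ locked w' = true)) : m.ev (blkL c hm q) * R = 0 := by
  obtain ⟨b, r, rfl⟩ := hR
  have := lockP m c hm q w' b h
  rw [Model.ev_append, Model.ev_singleton] at this
  rw [← mul_assoc, this, zero_mul]

/-- result of the own normalisation of the block `(W w, a) :: t` -/
def NF (w : WK) (a : Λ) (t : List (Let Λ)) (c : Option (Ph × Data)) (hm : HM) (q : Cont Λ) :
    Prop :=
  (∀ (w' : WK) (R : M), Sw m w' R → m.ev (((.W w, a) : Let Λ) :: t) * R = m.ev (blkL c hm q) * R) ∧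
    ((c = none ∧ locked w = false ∧ (a = z ∨ a = q.h) ∧ (hm = .f ∨ hm = .l)) ∨
     (∃ φ d, φ ≠ 0 ∧ c = some (φ, d) ∧ locked w = true ∧ hm = .b))

theorem norm (hN : NormP m) (w : WK) (a : Λ) {t : List (Let Λ)} (ht : ∀ x ∈ t, ¬ IsW x) :
    (∀ (w' : WK) (R : M), Sw m w' R → m.ev (((.W w, a) : Let Λ) :: t) * R = 0) ∨
    ∃ c hm q, NF m w a t c hm q := by
  rcases hN w a t ht with h | ⟨c, hm, q, -, h, hc⟩
  · left
    rintro w' R ⟨b, r, rfl⟩
    have := h w' b
    rw [Model.ev_append, Model.ev_singleton] at this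
    rw [← mul_assoc, this, zero_mul]
  · right
    refine ⟨c, hm, q, ?_, hc⟩
    rintro w' R ⟨b, r, rfl⟩
    have := h w' b
    rw [Model.ev_append, Model.ev_singleton, Model.ev_append, Model.ev_singleton] at this
    rw [← mul_assoc, this, mul_assoc]

/-- an unlocked block is zero or at rest -/
theorem norm_unlocked (hN : NormP m) {w : WK} (hw : locked w = false) (a : Λ)
    {t : List (Let Λ)} (ht : ∀ x ∈ t, ¬ IsW x) :
    (∀ (w' : WK) (R : M), Sw m w' R → m.ev (((.W w, a) : Let Λ) :: t) * R = 0) ∨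
    ∃ q : Cont Λ, (a = z ∨ a = q.h) ∧
      ((∀ (w' : WK) (R : M), Sw m w' R →
          m.ev (((.W w, a) : Let Λ) :: t) * R = m.ev (blkL none .f q) * R) ∨
       (∀ (w' : WK) (R : M), Sw m w' R →
          m.ev (((.W w, a) : Let Λ) :: t) * R = m.ev (blkL none .l q) * R)) := by
  rcases norm m hN w a ht with h | ⟨c, hm, q, h, hc⟩
  · exact Or.inl h
  · rcases hc with ⟨rfl, -, ha, rfl | rfl⟩ | ⟨φ, d, hφ, rfl, hl, rfl⟩
    · exact Or.inr ⟨q, ha, Or.inl h⟩
    · exact Or.inr ⟨q, ha, Or.inr h⟩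
    · rw [hw] at hl; exact absurd hl (by simp)

/-- a locked block is zero or busy -/
theorem norm_locked (hN : NormP m) {w : WK} (hw : locked w = true) (a : Λ)
    {t : List (Let Λ)} (ht : ∀ x ∈ t, ¬ IsW x) :
    (∀ (w' : WK) (R : M), Sw m w' R → m.ev (((.W w, a) : Let Λ) :: t) * R = 0) ∨
    ∃ (q : Cont Λ) (φ : Ph) (d : Data), φ ≠ 0 ∧
      (∀ (w' : WK) (R : M), Sw m w' R →
          m.ev (((.W w, a) : Let Λ) :: t) * R = m.ev (blkL (some (φ, d)) .b q) * R) := by
  rcases norm m hN w a ht with h | ⟨c, hm, q, h, hc⟩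
  · exact Or.inl h
  · rcases hc with ⟨rfl, hl, ha, -⟩ | ⟨φ, d, hφ, rfl, hl, rfl⟩
    · rw [hw] at hl; exact absurd hl (by simp)
    · exact Or.inr ⟨q, φ, d, hφ, h⟩

/-- two resting blocks, one label of `H` is not a code -/
theorem start_zero {a b : Cont Λ} (h : ¬ (IsCode a.h ∧ IsCode b.h)) (R : M) :
    m.ev (blkL none .f a) * (m.ev (blkL none .f b) * R) = 0 := by
  rw [← mul_assoc, ← Model.ev_append, startP m (fun _ => false)]
  cases hr : runL allPh (fun _ => false) a b with
  | none => simp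
  | some p => exact absurd ⟨(runL_all _ _ _ _ hr).1, (runL_all _ _ _ _ hr).2.1⟩ h

/-- an engaged pair: zero or two resting blocks with codes -/
theorem run_pair (φ : Ph) (d : Data) (hφ : φ ≠ 0) (a b : Cont Λ) :
    (∀ R : M, m.ev (blkL none .l a) * (m.ev (blkL (some (φ, d)) .b b) * R) = 0) ∨
    ∃ a' b' : Cont Λ, IsCode a.h ∧ IsCode b.h ∧ IsCode a'.h ∧ IsCode b'.h ∧
      ∀ R : M, m.ev (blkL none .l a) * (m.ev (blkL (some (φ, d)) .b b) * R) =
        m.ev (blkL none .f a') * (m.ev (blkL none .f b') * R) := by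
  cases hr : runL (allPh.drop φ.val) d a b with
  | none =>
    left
    intro R
    rw [← mul_assoc, ← Model.ev_append, runP m φ d a b hφ, hr]
    simp
  | some p =>
    right
    obtain ⟨h1, h2, h3, h4⟩ := runL_drop _ _ _ _ _ hr
    refine ⟨p.1, p.2, h1, h2, h3, h4, fun R => ?_⟩
    rw [← mul_assoc, ← Model.ev_append, runP m φ d a b hφ, hr]
    show m.ev (_ ++ _) * R = _
    rw [Model.ev_append, mul_assoc]

/-! ### the kills -/

/-- last block of a word starting with a wall -/
theorem split_last (w : WK) (a : Λ) (v : List (Let Λ)) :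
    ∃ (p : List (Let Λ)) (w' : WK) (a' : Λ) (t : List (Let Λ)),
      ((.W w, a) : Let Λ) :: v = p ++ ((.W w', a') : Let Λ) :: t ∧ (∀ x ∈ t, ¬ IsW x) ∧
        ((p = [] ∧ w' = w) ∨ ∃ v', p = ((.W w, a) : Let Λ) :: v') := by
  rcases split_right v with h | ⟨p, w', a', t, rfl, ht⟩
  · exact ⟨[], w, a, v, rfl, h, Or.inl ⟨rfl, rfl⟩⟩
  · exact ⟨((.W w, a) : Let Λ) :: p, w', a', t, rfl, ht, Or.inr ⟨p, rfl⟩⟩

/-- an engaged busy block is zero, or it is preceded by its idle partner; afterwards both blocks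
rest and carry codes -/
theorem busy_left (hN : NormP m) (w : WK) (a : Λ) {t : List (Let Λ)} (ht : ∀ x ∈ t, ¬ IsW x)
    (φ : Ph) (d : Data) (hφ : φ ≠ 0) (b : Cont Λ) :
    (∀ R : M, m.ev (((.W w, a) : Let Λ) :: t) * (m.ev (blkL (some (φ, d)) .b b) * R) = 0) ∨
    ∃ a' b' : Cont Λ, IsCode a'.h ∧ IsCode b'.h ∧ locked w = false ∧ Adm a ∧
      ∀ R : M, m.ev (((.W w, a) : Let Λ) :: t) * (m.ev (blkL (some (φ, d)) .b b) * R) =
        m.ev (blkL none .f a') * (m.ev (blkL none .f b') * R) := by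
  have hS : ∀ R : M, Sw m (homeW (some (φ, d))) (m.ev (blkL (some (φ, d)) .b b) * R) :=
    fun R => Sw_blk m _ _ _ _
  have hl : locked (homeW (some (φ, d))) = true := lock_some d hφ
  cases hw : locked w with
  | false =>
    rcases norm_unlocked m hN hw a ht with h | ⟨q, ha, h | h⟩
    · exact Or.inl fun R => h _ _ (hS R)
    · left
      intro R
      rw [h _ _ (hS R)]
      exact lock_zero m (hS R) (by simp [hl])
    · rcases run_pair m φ d hφ q b with h0 | ⟨a', b', hc, -, ha', hb', h1⟩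
      · left
        intro R
        rw [h _ _ (hS R), h0]
      · right
        refine ⟨a', b', ha', hb', rfl, ?_, fun R => ?_⟩
        · rcases ha with ha | ha
          · exact Or.inl ha
          · rw [ha]; exact Or.inr hc
        · rw [h _ _ (hS R), h1]
  | true =>
    left
    rcases norm_locked m hN hw a ht with h | ⟨q, ψ, d', -, h⟩
    · exact fun R => h _ _ (hS R)
    · intro R
      rw [h _ _ (hS R)]
      exact lock_zero m (hS R) (by simp [hl])

/-- a resting block whose `H` is not a code kills everything on its left (if that starts with an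
unlocked wall) -/
theorem killA (hN : NormP m) {w : WK} (hw : locked w = false) (a : Λ) (v : List (Let Λ))
    {q : Cont Λ} (hq : ¬ IsCode q.h) (R : M) :
    m.ev (((.W w, a) : Let Λ) :: v) * (m.ev (blkL none .f q) * R) = 0 := by
  obtain ⟨p, w', a', t, he, ht, hp⟩ := split_last w a v
  have hS : Sw m (homeW none) (m.ev (blkL none .f q) * R) := Sw_blk m _ _ _ _
  rw [he, Model.ev_append, mul_assoc]
  cases hw' : locked w' with
  | false =>
    rcases norm_unlocked m hN hw' a' ht with h | ⟨q', -, h | h⟩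
    · rw [h _ _ hS, mul_zero]
    · rw [h _ _ hS, start_zero m (fun h => hq h.2), mul_zero]
    · rw [h _ _ hS, lock_zero m hS (by simp [lock_none]), mul_zero]
  | true =>
    rcases hp with ⟨-, rfl⟩ | ⟨v', rfl⟩
    · rw [hw] at hw'; exact absurd hw' (by simp)
    · rcases norm_locked m hN hw' a' ht with h | ⟨q', φ, d, hφ, h⟩
      · rw [h _ _ hS, mul_zero]
      · rw [h _ _ hS]
        obtain ⟨p2, w2, a2, t2, he2, ht2, -⟩ := split_last w a v'
        rw [he2, Model.ev_append, mul_assoc]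
        rcases busy_left m hN w2 a2 ht2 φ d hφ q' with h0 | ⟨a3, b3, -, -, -, -, h1⟩
        · rw [h0, mul_zero]
        · rw [h1, start_zero m (fun h => hq h.2), mul_zero, mul_zero]

/-- an unlocked wall with inadmissible label between unlocked walls is zero -/
theorem bad_kill (hN : NormP m) {w : WK} (hw : locked w = false) (a : Λ) (v : List (Let Λ))
    {w1 : WK} (hw1 : locked w1 = false) {a1 : Λ} (ha1 : ¬ Adm a1) (v1 : List (Let Λ))
    {w' : WK} (hw' : locked w' = false) {R : M} (hR : Sw m w' R) :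
    m.ev (((.W w, a) : Let Λ) :: v) * (m.ev (((.W w1, a1) : Let Λ) :: v1) * R) = 0 := by
  -- the next wall is unlocked
  have key : ∀ (t : List (Let Λ)) (w2 : WK) (X : M), (∀ x ∈ t, ¬ IsW x) → locked w2 = false →
      Sw m w2 X → m.ev (((.W w, a) : Let Λ) :: v) * (m.ev (((.W w1, a1) : Let Λ) :: t) * X) = 0 := by
    intro t w2 X ht hw2 hX
    rcases norm_unlocked m hN hw1 a1 ht with h | ⟨q, ha, h | h⟩
    · rw [h _ _ hX, mul_zero]
    · rw [h _ _ hX]
      refine killA m hN hw a v (fun hc => ha1 ?_) X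
      rcases ha with ha | ha
      · exact Or.inl ha
      · rw [ha]; exact Or.inr hc
    · rw [h _ _ hX, lock_zero m hX (by simp [hw2]), mul_zero]
  rcases split_left v1 with h | ⟨t, w2, a2, v2, rfl, ht⟩
  · exact key v1 w' R h hw' hR
  · rw [← List.cons_append, Model.ev_append, mul_assoc (m.ev _) (m.ev _) R]
    cases hw2 : locked w2 with
    | false => exact key t w2 _ ht hw2 (Sw_word m _ _ _ _)
    | true =>
      have key2 : ∀ (t2 : List (Let Λ)) (w3 : WK) (X : M), (∀ x ∈ t2, ¬ IsW x) → Sw m w3 X →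
          m.ev (((.W w1, a1) : Let Λ) :: t) * (m.ev (((.W w2, a2) : Let Λ) :: t2) * X) = 0 := by
        intro t2 w3 X ht2 hX
        rcases norm_locked m hN hw2 a2 ht2 with h | ⟨q, φ, d, hφ, h⟩
        · rw [h _ _ hX, mul_zero]
        · rw [h _ _ hX]
          rcases busy_left m hN w1 a1 ht φ d hφ q with h0 | ⟨-, -, -, -, -, ha, -⟩
          · exact h0 X
          · exact absurd ha ha1
      rcases split_left v2 with h | ⟨t2, w3, a3, v3, rfl, ht2⟩
      · rw [key2 v2 w' R h hR, mul_zero]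
      · rw [← List.cons_append, Model.ev_append, mul_assoc (m.ev _) (m.ev _) R,
          key2 t2 w3 _ ht2 (Sw_word m _ _ _ _), mul_zero]

/-! ### KEY -/

theorem ev_code {q : Cont Λ} {κ : KK} (h : q.h = code κ) :
    m.ev (blkL none .f q) = (sq m).f (κ, (q.y1, q.y2)) := by
  rw [sq_f, PhiL_eq]
  congr 2
  cases q
  simp only at h
  rw [h]
  rfl

/-- KEY, with a left word starting with an unlocked wall and `R` starting with an unlocked wall -/
theorem key_core (hN : NormP m) {w0 : WK} (hw0 : locked w0 = false) (a0 : Λ) (v : List (Let Λ))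
    (hv : ∀ x ∈ v, ¬ Om x) :
    (∀ (wl : WK) (al : Λ) (vl : List (Let Λ)) (wr : WK) (R : M), locked wl = false →
        locked wr = false → Sw m wr R →
        m.ev (((.W wl, al) : Let Λ) :: vl) * (m.ev (((.W w0, a0) : Let Λ) :: v) * R) = 0) ∨
    ∃ x' : List (Let (Λ × Λ)), (x'.length = 1 ∨ x'.length = 2) ∧
      ∀ (wr : WK) (R : M), locked wr = false → Sw m wr R →
        m.ev (((.W w0, a0) : Let Λ) :: v) * R = (sq m).ev x' * R := by
  rcases split_left v with h | ⟨t, w1, a1, v1, rfl, ht⟩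
  · -- no wall in `v`
    rcases norm_unlocked m hN hw0 a0 h with h | ⟨q, -, h | h⟩
    · left
      intro wl al vl wr R hwl hwr hR
      rw [h _ _ hR, mul_zero]
    · by_cases hc : IsCode q.h
      · right
        obtain ⟨κ, hκ⟩ := hc
        refine ⟨[(κ, (q.y1, q.y2))], Or.inl rfl, fun wr R hwr hR => ?_⟩
        rw [h _ _ hR, Model.ev_singleton, ev_code m hκ]
      · left
        intro wl al vl wr R hwl hwr hR
        rw [h _ _ hR]
        exact killA m hN hwl al vl hc R
    · left
      intro wl al vl wr R hwl hwr hR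
      rw [h _ _ hR, lock_zero m hR (by simp [hwr]), mul_zero]
  · have h1 : ¬ Om ((.W w1, a1) : Let Λ) := hv _ (by simp)
    cases hw1 : locked w1 with
    | false =>
      have ha1 : ¬ Adm a1 := fun h => h1 ⟨w1, rfl, hw1, h⟩
      left
      intro wl al vl wr R hwl hwr hR
      rw [← List.cons_append, Model.ev_append, mul_assoc (m.ev _) (m.ev _) R,
        bad_kill m hN hw0 a0 t hw1 ha1 v1 hwr hR, mul_zero]
    | true =>
      rcases split_left v1 with h | ⟨t1, w2, a2, v2, rfl, ht1⟩
      · rcases norm_locked m hN hw1 a1 h with h | ⟨q, φ, d, hφ, h⟩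
        · left
          intro wl al vl wr R hwl hwr hR
          rw [← List.cons_append, Model.ev_append, mul_assoc (m.ev _) (m.ev _) R, h _ _ hR,
            mul_zero, mul_zero]
        · rcases busy_left m hN w0 a0 ht φ d hφ q with h0 | ⟨a', b', ha', hb', -, -, h0⟩
          · left
            intro wl al vl wr R hwl hwr hR
            rw [← List.cons_append, Model.ev_append, mul_assoc (m.ev _) (m.ev _) R, h _ _ hR,
              h0, mul_zero]
          · right
            obtain ⟨κ, hκ⟩ := ha'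
            obtain ⟨κ', hκ'⟩ := hb'
            refine ⟨[(κ, (a'.y1, a'.y2)), (κ', (b'.y1, b'.y2))], Or.inr rfl,
              fun wr R hwr hR => ?_⟩
            rw [← List.cons_append, Model.ev_append, mul_assoc (m.ev _) (m.ev _) R, h _ _ hR,
              h0, Model.ev_cons, Model.ev_singleton, ev_code m hκ, ev_code m hκ', mul_assoc]
      · left
        intro wl al vl wr R hwl hwr hR
        cases hw2 : locked w2 with
        | true =>
          rw [← List.cons_append, Model.ev_append, mul_assoc (m.ev _) (m.ev _) R,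
            ← List.cons_append (bs := (((.W w2, a2) : Let Λ)) :: v2), Model.ev_append,
            mul_assoc (m.ev _) (m.ev _) R]
          have hS : Sw m w2 (m.ev (((.W w2, a2) : Let Λ) :: v2) * R) := Sw_word m _ _ _ _
          rcases norm_locked m hN hw1 a1 ht1 with h | ⟨q, φ, d, hφ, h⟩
          · rw [h _ _ hS, mul_zero, mul_zero]
          · rw [h _ _ hS, lock_zero m hS (by simp [hw2]), mul_zero, mul_zero]
        | false =>
          have h2 : ¬ Om ((.W w2, a2) : Let Λ) := hv _ (by simp)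
          have ha2 : ¬ Adm a2 := fun h => h2 ⟨w2, rfl, hw2, h⟩
          have e : ((.W w0, a0) : Let Λ) :: (t ++ ((.W w1, a1) : Let Λ) ::
              (t1 ++ ((.W w2, a2) : Let Λ) :: v2)) =
              (((.W w0, a0) : Let Λ) :: (t ++ ((.W w1, a1) : Let Λ) :: t1)) ++
                (((.W w2, a2) : Let Λ) :: v2) := by simp
          rw [e, Model.ev_append, mul_assoc (m.ev _) (m.ev _) R,
            bad_kill m hN hw0 a0 _ hw2 ha2 v2 hwr hR, mul_zero]

/-- **KEY** (monoid form): between two segments, a segment is a word of length one or two of the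
next level, or zero. -/
theorem key (hN : NormP m) (ω : Let Λ) (hω : Om ω) (v : List (Let Λ)) (hv : ∀ x ∈ v, ¬ Om x) :
    (∀ (ω₁ : Let Λ) (v₁ : List (Let Λ)) (ω₂ : Let Λ) (v₂ : List (Let Λ)), Om ω₁ → Om ω₂ →
        m.ev (ω₁ :: v₁) * m.ev (ω :: v) * m.ev (ω₂ :: v₂) = 0) ∨
    ∃ x' : List (Let (Λ × Λ)), (x'.length = 1 ∨ x'.length = 2) ∧
      ∀ (ω₁ : Let Λ) (v₁ : List (Let Λ)) (ω₂ : Let Λ) (v₂ : List (Let Λ)), Om ω₁ → Om ω₂ →
        m.ev (ω₁ :: v₁) * m.ev (ω :: v) * m.ev (ω₂ :: v₂) =
          m.ev (ω₁ :: v₁) * (sq m).ev x' * m.ev (ω₂ :: v₂) := by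
  obtain ⟨κ0, a0⟩ := ω
  obtain ⟨w0, h0, hl0, -⟩ := hω
  simp only at h0
  subst h0
  have hSw : ∀ (w : WK) (a : Λ) (t : List (Let Λ)), Sw m w (m.ev (((.W w, a) : Let Λ) :: t)) :=
    fun w a t => ⟨a, m.ev t, by rw [Model.ev_cons]⟩
  rcases key_core m hN hl0 a0 v hv with h | ⟨x', hx', h⟩
  · left
    rintro ⟨κ1, a1⟩ v1 ⟨κ2, a2⟩ v2 ⟨w1, h1, hl1, -⟩ ⟨w2, h2, hl2, -⟩
    simp only at h1 h2
    subst h1 h2
    rw [mul_assoc]
    exact h w1 a1 v1 w2 _ hl1 hl2 (hSw _ _ _)
  · right
    refine ⟨x', hx', ?_⟩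
    rintro ⟨κ1, a1⟩ v1 ⟨κ2, a2⟩ v2 ⟨w1, h1, hl1, -⟩ ⟨w2, h2, hl2, -⟩
    simp only at h1 h2
    subst h1 h2
    rw [mul_assoc, mul_assoc, h w2 _ hl2 (hSw _ _ _)]

end Crest.Agent.R176.Machine.Key
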