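import Crest.Agent.R176.Iter660
import Crest.Agent.R176.Machine.Key593
import Crest.Agent.R176.Machine.Key309B

/-!
# Row 176, part A: glue (helper593)

From the own normalisation `NormQ` of the algebra model: `LenA`, `KeyA` (inputs of helper660's
iteration) and the base case; `qall_of_normQ : (∀ k Λ, NormQ (A.model step k)) → QAll step`.
-/

set_option autoImplicit false

namespace Crest.Agent.R176.Machine.Glue593

open Gen Key Key309 Iter660

section
variable (Λ : Type) [Fintype Λ] [DecidableEq Λ] [LabelSys Λ] (k : Type) [CommRing k]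

theorem lenA (hN : NormQ (A.model (step (Λ := Λ)) k)) : LenA Λ k :=
  ⟨5 * Fintype.card Λ + 30, fun w hw hΩ => len hN (lockP _) (runP _) (startP _) w hw hΩ⟩

theorem mem_deg (st : Let Λ → Let Λ → Option (Let Λ × Let Λ)) (w : List (Let Λ))
    (hw : w.length = 1 ∨ w.length = 2) : A.w st k w ∈ A.deg st k 1 ⊔ A.deg st k 2 := by
  rcases hw with hw | hw
  · exact Submodule.mem_sup_left (Submodule.subset_span ⟨w, hw, rfl⟩)
  · exact Submodule.mem_sup_right (Submodule.subset_span ⟨w, hw, rfl⟩)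

theorem keyA (hN : NormP (A.model (step (Λ := Λ)) k)) : KeyA Λ k := by
  intro ω v hω hv
  rcases key _ hN ω hω v hv with h | ⟨x', hx', h⟩
  · refine ⟨0, Submodule.zero_mem _, ?_⟩
    intro ω₁ v₁ ω₂ v₂ h1 _ h2 _
    rw [map_zero, mul_zero, zero_mul]
    exact h ω₁ v₁ ω₂ v₂ h1 h2
  · refine ⟨A.w (step (Λ := Λ × Λ)) k x', mem_deg (Λ × Λ) k _ x' hx', ?_⟩
    intro ω₁ v₁ ω₂ v₂ h1 _ h2 _
    have : PhiA Λ k (A.w (step (Λ := Λ × Λ)) k x') =
        (Sim.sq (A.model (step (Λ := Λ)) k)).ev x' := by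
      unfold PhiA
      rw [A.lift_w]
    rw [this]
    exact h ω₁ v₁ ω₂ v₂ h1 h2

/-- the unpassed `X` letters -/
def Xu : Set (Let Λ) := {x | x.1 = .bag true .X}
/-- the passed `X` letters -/
def Xp : Set (Let Λ) := {x | x.1 = .bag false .X}

variable {Λ k} in
theorem X_comm {M : Type*} [MonoidWithZero M] (m : Model (step (Λ := Λ)) M) (s : Bool)
    (x y : Let Λ) (hx : x.1 = .bag s .X) (hy : y.1 = .bag s .X) : m.f x * m.f y = m.f y * m.f x := by
  obtain ⟨κ, a⟩ := x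
  obtain ⟨κ', b⟩ := y
  simp only at hx hy
  subst hx hy
  by_cases hab : a = b
  · rw [hab]
  · exact bag_diff m s .X .X a b (by simp [cls, hab])

variable {Λ k} in
theorem X_sq {M : Type*} [MonoidWithZero M] (m : Model (step (Λ := Λ)) M) (s : Bool)
    (x : Let Λ) (hx : x.1 = .bag s .X) : m.f x * m.f x = 0 := by
  obtain ⟨κ, a⟩ := x
  simp only at hx
  subst hx
  exact bag_same m s .X .X a a rfl

theorem nonX_of {x : Let Λ} (h1 : x ∉ Xu Λ) (h2 : x ∉ Xp Λ) : nonX x = true := by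
  obtain ⟨κ, a⟩ := x
  cases κ with
  | bag s b =>
    cases b with
    | X =>
      cases s
      · exact absurd rfl h2
      · exact absurd rfl h1
    | H _ => rfl
    | Y _ _ => rfl
  | E _ => rfl
  | W _ => rfl

/-- base case -/
theorem base [CharP k 2] (hN : NormQ (A.model (step (Λ := Λ)) k)) (n : ℕ)
    (hn : 20 * n + 20 ≤ Fintype.card Λ) : Q Λ k n := by
  intro B hB
  have h2 : (2 : k) = 0 := by exact_mod_cast CharP.cast_eq_zero k 2
  refine Cut660.dens_lemma h2 (lt Λ k) (Xu Λ) (Xp Λ)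
    (fun x hx y hy => X_comm _ true x y hx hy) (fun x hx => X_sq _ true x hx)
    (fun x hx y hy => X_comm _ false x y hx hy) (fun x hx => X_sq _ false x hx)
    ?_ ?_ ?_ B (fun i j => deg_le_span (hB i j))
  · rintro ⟨κ, a⟩ hx ⟨κ', b⟩ hy
    simp only [Xu, Xp, Set.mem_ofPred_eq] at hx hy
    subst hx hy
    exact z_up _ _ _ _ _
  · rintro ⟨κ, a⟩ hx ⟨κ', b⟩ hy
    simp only [Xu, Xp, Set.mem_ofPred_eq] at hx hy
    subst hx hy
    exact z_pu _ _ _ _ _
  · refine ⟨9 * (Fintype.card Λ + 5) + 1, fun cs hcs hc => ?_⟩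
    refine dens_chunks hN n (by omega) cs (by omega) fun c hc' => ?_
    obtain ⟨h3, x, hx, h4, h5⟩ := hc c hc'
    rw [Fintype.card_fin] at h3
    exact ⟨h3, x, hx, nonX_of Λ h4 h5⟩

end

/-- **QAll from NORM** -/
theorem qall_of_normQ
    (hN : ∀ (k : Type) [CommRing k] [CharP k 2] (Λ : Type) [Fintype Λ] [DecidableEq Λ]
      [LabelSys Λ], NormQ (A.model (step (Λ := Λ)) k))
    (Λ : Type) [Fintype Λ] [DecidableEq Λ] [LabelSys Λ] : QAll (step (Λ := Λ)) :=
  qall 20 (fun k _ _ Λ _ _ _ n hn => base Λ k (hN k Λ) n hn)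
    (fun k _ _ Λ _ _ _ => lenA Λ k (hN k Λ))
    (fun k _ _ Λ _ _ _ => keyA Λ k (hN k Λ).normP) Λ

end Crest.Agent.R176.Machine.Glue593
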