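import Crest.Agent.R176.Gen.Basic
import Crest.Agent.R176.Machine.Run

/-!
# Row 176, part A, block (6): length lemmas (helper309)

* `prod_eq_zero_of_not_nodup` : abstract duplicate lemma;
* `ev_bag_zero` : a run of bag letters of one side with a repeated class is zero;
* `WFree` words have bounded length (`len_wfree`).
-/

set_option autoImplicit false

namespace Crest.Agent.R176.Machine.Key309

open Crest.Agent.R176.Gen Crest.Agent.R176.Machine

/-! ### abstract duplicate lemma -/

section abs
variable {α κ M : Type*} [MonoidWithZero M] (f : α → M) (c : α → κ) (P : α → Prop)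

/-- if letters with different classes commute and letters with equal classes have product zero, then
a letter followed by a word containing its class is zero -/
theorem mul_prod_eq_zero (h0 : ∀ x y, P x → P y → c x = c y → f x * f y = 0)
    (h1 : ∀ x y, P x → P y → c x ≠ c y → f x * f y = f y * f x)
    (x : α) (hx : P x) (l : List α) (hl : ∀ y ∈ l, P y) (hc : c x ∈ l.map c) :
    f x * (l.map f).prod = 0 := by
  classical
  induction l with
  | nil => simp at hc
  | cons y l ih =>
    have hy : P y := hl y (by simp)
    by_cases hxy : c x = c y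
    · simp only [List.map_cons, List.prod_cons]
      rw [← mul_assoc, h0 x y hx hy hxy, zero_mul]
    · have hc' : c x ∈ l.map c := by
        simp only [List.map_cons, List.mem_cons] at hc
        exact hc.resolve_left hxy
      simp only [List.map_cons, List.prod_cons]
      rw [← mul_assoc, h1 x y hx hy hxy, mul_assoc, ih (fun z hz => hl z (by simp [hz])) hc',
        mul_zero]

theorem prod_eq_zero_of_not_nodup (h0 : ∀ x y, P x → P y → c x = c y → f x * f y = 0)
    (h1 : ∀ x y, P x → P y → c x ≠ c y → f x * f y = f y * f x)
    (l : List α) (hl : ∀ y ∈ l, P y) (hc : ¬ (l.map c).Nodup) :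
    (l.map f).prod = 0 := by
  classical
  induction l with
  | nil => simp at hc
  | cons y l ih =>
    simp only [List.map_cons, List.nodup_cons, not_and_or, not_not] at hc
    rcases hc with hc | hc
    · simpa using mul_prod_eq_zero f c P h0 h1 y (hl y (by simp)) l
        (fun z hz => hl z (by simp [hz])) hc
    · simp only [List.map_cons, List.prod_cons]
      rw [ih (fun z hz => hl z (by simp [hz])) hc, mul_zero]

end abs

variable {Λ : Type} [DecidableEq Λ] [LabelSys Λ]

/-- class of a bag letter: the type, with the label for `X` -/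
def cls : Let Λ → Option (TT × Option Λ)
  | (.bag _ x, a) => some (x.ty, if x = .X then some a else none)
  | _ => none

variable {M : Type*} [MonoidWithZero M] (m : Model (step (Λ := Λ)) M)

theorem bag_same (s : Bool) (x y : BK) (a b : Λ)
    (h : cls ((KK.bag s x, a) : Let Λ) = cls (KK.bag s y, b)) :
    m.f (.bag s x, a) * m.f (.bag s y, b) = 0 := by
  apply m.rel_none
  simp only [cls, Option.some.injEq, Prod.mk.injEq] at h
  obtain ⟨h1, h2⟩ := h
  cases x <;> cases y <;> simp_all [BK.ty, step, rule, ruleBB, Rule.zero, RD.eval]

theorem bag_diff (s : Bool) (x y : BK) (a b : Λ)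
    (h : cls ((KK.bag s x, a) : Let Λ) ≠ cls (KK.bag s y, b)) :
    m.f (.bag s x, a) * m.f (.bag s y, b) = m.f (.bag s y, b) * m.f (.bag s x, a) := by
  have : step ((KK.bag s x, a) : Let Λ) (KK.bag s y, b) = some ((KK.bag s y, b), (KK.bag s x, a)) := by
    simp only [cls, ne_eq, Option.some.injEq, Prod.mk.injEq, not_and_or] at h
    cases x <;> cases y <;>
      simp_all [BK.ty, step, rule, ruleBB, RD.eval, AC.eval]
  rw [m.rel_some this]

/-- wall letters -/
def isWb : Let Λ → Bool
  | (.W _, _) => true
  | _ => false

/-- letters that are not `X` letters -/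
def nonX : Let Λ → Bool
  | (.bag _ .X, _) => false
  | _ => true

/-- passed bag letter -/
def pl (x : BK × Λ) : Let Λ := (.bag false x.1, x.2)
/-- unpassed bag letter -/
def ul (x : BK × Λ) : Let Λ := (.bag true x.1, x.2)

/-! ### static zero products -/

theorem z_up (x y : BK) (a b : Λ) : m.f (.bag true x, a) * m.f (.bag false y, b) = 0 :=
  m.rel_none (by simp [step, rule, ruleBB, Rule.zero])

theorem z_pu (x y : BK) (a b : Λ) : m.f (.bag false x, a) * m.f (.bag true y, b) = 0 :=
  m.rel_none (by simp [step, rule, ruleBB, Rule.zero])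

theorem z_uE (x : BK) (e : EK) (a b : Λ) : m.f (.bag true x, a) * m.f (.E e, b) = 0 :=
  m.rel_none (by simp [step, rule, ruleBE, Rule.zero])

theorem z_Ep (x : BK) (e : EK) (a b : Λ) : m.f (.E e, a) * m.f (.bag false x, b) = 0 :=
  m.rel_none (by simp [step, rule, ruleEB, Rule.zero])

theorem z_EE (e e' : EK) (a b : Λ) : m.f (.E e, a) * m.f (.E e', b) = 0 :=
  m.rel_none (by simp [step, rule, Rule.zero, RD.eval])

theorem z_EW (e : EK) (w : WK) (a b : Λ) : m.f (.E e, a) * m.f (.W w, b) = 0 :=
  m.rel_none (by simp [step, rule, Rule.zero, RD.eval])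

theorem z_WW (w w' : WK) (a b : Λ) : m.f (.W w, a) * m.f (.W w', b) = 0 :=
  m.rel_none (by simp [step, rule, Rule.zero, RD.eval])

theorem z_Wu (w : WK) (x : BK) (a b : Λ) : m.f (.W w, a) * m.f (.bag true x, b) = 0 :=
  m.rel_none (by simp [step, rule, ruleWB, Rule.zero])

theorem z_pW (w : WK) (x : BK) (a b : Λ) : m.f (.bag false x, a) * m.f (.W w, b) = 0 :=
  m.rel_none (by simp [step, rule, ruleBW, Rule.zero])

/-- a passed letter before the head is the same as an unpassed letter after the head, or zero -/
theorem pE (x : BK) (e : EK) (a b : Λ) :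
    m.f (.bag false x, a) * m.f (.E e, b) = 0 ∨
      m.f (.bag false x, a) * m.f (.E e, b) = m.f (.E e, b) * m.f (.bag true x, a) := by
  by_cases h : (e.moving && cons e x) = true
  · have h' : cons e x = true := by simp only [Bool.and_eq_true] at h; exact h.2
    have h'' : e.moving = true := by simp only [Bool.and_eq_true] at h; exact h.1
    by_cases h1 : x = .X ∧ e.target = some .X
    · by_cases hab : a = b
      · left
        apply m.rel_none
        simp only [step, rule, ruleBE, if_true, if_pos h, if_pos h1, RD.eval, hab]
        simp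
      · right
        symm
        apply m.rel_some (p := ((.bag false x, a), (.E e, b)))
        simp only [step, rule, ruleEB, h', h'', if_true, if_pos h1, Bool.true_and, RD.eval]
        simp [AC.eval, Ne.symm hab, h1.1]
    · by_cases h2 : e.target = some x.ty
      · left
        apply m.rel_none
        simp only [step, rule, ruleBE, if_pos h, if_neg h1, if_pos h2]
        simp [Rule.zero]
      · right
        symm
        apply m.rel_some (p := ((.bag false x, a), (.E e, b)))
        simp only [step, rule, ruleEB, h', h'', if_true, if_neg h1, if_neg h2, Bool.true_and]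
        simp [RD.eval, AC.eval]
  · left
    apply m.rel_none
    simp only [step, rule, ruleBE, if_neg h]
    simp [Rule.zero]

/-- **static parse** of words without walls -/
theorem parse (t : List (Let Λ)) (hW : ∀ x ∈ t, isWb x = false) (h : m.ev t ≠ 0) :
    ∃ P U : List (BK × Λ), (t = P.map pl ++ U.map ul ∧ (P = [] ∨ U = [])) ∨
      ∃ e b, t = P.map pl ++ (.E e, b) :: U.map ul := by
  induction t with
  | nil => exact ⟨[], [], Or.inl ⟨rfl, Or.inl rfl⟩⟩
  | cons x t ih =>
    have ht : m.ev t ≠ 0 := by
      intro h0; apply h; rw [m.ev_cons, h0, mul_zero]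
    have hadj : ∀ y t', t = y :: t' → m.f x * m.f y ≠ 0 := by
      rintro y t' rfl h0
      apply h
      rw [m.ev_cons, m.ev_cons, ← mul_assoc, h0, zero_mul]
    obtain ⟨P, U, hPU⟩ := ih (fun y hy => hW y (by simp [hy])) ht
    obtain ⟨κ, a⟩ := x
    rcases κ with ⟨s, x⟩ | e | w
    · cases s with
      | true =>
        -- unpassed
        rcases hPU with ⟨rfl, hPU⟩ | ⟨e, b, rfl⟩
        · cases P with
          | nil => exact ⟨[], (x, a) :: U, Or.inl ⟨rfl, Or.inl rfl⟩⟩
          | cons y P =>
            exact absurd (z_up m x y.1 a y.2) (hadj (pl y) _ rfl)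
        · cases P with
          | nil => exact absurd (z_uE m x e a b) (hadj (.E e, b) _ rfl)
          | cons y P => exact absurd (z_up m x y.1 a y.2) (hadj (pl y) _ rfl)
      | false =>
        rcases hPU with ⟨rfl, hPU⟩ | ⟨e, b, rfl⟩
        · cases P with
          | nil =>
            cases U with
            | nil => exact ⟨[(x, a)], [], Or.inl ⟨rfl, Or.inr rfl⟩⟩
            | cons y U => exact absurd (z_pu m x y.1 a y.2) (hadj (ul y) _ rfl)
          | cons y P =>
            rcases hPU with h0 | rfl
            · simp at h0
            · exact ⟨(x, a) :: y :: P, [], Or.inl ⟨rfl, Or.inr rfl⟩⟩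
        · exact ⟨(x, a) :: P, U, Or.inr ⟨e, b, rfl⟩⟩
    · rcases hPU with ⟨rfl, hPU⟩ | ⟨e', b, rfl⟩
      · cases P with
        | nil => exact ⟨[], U, Or.inr ⟨e, a, rfl⟩⟩
        | cons y P => exact absurd (z_Ep m y.1 e a y.2) (hadj (pl y) _ rfl)
      · cases P with
        | nil => exact absurd (z_EE m e e' a b) (hadj (.E e', b) _ rfl)
        | cons y P => exact absurd (z_Ep m y.1 e a y.2) (hadj (pl y) _ rfl)
    · exact absurd (hW (.W w, a) (by simp)) (by simp [isWb])

/-- the head moves left over passed letters -/
theorem head_left (P : List (BK × Λ)) (e : EK) (b : Λ) :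
    m.ev (P.map pl) * m.f (.E e, b) = 0 ∨
      m.ev (P.map pl) * m.f (.E e, b) = m.f (.E e, b) * m.ev (P.map ul) := by
  induction P with
  | nil => right; simp
  | cons x P ih =>
    rcases ih with ih | ih
    · left
      rw [List.map_cons, m.ev_cons, mul_assoc, ih, mul_zero]
    · rcases pE m x.1 e x.2 b with h | h
      · left
        rw [List.map_cons, m.ev_cons, mul_assoc, ih, ← mul_assoc]
        change m.f (.bag false x.1, x.2) * m.f (.E e, b) * _ = 0
        rw [h, zero_mul]
      · right
        rw [List.map_cons, m.ev_cons, mul_assoc, ih, ← mul_assoc]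
        change m.f (.bag false x.1, x.2) * m.f (.E e, b) * _ = _
        rw [h, List.map_cons, m.ev_cons, mul_assoc]
        rfl

/-- class of a bag letter -/
def bcls (x : BK × Λ) : TT × Option Λ := (x.1.ty, if x.1 = .X then some x.2 else none)

theorem run_zero (s : Bool) (U : List (BK × Λ)) (h : ¬ (U.map bcls).Nodup) :
    m.ev (U.map fun x => ((.bag s x.1, x.2) : Let Λ)) = 0 := by
  have := prod_eq_zero_of_not_nodup (fun x : BK × Λ => m.f (.bag s x.1, x.2)) bcls (fun _ => True)
    (fun x y _ _ hxy => bag_same m s x.1 y.1 x.2 y.2 (by simpa [cls, bcls] using hxy))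
    (fun x y _ _ hxy => bag_diff m s x.1 y.1 x.2 y.2 (by simpa [cls, bcls] using hxy)) U
    (fun _ _ => trivial) h
  simpa [Model.ev, List.map_map, Function.comp_def] using this

/-- values of the class function -/
def bvals [Fintype Λ] : Finset (TT × Option Λ) :=
  insert (.H, none) (insert (.Y false, none) (insert (.Y true, none)
    (Finset.univ.image fun a : Λ => ((TT.X, some a) : TT × Option Λ))))

theorem card_bvals [Fintype Λ] : (bvals (Λ := Λ)).card ≤ Fintype.card Λ + 3 := by
  unfold bvals
  refine (Finset.card_insert_le _ _).trans ?_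
  refine Nat.succ_le_succ ((Finset.card_insert_le _ _).trans ?_)
  refine Nat.succ_le_succ ((Finset.card_insert_le _ _).trans ?_)
  refine Nat.succ_le_succ (Finset.card_image_le.trans ?_)
  simp

theorem bcls_mem [Fintype Λ] (x : BK × Λ) : bcls x ∈ bvals (Λ := Λ) := by
  obtain ⟨x, a⟩ := x
  cases x with
  | X => simp [bvals, bcls, BK.ty]
  | H _ => simp [bvals, bcls, BK.ty]
  | Y j _ => cases j <;> simp [bvals, bcls, BK.ty]

theorem run_len [Fintype Λ] (U : List (BK × Λ)) (h : (U.map bcls).Nodup) :
    U.length ≤ Fintype.card Λ + 3 := by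
  have h1 : (U.map bcls).toFinset ⊆ bvals (Λ := Λ) := by
    intro c hc
    simp only [List.mem_toFinset, List.mem_map] at hc
    obtain ⟨x, -, rfl⟩ := hc
    exact bcls_mem x
  have h2 := Finset.card_le_card h1
  rw [List.toFinset_card_of_nodup h, List.length_map] at h2
  exact h2.trans card_bvals

/-- number of bag letters different from `X` in a run without duplicates -/
theorem run_nonX (U : List (BK × Λ)) (h : (U.map bcls).Nodup) :
    (U.filter fun x => decide (x.1 ≠ .X)).length ≤ 3 := by
  have hsub : ((U.filter fun x => decide (x.1 ≠ .X)).map bcls).Nodup :=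
    h.sublist (List.Sublist.map _ List.filter_sublist)
  have h1 : ((U.filter fun x => decide (x.1 ≠ .X)).map bcls).toFinset ⊆
      ({(.H, none), (.Y false, none), (.Y true, none)} : Finset (TT × Option Λ)) := by
    intro c hc
    simp only [List.mem_toFinset, List.mem_map, List.mem_filter] at hc
    obtain ⟨⟨x, a⟩, ⟨-, hx⟩, rfl⟩ := hc
    cases x with
    | X => simp at hx
    | H _ => simp [bcls, BK.ty]
    | Y j _ => cases j <;> simp [bcls, BK.ty]
  have h2 := Finset.card_le_card h1
  rw [List.toFinset_card_of_nodup hsub, List.length_map] at h2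
  exact h2.trans Finset.card_le_three

/-- **TAIL / LEN0**: words without walls -/
theorem wfree [Fintype Λ] (t : List (Let Λ)) (hW : ∀ x ∈ t, isWb x = false) (h : m.ev t ≠ 0) :
    t.length ≤ Fintype.card Λ + 4 ∧ (t.filter nonX).length ≤ 4 := by
  obtain ⟨P, U, hPU⟩ := parse m t hW h
  have hcnt : ∀ s : Bool, ∀ V : List (BK × Λ),
      ((V.map fun x => ((.bag s x.1, x.2) : Let Λ)).filter nonX).length =
        (V.filter fun x => decide (x.1 ≠ .X)).length := by
    intro s V
    rw [List.filter_map, List.length_map]
    congr 2
    funext x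
    obtain ⟨x, a⟩ := x
    cases x <;> simp [nonX]
  rcases hPU with ⟨rfl, rfl | rfl⟩ | ⟨e, b, rfl⟩
  · by_cases hn : (U.map bcls).Nodup
    · have h1 := run_len U hn
      have h2 := run_nonX U hn
      have h3 := hcnt true U
      simp only [List.map_nil, List.nil_append, List.length_map]
      refine ⟨by omega, ?_⟩
      change (((U.map fun x => ((.bag true x.1, x.2) : Let Λ))).filter nonX).length ≤ 4
      omega
    · exact absurd (run_zero m true U hn) h
  · rw [List.map_nil, List.append_nil] at h ⊢
    by_cases hn : (P.map bcls).Nodup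
    · have h1 := run_len P hn
      have h2 := run_nonX P hn
      have h3 := hcnt false P
      simp only [List.length_map]
      refine ⟨by omega, ?_⟩
      change (((P.map fun x => ((.bag false x.1, x.2) : Let Λ))).filter nonX).length ≤ 4
      omega
    · exact absurd (run_zero m false P hn) h
  · have h' : m.ev ((P ++ U).map ul) ≠ 0 := by
      intro h0
      apply h
      rw [m.ev_append, m.ev_cons, ← mul_assoc]
      rcases head_left m P e b with h1 | h1
      · rw [h1, zero_mul]
      · rw [h1, mul_assoc, ← m.ev_append, ← List.map_append, h0, mul_zero]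
    by_cases hn : ((P ++ U).map bcls).Nodup
    · have h1 := run_len (P ++ U) hn
      have h2 := run_nonX (P ++ U) hn
      have h3 := hcnt true U
      have h4 := hcnt false P
      simp only [List.length_append, List.filter_append] at h1 h2
      simp only [List.length_append, List.length_map, List.length_cons, List.filter_append]
      refine ⟨by omega, ?_⟩
      change (((P.map fun x => ((.bag false x.1, x.2) : Let Λ))).filter nonX).length +
        (((.E e, b) :: (U.map fun x => ((.bag true x.1, x.2) : Let Λ))).filter nonX).length ≤ 4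
      rw [List.filter_cons]
      simp only [nonX, if_true, List.length_cons]
      change (((P.map fun x => ((.bag false x.1, x.2) : Let Λ))).filter nonX).length +
        ((((U.map fun x => ((.bag true x.1, x.2) : Let Λ))).filter nonX).length + 1) ≤ 4
      omega
    · exact absurd (run_zero m true (P ++ U) hn) h'

end Crest.Agent.R176.Machine.Key309
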