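import Crest.Agent.R176.Machine.Key593Defs
import Crest.Agent.R176.Machine.Sim291B

/-!
# Row 176, part A, block (6): `LockP`, `RunP`, `StartP` for every model (helper593)
-/

set_option autoImplicit false

namespace Crest.Agent.R176.Machine.Key

open Gen Sim

variable {Λ : Type} [Fintype Λ] [DecidableEq Λ] [LabelSys Λ] {M : Type*} [MonoidWithZero M]
  (m : Model (step (Λ := Λ)) M)

theorem ev_blkL (c : Option (Ph × Data)) (hm : HM) (q : Cont Λ) :
    m.ev (blkL c hm q) = W m (homeW c) z * (E m (homeE c) z * um m (bagL hm q)) := by
  have : blkL c hm q = (.W (homeW c), z) :: (.E (homeE c), z) ::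
      (bagL hm q).map fun p => (KK.bag true p.1, p.2) := by
    simp [blkL, bagL, xs, xsL, Function.comp_def]
  rw [this, Model.ev_cons, Model.ev_cons, ev_bag]
  rfl

theorem PhiL_eq (x : Let (Λ × Λ)) : PhiL x = blkL none .f (cont x) := by
  simp [PhiL, blkL, bagL, xs, xsL, Function.comp_def, homeW, homeE]

theorem ev_two (a b : Cont Λ) :
    m.ev (blkL none .f a ++ blkL none .f b) = W m .w0 z * (E m .home z * fin2 m a b) := by
  rw [Model.ev_append, ev_blkL, ev_blkL]
  unfold fin2
  simp only [mul_assoc, homeW, homeE]

theorem lockP : LockP m := by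
  intro c hm q w' b h
  rw [Model.ev_append, ev_blkL, Model.ev_singleton]
  have hp : (bagL hm q).Perm (((.Y false false, q.y1) :: (.Y true false, q.y2) :: xsL Λ) ++
      [(.H hm, q.h)]) := (List.perm_append_singleton _ _).symm
  rw [um_perm m hp, um_append]
  have h0 : U m (.H hm) q.h * m.f (.W w', b) = 0 := by
    unfold U
    have hr : rule (.bag true (.H hm)) (.W w') = Rule.zero := by
      show ruleBW true (.H hm) w' = Rule.zero
      unfold ruleBW
      simp only [if_true, if_neg h]
    rw [rel_eq, hr]
    rfl
  simp only [um_cons, um_nil, mul_one, mul_assoc]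
  rw [h0]
  simp

theorem stt_run (φ : Ph) (d : Data) (a b : Cont Λ) :
    stt m φ d a b = res m (runL (allPh.drop φ.val) d a b) := by
  have h10 := run_ten m
  have h9 := run_step m (φ := 9) (by decide) h10
  have h8 := run_step m (φ := 8) (by decide) h9
  have h7 := run_step m (φ := 7) (by decide) h8
  have h6 := run_step m (φ := 6) (by decide) h7
  have h5 := run_step m (φ := 5) (by decide) h6
  have h4 := run_step m (φ := 4) (by decide) h5
  have h3 := run_step m (φ := 3) (by decide) h4
  have h2 := run_step m (φ := 2) (by decide) h3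
  have h1 := run_step m (φ := 1) (by decide) h2
  have h0 := run_step m (φ := 0) (by decide) h1
  fin_cases φ
  · exact h0 d a b
  · exact h1 d a b
  · exact h2 d a b
  · exact h3 d a b
  · exact h4 d a b
  · exact h5 d a b
  · exact h6 d a b
  · exact h7 d a b
  · exact h8 d a b
  · exact h9 d a b
  · exact h10 d a b

theorem res_ev (r : Option (Cont Λ × Cont Λ)) :
    W m .w0 z * (E m .home z * res m r) =
      match r with
      | none => 0
      | some p => m.ev (blkL none .f p.1 ++ blkL none .f p.2) := by
  cases r with
  | none => simp [res]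
  | some p => simp only [res, ev_two]

theorem runP : RunP m := by
  intro φ d a b hφ
  refine Eq.trans ?_ (res_ev m _)
  rw [← stt_run]
  rw [Model.ev_append, ev_blkL, ev_blkL]
  unfold stt
  simp only [mul_assoc, homeW, homeE, hA, hB, if_neg hφ]

theorem startP : StartP m := by
  intro d a b
  refine Eq.trans ?_ (res_ev m _)
  rw [← run_all, ev_two]

end Crest.Agent.R176.Machine.Key
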