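import Crest.Agent.R176.Machine.Run
import Crest.Agent.R176.Gen.Basic

/-!
# Row 176, part A, block (3): own moves of a block (helper977)

Basic facts in an arbitrary `Gen.Model` of `step`:
bag letters on one side commute, duplicates vanish, the head passes non-target letters.
-/

set_option autoImplicit false

namespace Crest.Agent.R176.Machine

open Gen

/-- raw bag letters: kind and label, without side -/
abbrev BL (Λ : Type) := BK × Λ

variable {Λ : Type}

/-- bag letter on side `s` -/
def bl (s : Bool) (x : BL Λ) : Let Λ := (.bag s x.1, x.2)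
/-- wall letter -/
def wl (w : WK) (a : Λ) : Let Λ := (.W w, a)
/-- head letter -/
def el (e : EK) (a : Λ) : Let Λ := (.E e, a)

/-- list of bag letters on side `s` -/
def bls (s : Bool) (U : List (BL Λ)) : List (Let Λ) := U.map (bl s)

@[simp] theorem bls_nil (s : Bool) : bls s ([] : List (BL Λ)) = [] := rfl
@[simp] theorem bls_cons (s : Bool) (x : BL Λ) (U : List (BL Λ)) :
    bls s (x :: U) = bl s x :: bls s U := rfl
@[simp] theorem bls_append (s : Bool) (U V : List (BL Λ)) :
    bls s (U ++ V) = bls s U ++ bls s V := by simp [bls]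

/-- slots of the inventory of a block -/
inductive Slot (Λ : Type)
  | X (a : Λ)
  | H
  | Y (j : Bool)
  deriving DecidableEq

/-- slot of a bag letter -/
def slot (x : BL Λ) : Slot Λ :=
  match x.1 with
  | .X => .X x.2
  | .H _ => .H
  | .Y j _ => .Y j

variable [DecidableEq Λ] [LabelSys Λ] {M : Type*} [MonoidWithZero M]
variable (m : Model (step (Λ := Λ)) M)

theorem bb_comm (s : Bool) (x y : BL Λ) :
    m.f (bl s x) * m.f (bl s y) = m.f (bl s y) * m.f (bl s x) := by
  obtain ⟨x, a⟩ := x
  obtain ⟨y, b⟩ := y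
  rcases x with _ | hm | ⟨j, o⟩ <;> rcases y with _ | hm' | ⟨j', o'⟩
  · by_cases hab : a = b
    · subst hab; rfl
    · rw [m.rel_some (p := (bl s (.X, b), bl s (.X, a)))]
      simp [step, rule, ruleBB, RD.eval, AC.eval, bl, hab]
  · rw [m.rel_some (p := (bl s (.H hm', b), bl s (.X, a)))]
    simp [step, rule, ruleBB, RD.eval, AC.eval, bl, BK.ty]
  · rw [m.rel_some (p := (bl s (.Y j' o', b), bl s (.X, a)))]
    simp [step, rule, ruleBB, RD.eval, AC.eval, bl, BK.ty]
  · rw [m.rel_some (p := (bl s (.X, b), bl s (.H hm, a)))]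
    simp [step, rule, ruleBB, RD.eval, AC.eval, bl, BK.ty]
  · rw [m.rel_none, m.rel_none] <;>
    simp [step, rule, ruleBB, RD.eval, bl, BK.ty, Rule.zero]
  · rw [m.rel_some (p := (bl s (.Y j' o', b), bl s (.H hm, a)))]
    simp [step, rule, ruleBB, RD.eval, AC.eval, bl, BK.ty]
  · rw [m.rel_some (p := (bl s (.X, b), bl s (.Y j o, a)))]
    simp [step, rule, ruleBB, RD.eval, AC.eval, bl, BK.ty]
  · rw [m.rel_some (p := (bl s (.H hm', b), bl s (.Y j o, a)))]
    simp [step, rule, ruleBB, RD.eval, AC.eval, bl, BK.ty]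
  · by_cases hj : j = j'
    · subst hj
      rw [m.rel_none, m.rel_none] <;>
      simp [step, rule, ruleBB, RD.eval, bl, BK.ty, Rule.zero]
    · rw [m.rel_some (p := (bl s (.Y j' o', b), bl s (.Y j o, a)))]
      simp [step, rule, ruleBB, RD.eval, AC.eval, bl, BK.ty, hj]

theorem bb_dup (s : Bool) {x y : BL Λ} (h : slot x = slot y) :
    m.f (bl s x) * m.f (bl s y) = 0 := by
  obtain ⟨x, a⟩ := x
  obtain ⟨y, b⟩ := y
  apply m.rel_none
  rcases x with _ | hm | ⟨j, o⟩ <;> rcases y with _ | hm' | ⟨j', o'⟩ <;>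
    simp [slot] at h <;>
    simp [step, rule, ruleBB, RD.eval, bl, BK.ty, Rule.zero, h]

theorem bb_sides {s t : Bool} (h : s ≠ t) (x y : BL Λ) :
    m.f (bl s x) * m.f (bl t y) = 0 := by
  apply m.rel_none
  simp [step, rule, ruleBB, RD.eval, bl, Rule.zero, h]

theorem ev_bls_perm (s : Bool) {U V : List (BL Λ)} (h : U.Perm V) :
    m.ev (bls s U) = m.ev (bls s V) := by
  induction h with
  | nil => rfl
  | cons x _ ih => simp [ih]
  | swap x y l =>
    simp only [bls_cons, Model.ev_cons, ← mul_assoc]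
    rw [bb_comm]
  | trans _ _ ih1 ih2 => exact ih1.trans ih2

theorem ev_bls_nodup (s : Bool) {U : List (BL Λ)} (h : m.ev (bls s U) ≠ 0) :
    (U.map slot).Nodup := by
  induction U with
  | nil => simp
  | cons x U ih =>
    rw [List.map_cons, List.nodup_cons]
    constructor
    · intro hx
      obtain ⟨y, hy, hxy⟩ := List.mem_map.mp hx
      apply h
      rw [bls_cons, Model.ev_cons, ev_bls_perm m s (List.perm_cons_erase hy), bls_cons,
        Model.ev_cons, ← mul_assoc, bb_dup m s hxy.symm, zero_mul]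
    · apply ih
      intro h0
      apply h
      rw [bls_cons, Model.ev_cons, h0, mul_zero]

/-- the head with mode `e`, label `b` may pass the bag letter `x` -/
def canPass (e : EK) (b : Λ) (x : BL Λ) : Prop :=
  e.moving = true ∧ cons e x.1 = true ∧ (e.target = some x.1.ty → x.1 = .X ∧ x.2 ≠ b)

instance (e : EK) (b : Λ) (x : BL Λ) : Decidable (canPass e b x) := by
  unfold canPass; infer_instance

omit [DecidableEq Λ] [LabelSys Λ] in
theorem ty_eq_X {x : BK} : x.ty = .X ↔ x = .X := by
  cases x <;> simp [BK.ty]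

theorem eb_pass {e : EK} {b : Λ} {x : BL Λ} (h : canPass e b x) :
    m.f (el e b) * m.f (bl true x) = m.f (bl false x) * m.f (el e b) := by
  obtain ⟨x, c⟩ := x
  obtain ⟨h1, h2, h3⟩ := h
  simp only at h2 h3
  apply m.rel_some (p := (bl false (x, c), el e b))
  by_cases hX : x = .X ∧ e.target = some .X
  · obtain ⟨rfl, ht⟩ := hX
    have hc : b ≠ c := fun h => (h3 ht).2 h.symm
    simp [step, rule, ruleEB, RD.eval, AC.eval, bl, el, h1, h2, ht, hc]
  · have ht : ¬ (e.target = some x.ty) := by
      intro ht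
      obtain ⟨rfl, _⟩ := h3 ht
      exact hX ⟨rfl, ht⟩
    simp only [step, rule, ruleEB, bl, el, h1, h2, if_true, hX, if_false, ht, RD.eval,
      Bool.and_self, Bool.false_eq_true]
    simp [AC.eval]

theorem be_zero {e : EK} {b : Λ} {x : BL Λ} (h : ¬ canPass e b x) :
    m.f (bl false x) * m.f (el e b) = 0 := by
  obtain ⟨x, c⟩ := x
  apply m.rel_none
  unfold canPass at h
  simp only at h
  by_cases h1 : e.moving = true
  · by_cases h2 : cons e x = true
    · have h3 : e.target = some x.ty ∧ ¬ (x = .X ∧ c ≠ b) := by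
        by_contra h3
        apply h
        refine ⟨h1, h2, fun ht => ?_⟩
        by_contra h4
        exact h3 ⟨ht, h4⟩
      obtain ⟨ht, h4⟩ := h3
      by_cases hX : x = .X
      · subst hX
        have hc : c = b := by
          by_contra hc; exact h4 ⟨rfl, hc⟩
        have ht' : e.target = some .X := ht
        simp [step, rule, ruleBE, RD.eval, bl, el, h1, h2, ht', hc]
      · simp [step, rule, ruleBE, RD.eval, bl, el, h1, h2, hX, ht, Rule.zero]
    · simp [step, rule, ruleBE, RD.eval, bl, el, h2, Rule.zero]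
  · simp [step, rule, ruleBE, RD.eval, bl, el, h1, Rule.zero]

theorem be_true_zero (e : EK) (b : Λ) (x : BL Λ) : m.f (bl true x) * m.f (el e b) = 0 := by
  apply m.rel_none
  simp [step, rule, ruleBE, RD.eval, bl, el, Rule.zero]

theorem eb_false_zero (e : EK) (b : Λ) (x : BL Λ) : m.f (el e b) * m.f (bl false x) = 0 := by
  apply m.rel_none
  simp [step, rule, ruleEB, RD.eval, bl, el, Rule.zero]

theorem eb_incons {e : EK} {b : Λ} {x : BL Λ} (h : cons e x.1 = false) :
    m.f (el e b) * m.f (bl true x) = 0 := by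
  apply m.rel_none
  simp [step, rule, ruleEB, RD.eval, bl, el, Rule.zero, h]

theorem ee_zero (e e' : EK) (a b : Λ) : m.f (el e a) * m.f (el e' b) = 0 := by
  apply m.rel_none
  simp [step, rule, RD.eval, el, Rule.zero]

theorem ew_zero (e : EK) (w : WK) (a b : Λ) : m.f (el e a) * m.f (wl w b) = 0 := by
  apply m.rel_none
  simp [step, rule, RD.eval, el, wl, Rule.zero]

theorem ww_zero (w w' : WK) (a b : Λ) : m.f (wl w a) * m.f (wl w' b) = 0 := by
  apply m.rel_none
  simp [step, rule, RD.eval, wl, Rule.zero]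

theorem wb_true_zero (w : WK) (a : Λ) (x : BL Λ) : m.f (wl w a) * m.f (bl true x) = 0 := by
  apply m.rel_none
  simp [step, rule, ruleWB, RD.eval, wl, bl, Rule.zero]

theorem bw_false_zero (w : WK) (a : Λ) (x : BL Λ) : m.f (bl false x) * m.f (wl w a) = 0 := by
  apply m.rel_none
  simp [step, rule, ruleBW, RD.eval, wl, bl, Rule.zero]

/-- the head passes a list of letters -/
theorem eb_pass_list {e : EK} {b : Λ} {U : List (BL Λ)} (h : ∀ x ∈ U, canPass e b x) :
    m.f (el e b) * m.ev (bls true U) = m.ev (bls false U) * m.f (el e b) := by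
  induction U with
  | nil => simp
  | cons x U ih =>
    rw [bls_cons, Model.ev_cons, bls_cons, Model.ev_cons, ← mul_assoc,
      eb_pass m (h x (by simp)), mul_assoc, ih (fun y hy => h y (by simp [hy])), mul_assoc]

/-- letters which cannot be passed kill -/
theorem pe_list_zero {e : EK} {b : Λ} {P : List (BL Λ)} (h : ¬ ∀ x ∈ P, canPass e b x) :
    m.ev (bls false P) * m.f (el e b) = 0 := by
  induction P with
  | nil => exact absurd (by simp) h
  | cons x P ih =>
    rw [bls_cons, Model.ev_cons, mul_assoc]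
    by_cases hP : ∀ y ∈ P, canPass e b y
    · rw [← eb_pass_list m hP, ← mul_assoc, be_zero m, zero_mul]
      intro hx
      apply h
      intro y hy
      rcases List.mem_cons.mp hy with rfl | hy
      · exact hx
      · exact hP y hy
    · rw [ih hP, mul_zero]

/-- inconsistent letters kill -/
theorem eu_incons {e : EK} {b : Λ} {U : List (BL Λ)} (h : ¬ ∀ x ∈ U, cons e x.1 = true) :
    m.f (el e b) * m.ev (bls true U) = 0 := by
  push Not at h
  obtain ⟨x, hx, hc⟩ := h
  rw [ev_bls_perm m true (List.perm_cons_erase hx), bls_cons, Model.ev_cons, ← mul_assoc,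
    eb_incons m (by simpa using hc), zero_mul]

/-- a head which passes everything reaches the next wall -/
theorem eu_sweep {e : EK} {b : Λ} {U : List (BL Λ)} (h : ∀ x ∈ U, canPass e b x) (w : WK) (a : Λ) :
    m.f (el e b) * m.ev (bls true U) * m.f (wl w a) = 0 := by
  rw [eb_pass_list m h, mul_assoc, ew_zero, mul_zero]

/-- block word -/
def blk (w : WK) (a : Λ) (P : List (BL Λ)) (e : EK) (b : Λ) (U : List (BL Λ)) : List (Let Λ) :=
  wl w a :: (bls false P ++ el e b :: bls true U)

theorem ev_blk (w : WK) (a : Λ) (P : List (BL Λ)) (e : EK) (b : Λ) (U : List (BL Λ)) :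
    m.ev (blk w a P e b U) =
      m.f (wl w a) * (m.ev (bls false P) * (m.f (el e b) * m.ev (bls true U))) := by
  simp [blk, Model.ev_append]

omit [DecidableEq Λ] [LabelSys Λ] in
theorem blk_length (w : WK) (a : Λ) (P : List (BL Λ)) (e : EK) (b : Λ) (U : List (BL Λ)) :
    (blk w a P e b U).length = P.length + U.length + 2 := by
  simp [blk, bls]; omega

/-- all passed letters are passable, and the head may go home -/
theorem blk_home {w : WK} {a : Λ} {P : List (BL Λ)} {e : EK} {b : Λ} {U : List (BL Λ)}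
    (h : ∀ x ∈ P, canPass e b x) :
    m.ev (blk w a P e b U) = m.ev (blk w a [] e b (P ++ U)) := by
  rw [ev_blk, ev_blk, bls_nil, Model.ev_nil, one_mul, ← mul_assoc (m.ev (bls false P)),
    ← eb_pass_list m h, bls_append, Model.ev_append, mul_assoc]

theorem blk_canPass {w : WK} {a : Λ} {P : List (BL Λ)} {e : EK} {b : Λ} {U : List (BL Λ)}
    (h : m.ev (blk w a P e b U) ≠ 0) : ∀ x ∈ P, canPass e b x := by
  by_contra hP
  apply h
  rw [ev_blk, ← mul_assoc (m.ev (bls false P)), pe_list_zero m hP, zero_mul, mul_zero]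

theorem blk_cons {w : WK} {a : Λ} {P : List (BL Λ)} {e : EK} {b : Λ} {U : List (BL Λ)}
    (h : m.ev (blk w a P e b U) ≠ 0) : ∀ x ∈ P ++ U, cons e x.1 = true := by
  rw [blk_home m (blk_canPass m h)] at h
  by_contra hP
  apply h
  rw [ev_blk, eu_incons m hP, mul_zero, mul_zero]

theorem blk_nodup {w : WK} {a : Λ} {P : List (BL Λ)} {e : EK} {b : Λ} {U : List (BL Λ)}
    (h : m.ev (blk w a P e b U) ≠ 0) : ((P ++ U).map slot).Nodup := by
  rw [blk_home m (blk_canPass m h)] at h
  apply ev_bls_nodup m true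
  intro h0
  apply h
  rw [ev_blk, h0, mul_zero, mul_zero, mul_zero]

/-- permuting the letters of a block -/
theorem blk_perm {w : WK} {a : Λ} {P P' : List (BL Λ)} {e : EK} {b : Λ} {U U' : List (BL Λ)}
    (hP : P.Perm P') (hU : U.Perm U') :
    m.ev (blk w a P e b U) = m.ev (blk w a P' e b U') := by
  rw [ev_blk, ev_blk, ev_bls_perm m _ hP, ev_bls_perm m _ hU]

end Crest.Agent.R176.Machine
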