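import Crest.Agent.R176.Machine.Own977A

/-!
# Row 176, part A, block (3): target and home rules (helper977)
-/

set_option autoImplicit false

namespace Crest.Agent.R176.Machine

open Gen

/-- the target letter of phase `φ`, label inside, before it is fetched -/
def xin (φ : Ph) : BK :=
  match tz φ with
  | .H => .H (if φ = 0 then .f else .b)
  | .Y j => .Y j false
  | .X => .X

/-- the target letter of phase `φ`, label outside -/
def xout (φ : Ph) : BK := (xin φ).out

/-- the target letter of phase `φ` after the label has been put back -/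
def xback (φ : Ph) : BK := (xin φ).inn φ

/-- the target of a phase is never `X` -/
theorem tz_ne_X : ∀ φ : Ph, tz φ ≠ .X := by decide

theorem xin_ty : ∀ φ : Ph, (xin φ).ty = tz φ := by decide
theorem xout_ty : ∀ φ : Ph, (xout φ).ty = tz φ := by decide
theorem xback_ty : ∀ φ : Ph, (xback φ).ty = tz φ := by decide

theorem rule_G_in (φ : Ph) : rule (.E (.G φ)) (.bag true (xin φ)) =
    ⟨.N1, .SW, some (.E (.K φ), .bag true (xout φ)), none⟩ := by
  fin_cases φ <;> rfl

theorem rule_K_out (φ : Ph) : rule (.E (.K φ)) (.bag true (xout φ)) =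
    ⟨.N2, .ID, some (.E (.K φ), .bag true (xout φ)), none⟩ := by
  fin_cases φ <;> rfl

theorem rule_P_out (φ : Ph) : rule (.E (.P φ)) (.bag true (xout φ)) =
    ⟨.N2, .SW, some (.E (.R φ), .bag true (xback φ)), none⟩ := by
  fin_cases φ <;> rfl

theorem rule_R_in (φ : Ph) (x : BK) (hc : cons (.R φ) x = true) (ht : x.ty = tz φ) :
    rule (.E (.R φ)) (.bag true x) = ⟨.N1, .ID, some (.E (.R φ), .bag true x), none⟩ := by
  have h : ∀ (φ : Ph) (x : BK), cons (.R φ) x = true → x.ty = tz φ →
      (x = xback φ ∨ (φ = 10 ∧ x = .H .l)) := by decide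
  rcases h φ x hc ht with rfl | ⟨rfl, rfl⟩
  · fin_cases φ <;> rfl
  · rfl

theorem G_tgt : ∀ (φ : Ph) (x : BK), cons (.G φ) x = true → x.ty = tz φ →
    (x = xin φ ∨ (φ = 0 ∧ x = .H .l)) := by decide

theorem K_tgt : ∀ (φ : Ph) (x : BK), cons (.K φ) x = true → x.ty = tz φ → x = xout φ := by decide

theorem N_tgt : ∀ (φ : Ph) (x : BK), cons (.N φ) x = true → x.ty = tz φ → x = xout φ := by decide

theorem P_tgt : ∀ (φ : Ph) (x : BK), cons (.P φ) x = true → x.ty = tz φ → x = xout φ := by decide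

theorem R_tgt : ∀ (φ : Ph) (x : BK), cons (.R φ) x = true → x.ty = tz φ →
    (x = xback φ ∨ (φ = 10 ∧ x = .H .l)) := by decide

variable {Λ : Type} [DecidableEq Λ] [LabelSys Λ] {M : Type*} [MonoidWithZero M]
variable (m : Model (step (Λ := Λ)) M)

theorem g_fetch (φ : Ph) (h : Λ) :
    m.f (el (.G φ) z) * m.f (bl true (xin φ, h)) = m.f (el (.K φ) h) * m.f (bl true (xout φ, z)) := by
  apply m.rel_some (p := (el (.K φ) h, bl true (xout φ, z)))
  simp [step, el, bl, rule_G_in, RD.eval, AC.eval]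

theorem g_fetch_zero (φ : Ph) {b : Λ} (hb : b ≠ z) (h : Λ) :
    m.f (el (.G φ) b) * m.f (bl true (xin φ, h)) = 0 := by
  apply m.rel_none
  simp [step, el, bl, rule_G_in, RD.eval, hb]

theorem k_out_zero (φ : Ph) (h : Λ) {c : Λ} (hc : c ≠ z) :
    m.f (el (.K φ) h) * m.f (bl true (xout φ, c)) = 0 := by
  apply m.rel_none
  simp [step, el, bl, rule_K_out, RD.eval, hc]

theorem p_put (φ : Ph) (h : Λ) :
    m.f (el (.P φ) h) * m.f (bl true (xout φ, z)) = m.f (el (.R φ) z) * m.f (bl true (xback φ, h)) := by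
  apply m.rel_some (p := (el (.R φ) z, bl true (xback φ, h)))
  simp [step, el, bl, rule_P_out, RD.eval, AC.eval]

theorem p_put_zero (φ : Ph) (h : Λ) {c : Λ} (hc : c ≠ z) :
    m.f (el (.P φ) h) * m.f (bl true (xout φ, c)) = 0 := by
  apply m.rel_none
  simp [step, el, bl, rule_P_out, RD.eval, hc]

theorem r_in_zero (φ : Ph) {b : Λ} (hb : b ≠ z) {x : BL Λ} (hc : cons (.R φ) x.1 = true)
    (ht : x.1.ty = tz φ) : m.f (el (.R φ) b) * m.f (bl true x) = 0 := by
  apply m.rel_none
  simp [step, el, bl, rule_R_in φ x.1 hc ht, RD.eval, hb]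

/-! ### home -/

theorem wk_zero {φ : Ph} {d : Data} {a b : Λ} (ha : a ≠ z) :
    m.f (wl (.A φ d) a) * m.f (el (.K φ) b) = 0 := by
  apply m.rel_none
  simp [step, wl, el, rule, ruleWE, RD.eval, ha]

theorem cn_zero {φ : Ph} {d : Data} {a b : Λ} (hb : b ≠ z) :
    m.f (wl (.C φ d) a) * m.f (el (.N φ) b) = 0 := by
  apply m.rel_none
  simp [step, wl, el, rule, ruleWE, RD.eval, hb]

theorem cn_step (φ : Ph) (d : Data) (a : Λ) :
    m.f (wl (.C φ d) a) * m.f (el (.N φ) z) = m.f (wl (.A φ d) z) * m.f (el (.K φ) a) := by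
  apply m.rel_some (p := (wl (.A φ d) z, el (.K φ) a))
  simp [step, wl, el, rule, ruleWE, RD.eval, AC.eval]

theorem dn_zero {φ : Ph} {d : Data} {a b : Λ} (hb : b ≠ z) :
    m.f (wl (.D φ d) a) * m.f (el (.N φ) b) = 0 := by
  apply m.rel_none
  simp [step, wl, el, rule, ruleWE, RD.eval, hb]

theorem dn_step (φ : Ph) (d : Data) (a : Λ) :
    m.f (wl (.D φ d) a) * m.f (el (.N φ) z) = m.f (wl (.B φ d) z) * m.f (el (.P φ) a) := by
  apply m.rel_some (p := (wl (.B φ d) z, el (.P φ) a))
  simp [step, wl, el, rule, ruleWE, RD.eval, AC.eval]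

theorem bp_zero {φ : Ph} {d : Data} {a b : Λ} (ha : a ≠ z) :
    m.f (wl (.B φ d) a) * m.f (el (.P φ) b) = 0 := by
  apply m.rel_none
  simp [step, wl, el, rule, ruleWE, RD.eval, ha]

theorem br_zero {φ : Ph} {d : Data} {a b : Λ} (ha : a ≠ z) :
    m.f (wl (.B φ d) a) * m.f (el (.R φ) b) = 0 := by
  apply m.rel_none
  by_cases h : φ = 10 <;>
  simp [step, wl, el, rule, ruleWE, RD.eval, ha, h]

/-- the context of a wall mark: `none` idle, `some (φ, d)` busy with next contact `φ` -/
def ctxOf : WK → Option (Ph × Data)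
  | .w0 => none
  | .A φ d => if φ = 0 then none else some (φ, d)
  | .C φ d => if φ = 0 then none else some (φ, d)
  | .D φ d => if φ = 10 then none else some (φ + 1, d)
  | .B φ d => if φ = 10 then none else some (φ + 1, d)
  | .S _ c => c

theorem br_step (φ : Ph) (d : Data) :
    m.f (wl (.B φ d) z) * m.f (el (.R φ) z) =
      m.f (wl (homeW (ctxOf (.B φ d))) z) * m.f (el (homeE (ctxOf (.B φ d))) z) := by
  apply m.rel_some (p := (wl (homeW (ctxOf (.B φ d))) z, el (homeE (ctxOf (.B φ d))) z))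
  by_cases h : φ = 10 <;>
  simp [step, wl, el, rule, ruleWE, RD.eval, AC.eval, h, ctxOf, homeW, homeE]

theorem ag_step (φ : Ph) (d : Data) :
    m.f (wl (.A φ d) z) * m.f (el (.G φ) z) =
      m.f (wl (homeW (ctxOf (.A φ d))) z) * m.f (el (homeE (ctxOf (.A φ d))) z) := by
  by_cases h : φ = 0
  · apply m.rel_some (p := (wl (homeW (ctxOf (.A φ d))) z, el (homeE (ctxOf (.A φ d))) z))
    simp [step, wl, el, rule, ruleWE, RD.eval, AC.eval, h, ctxOf, homeW, homeE]
  · simp [ctxOf, h, homeW, homeE]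

theorem st_zero {t t' : TT} {c : Option (Ph × Data)} {busy : Bool} {a b : Λ}
    (h : ¬ (t = t' ∧ ctxOK c busy = true)) :
    m.f (wl (.S t c) a) * m.f (el (.T t' busy) b) = 0 := by
  apply m.rel_none
  simp [step, wl, el, rule, ruleWE, RD.eval, h, Rule.zero]

theorem st_zero_label {t t' : TT} {c : Option (Ph × Data)} {busy : Bool} {a b : Λ}
    (ha : a ≠ z) :
    m.f (wl (.S t c) a) * m.f (el (.T t' busy) b) = 0 := by
  by_cases h : t = t' ∧ ctxOK c busy = true
  · apply m.rel_none
    obtain ⟨rfl, h⟩ := h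
    by_cases hX : t = .X
    · simp [step, wl, el, rule, ruleWE, RD.eval, h, ha, hX]
    · simp [step, wl, el, rule, ruleWE, RD.eval, h, ha, hX]
  · exact st_zero m h

theorem st_zero_label' {t t' : TT} {c : Option (Ph × Data)} {busy : Bool} {a b : Λ}
    (ht : t ≠ .X) (hb : b ≠ z) :
    m.f (wl (.S t c) a) * m.f (el (.T t' busy) b) = 0 := by
  by_cases h : t = t' ∧ ctxOK c busy = true
  · apply m.rel_none
    obtain ⟨rfl, h⟩ := h
    simp [step, wl, el, rule, ruleWE, RD.eval, h, hb, ht]
  · exact st_zero m h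

theorem home_zero {a b : Λ} (h : ¬ (a = z ∧ b = z)) : m.f (wl .w0 a) * m.f (el .home b) = 0 := by
  apply m.rel_none
  have h' : a ≠ z ∨ b ≠ z := by
    by_contra hn
    push Not at hn
    exact h hn
  simp only [step, wl, el, rule, ruleWE, RD.eval, h', decide_true, if_true, Option.map_none]

theorem ag_zero {φ : Ph} {d : Data} {a b : Λ} (h : ¬ (a = z ∧ b = z)) :
    m.f (wl (.A φ d) a) * m.f (el (.G φ) b) = 0 := by
  apply m.rel_none
  have h' : a ≠ z ∨ b ≠ z := by
    by_contra hn
    push Not at hn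
    exact h hn
  by_cases hφ : φ = 0
  · simp only [step, wl, el, rule, ruleWE, RD.eval, h', hφ, decide_true, if_true, Option.map_none]
  · simp only [step, wl, el, rule, ruleWE, RD.eval, h', hφ, decide_true, if_true, if_false,
      Option.map_none]

theorem br_zero2 {φ : Ph} {d : Data} {a b : Λ} (h : ¬ (a = z ∧ b = z)) :
    m.f (wl (.B φ d) a) * m.f (el (.R φ) b) = 0 := by
  apply m.rel_none
  have h' : a ≠ z ∨ b ≠ z := by
    by_contra hn
    push Not at hn
    exact h hn
  by_cases hφ : φ = 10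
  · simp only [step, wl, el, rule, ruleWE, RD.eval, h', hφ, decide_true, if_true, Option.map_none]
  · simp only [step, wl, el, rule, ruleWE, RD.eval, h', hφ, decide_true, if_true, if_false,
      Option.map_none]

/-- the possible walls and heads at the wall -/
inductive WE (w : WK) (a : Λ) (e : EK) (b : Λ) : Prop
  | rest (hw : w = .w0) (he : e = .home) (ha : a = z) (hb : b = z)
  | G (φ : Ph) (d : Data) (hw : w = .A φ d) (he : e = .G φ) (ha : a = z) (hb : b = z)
  | K (φ : Ph) (d : Data) (hw : w = .A φ d) (he : e = .K φ) (ha : a = z)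
  | C (φ : Ph) (d : Data) (hw : w = .C φ d) (he : e = .N φ) (hb : b = z)
  | D (φ : Ph) (d : Data) (hw : w = .D φ d) (he : e = .N φ) (hb : b = z)
  | P (φ : Ph) (d : Data) (hw : w = .B φ d) (he : e = .P φ) (ha : a = z)
  | R (φ : Ph) (d : Data) (hw : w = .B φ d) (he : e = .R φ) (ha : a = z) (hb : b = z)
  | T (t : TT) (c : Option (Ph × Data)) (busy : Bool) (hw : w = .S t c) (he : e = .T t busy)
      (hc : ctxOK c busy = true) (ha : a = z) (hb : t ≠ .X → b = z)

theorem we_cases {w : WK} {a : Λ} {e : EK} {b : Λ} (h : m.f (wl w a) * m.f (el e b) ≠ 0) :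
    WE w a e b := by
  have hφ : ∀ (w : WK) (e : EK), (rule (.W w) (.E e)) = Rule.zero →
      m.f (wl w a) * m.f (el e b) = 0 := by
    intro w e hr
    apply m.rel_none
    simp [step, wl, el, hr, Rule.zero, RD.eval]
  rcases w with _ | ⟨φ, d⟩ | ⟨φ, d⟩ | ⟨φ, d⟩ | ⟨φ, d⟩ | ⟨t, c⟩ <;>
    rcases e with _ | ψ | ψ | ψ | ψ | ψ | ⟨t', busy⟩ <;>
    (try exact absurd (hφ _ _ rfl) h)
  · by_cases hab : a = z ∧ b = z
    · exact .rest rfl rfl hab.1 hab.2
    · exact absurd (home_zero m hab) h
  · by_cases hp : φ = ψ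
    · subst hp
      by_cases hab : a = z ∧ b = z
      · exact .G φ d rfl rfl hab.1 hab.2
      · exact absurd (ag_zero m hab) h
    · exact absurd (hφ _ _ (by simp [rule, ruleWE, hp])) h
  · by_cases hp : φ = ψ
    · subst hp
      by_cases ha : a = z
      · exact .K φ d rfl rfl ha
      · exact absurd (wk_zero m ha) h
    · exact absurd (hφ _ _ (by simp [rule, ruleWE, hp])) h
  · by_cases hp : φ = ψ
    · subst hp
      by_cases hb : b = z
      · exact .C φ d rfl rfl hb
      · exact absurd (cn_zero m hb) h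
    · exact absurd (hφ _ _ (by simp [rule, ruleWE, hp])) h
  · by_cases hp : φ = ψ
    · subst hp
      by_cases hb : b = z
      · exact .D φ d rfl rfl hb
      · exact absurd (dn_zero m hb) h
    · exact absurd (hφ _ _ (by simp [rule, ruleWE, hp])) h
  · by_cases hp : φ = ψ
    · subst hp
      by_cases ha : a = z
      · exact .P φ d rfl rfl ha
      · exact absurd (bp_zero m ha) h
    · exact absurd (hφ _ _ (by simp [rule, ruleWE, hp])) h
  · by_cases hp : φ = ψ
    · subst hp
      by_cases hab : a = z ∧ b = z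
      · exact .R φ d rfl rfl hab.1 hab.2
      · exact absurd (br_zero2 m hab) h
    · exact absurd (hφ _ _ (by simp [rule, ruleWE, hp])) h
  · by_cases hp : t = t' ∧ ctxOK c busy = true
    · obtain ⟨rfl, hc⟩ := hp
      by_cases ha : a = z
      · by_cases hb : t ≠ .X → b = z
        · exact .T t c busy rfl rfl hc ha hb
        · push Not at hb
          exact absurd (st_zero_label' m hb.1 hb.2) h
      · exact absurd (st_zero_label m ha) h
    · exact absurd (st_zero m hp) h

theorem st_X {c : Option (Ph × Data)} {busy : Bool} (h : ctxOK c busy = true) (b : Λ) :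
    m.f (wl (.S .X c) z) * m.f (el (.T .X busy) b) =
      m.f (wl (homeW c) z) * m.f (el (homeE c) z) := by
  apply m.rel_some (p := (wl (homeW c) z, el (homeE c) z))
  simp [step, wl, el, rule, ruleWE, RD.eval, AC.eval, h]

theorem st_ne_X {t : TT} (ht : t ≠ .X) {c : Option (Ph × Data)} {busy : Bool}
    (h : ctxOK c busy = true) (b : Λ) (hb : b = z) :
    m.f (wl (.S t c) z) * m.f (el (.T t busy) b) =
      m.f (wl (homeW c) z) * m.f (el (homeE c) b) := by
  apply m.rel_some (p := (wl (homeW c) z, el (homeE c) b))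
  simp [step, wl, el, rule, ruleWE, RD.eval, AC.eval, h, ht, hb]

end Crest.Agent.R176.Machine
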