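import Crest.Agent.R176.Machine.Own977B
import Crest.Agent.R176.Machine.Conf845

/-!
# Row 176, part A, block (3): configurations are equal to their home form (helper977)

`conf_ev` : `Conf s B` implies `m.ev B = m.ev (hword s)`, `hword s` = wall, head at home, all letters.
-/

set_option autoImplicit false

namespace Crest.Agent.R176.Machine

open Gen

variable {Λ : Type}

theorem blk_eq_bword (w : WK) (a : Λ) (P : List (BL Λ)) (e : EK) (b : Λ) (U : List (BL Λ)) :
    blk w a P e b U = bword w a P e b U := rfl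

/-- all letters `X_a` -/
noncomputable def xs (Λ : Type) [Fintype Λ] : List (BL Λ) :=
  (Finset.univ : Finset Λ).toList.map fun a => (.X, a)

/-- the bag letters of a full block as a list -/
noncomputable def bagO [Fintype Λ] [LabelSys Λ] (c : Cont Λ) (hm : HM) (o : Option TT) :
    List (BL Λ) :=
  letH c hm o :: letY c false o :: letY c true o :: xs Λ

theorem bagO_coe [Fintype Λ] [LabelSys Λ] (c : Cont Λ) (hm : HM) (o : Option TT) :
    ((bagO c hm o : List (BL Λ)) : Multiset (BL Λ)) = bagM c hm o := by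
  unfold bagO bagM xs
  rw [← Multiset.cons_coe, ← Multiset.cons_coe, ← Multiset.cons_coe, ← Multiset.map_coe,
    Finset.coe_toList]

theorem mem_xs [Fintype Λ] {x : BL Λ} : x ∈ xs Λ ↔ x.1 = .X := by
  unfold xs
  constructor
  · intro h
    obtain ⟨a, _, rfl⟩ := List.mem_map.mp h
    rfl
  · intro h
    obtain ⟨k, a⟩ := x
    simp only at h
    subst h
    exact List.mem_map.mpr ⟨a, by simp, rfl⟩

theorem nodup_xs [Fintype Λ] : (xs Λ).Nodup := by
  unfold xs
  apply List.Nodup.map
  · intro a b h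
    exact (Prod.mk.inj h).2
  · exact Finset.nodup_toList _

/-- letter of type `tz φ` with mark `hm` if it is `H` -/
def tg (φ : Ph) (hm : HM) : BK :=
  match tz φ with
  | .H => .H hm
  | .Y j => .Y j false
  | .X => .X

/-- mark before the phase -/
def mB (φ : Ph) : HM := if φ = 0 then .f else .b
/-- mark after the phase -/
def mA (φ : Ph) : HM := if φ = 10 then .f else .b

theorem tg_mB : ∀ φ : Ph, tg φ (mB φ) = xin φ := by decide
theorem tg_mA : ∀ φ : Ph, tg φ (mA φ) = xback φ := by decide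

theorem hmark_cur (φ : Ph) (d : Data) : hmark (cur φ d) false = mB φ := by
  unfold cur mB
  by_cases h : φ = 0 <;> simp [h, hmark]

theorem hmark_nxt (φ : Ph) (d : Data) : hmark (nxt φ d) false = mA φ := by
  unfold nxt mA
  by_cases h : φ = 10 <;> simp [h, hmark]

theorem ctxOf_A (φ : Ph) (d : Data) : ctxOf (.A φ d) = cur φ d := rfl
theorem ctxOf_C (φ : Ph) (d : Data) : ctxOf (.C φ d) = cur φ d := rfl
theorem ctxOf_B (φ : Ph) (d : Data) : ctxOf (.B φ d) = nxt φ d := rfl
theorem ctxOf_D (φ : Ph) (d : Data) : ctxOf (.D φ d) = nxt φ d := rfl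

section oth
variable [Fintype Λ] [LabelSys Λ]

/-- the non-target letters of phase `φ` -/
noncomputable def oth (φ : Ph) (hm : HM) (c : Cont Λ) : List (BL Λ) :=
  match tz φ with
  | .X => []
  | .H => (.Y false false, c.y1) :: (.Y true false, c.y2) :: xs Λ
  | .Y false => (.H hm, c.h) :: (.Y true false, c.y2) :: xs Λ
  | .Y true => (.H hm, c.h) :: (.Y false false, c.y1) :: xs Λ

theorem bagO_none (φ : Ph) (hm : HM) (c : Cont Λ) :
    (bagO c hm none).Perm ((tg φ hm, c.get (tz φ)) :: oth φ hm c) := by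
  have h := tz_ne_X φ
  unfold bagO letH letY oth tg
  cases ht : tz φ with
  | X => exact absurd ht h
  | H => simp [Cont.get]
  | Y j =>
    cases j
    · simp only [Cont.get]
      exact List.Perm.swap _ _ _
    · simp only [Cont.get]
      refine List.Perm.trans (List.Perm.cons _ (List.Perm.swap _ _ _)) ?_
      exact List.Perm.swap _ _ _

theorem tg_ne_X : ∀ (φ : Ph), tg φ .f ≠ .X := by decide

theorem bagO_some (φ : Ph) (hm : HM) (c : Cont Λ) :
    (bagO c hm (some (tz φ))).Perm ((xout φ, z) :: oth φ hm c) := by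
  have h := tz_ne_X φ
  unfold bagO letH letY oth xout xin
  cases ht : tz φ with
  | X => exact absurd ht h
  | H => simp [BK.out, Cont.get]
  | Y j =>
    cases j
    · simp only [BK.out, Cont.get]
      simp only [Option.some.injEq, reduceCtorEq, if_false, if_true, TT.Y.injEq]
      exact List.Perm.swap _ _ _
    · simp only [BK.out, Cont.get]
      simp only [Option.some.injEq, reduceCtorEq, if_false, if_true, TT.Y.injEq]
      refine List.Perm.trans (List.Perm.cons _ (List.Perm.swap _ _ _)) ?_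
      exact List.Perm.swap _ _ _

theorem oth_mark (φ : Ph) (c : Cont Λ) : oth φ (mB φ) c = oth φ (mA φ) c := by
  unfold oth
  fin_cases φ <;> simp [tz, mB, mA]

end oth

variable [DecidableEq Λ] [LabelSys Λ] {M : Type*} [MonoidWithZero M]
variable (m : Model (step (Λ := Λ)) M)

/-- value of a block whose head is at the wall -/
def hv (w : WK) (a : Λ) (e : EK) (b : Λ) (V : List (BL Λ)) : M :=
  m.f (wl w a) * m.f (el e b) * m.ev (bls true V)

theorem ev_blk_hv {w : WK} {a : Λ} {P : List (BL Λ)} {e : EK} {b : Λ} {U : List (BL Λ)}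
    (h : ∀ x ∈ P, canPass e b x) : m.ev (blk w a P e b U) = hv m w a e b (P ++ U) := by
  rw [blk_home m h, ev_blk]
  simp [hv, mul_assoc]

theorem hv_perm {w : WK} {a : Λ} {e : EK} {b : Λ} {V V' : List (BL Λ)} (h : V.Perm V') :
    hv m w a e b V = hv m w a e b V' := by
  unfold hv; rw [ev_bls_perm m _ h]

theorem hv_we {w w1 : WK} {a a1 : Λ} {e e1 : EK} {b b1 : Λ} (V : List (BL Λ))
    (h : m.f (wl w a) * m.f (el e b) = m.f (wl w1 a1) * m.f (el e1 b1)) :
    hv m w a e b V = hv m w1 a1 e1 b1 V := by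
  unfold hv; rw [h]

theorem hv_eb {w : WK} {a : Λ} {e e1 : EK} {b b1 : Λ} {x x1 : BL Λ} (V : List (BL Λ))
    (h : m.f (el e b) * m.f (bl true x) = m.f (el e1 b1) * m.f (bl true x1)) :
    hv m w a e b (x :: V) = hv m w a e1 b1 (x1 :: V) := by
  unfold hv
  rw [bls_cons, Model.ev_cons, bls_cons, Model.ev_cons, mul_assoc, mul_assoc,
    ← mul_assoc (m.f (el e b)), h, mul_assoc]

theorem hv_we_zero {w : WK} {a : Λ} {e : EK} {b : Λ} (V : List (BL Λ))
    (h : m.f (wl w a) * m.f (el e b) = 0) : hv m w a e b V = 0 := by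
  unfold hv; rw [h, zero_mul]

theorem hv_eb_zero {w : WK} {a : Λ} {e : EK} {b : Λ} {x : BL Λ} (V : List (BL Λ))
    (h : m.f (el e b) * m.f (bl true x) = 0) : hv m w a e b (x :: V) = 0 := by
  unfold hv
  rw [bls_cons, Model.ev_cons, mul_assoc, ← mul_assoc (m.f (el e b)), h, zero_mul, mul_zero]

theorem hv_sweep {w : WK} {a : Λ} {e : EK} {b : Λ} {V : List (BL Λ)}
    (h : ∀ x ∈ V, canPass e b x) (w' : WK) (a' : Λ) :
    hv m w a e b V * m.f (wl w' a') = 0 := by
  unfold hv
  rw [mul_assoc, mul_assoc, ← mul_assoc (m.f (el e b)), eu_sweep m h, mul_zero]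

theorem hv_cons {w : WK} {a : Λ} {e : EK} {b : Λ} {V : List (BL Λ)}
    (h : hv m w a e b V ≠ 0) : ∀ x ∈ V, cons e x.1 = true := by
  by_contra hV
  apply h
  unfold hv
  rw [mul_assoc, eu_incons m hV, mul_zero]

theorem hv_nodup {w : WK} {a : Λ} {e : EK} {b : Λ} {V : List (BL Λ)}
    (h : hv m w a e b V ≠ 0) : (V.map slot).Nodup := by
  apply ev_bls_nodup m true
  intro h0
  apply h
  unfold hv
  rw [h0, mul_zero]

/-! ### the chain to home, forward (labels `z`) -/

theorem hv_K (φ : Ph) (d : Data) (a v : Λ) (V : List (BL Λ)) :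
    hv m (.A φ d) a (.K φ) v ((xout φ, z) :: V) = hv m (.A φ d) a (.G φ) z ((xin φ, v) :: V) :=
  hv_eb m V (g_fetch m φ v).symm

theorem hv_P (φ : Ph) (d : Data) (a v : Λ) (V : List (BL Λ)) :
    hv m (.B φ d) a (.P φ) v ((xout φ, z) :: V) = hv m (.B φ d) a (.R φ) z ((xback φ, v) :: V) :=
  hv_eb m V (p_put m φ v)

theorem hv_C (φ : Ph) (d : Data) (v : Λ) (V : List (BL Λ)) :
    hv m (.C φ d) v (.N φ) z V = hv m (.A φ d) z (.K φ) v V :=
  hv_we m V (cn_step m φ d v)

theorem hv_D (φ : Ph) (d : Data) (v : Λ) (V : List (BL Λ)) :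
    hv m (.D φ d) v (.N φ) z V = hv m (.B φ d) z (.P φ) v V :=
  hv_we m V (dn_step m φ d v)

theorem hv_G (φ : Ph) (d : Data) (V : List (BL Λ)) :
    hv m (.A φ d) z (.G φ) z V = hv m (homeW (cur φ d)) z (homeE (cur φ d)) z V :=
  hv_we m V (ag_step m φ d)

theorem hv_R (φ : Ph) (d : Data) (V : List (BL Λ)) :
    hv m (.B φ d) z (.R φ) z V = hv m (homeW (nxt φ d)) z (homeE (nxt φ d)) z V :=
  hv_we m V (br_step m φ d)

section fin
variable [Fintype Λ]

theorem hv_K' (φ : Ph) (d : Data) (c : Cont Λ) :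
    hv m (.A φ d) z (.K φ) (c.get (tz φ)) (bagO c (mB φ) (some (tz φ))) =
      hv m (homeW (cur φ d)) z (homeE (cur φ d)) z (bagO c (mB φ) none) := by
  rw [hv_perm m (bagO_some φ (mB φ) c), hv_K, hv_G, hv_perm m (bagO_none φ (mB φ) c), tg_mB]

theorem hv_P' (φ : Ph) (d : Data) (c : Cont Λ) :
    hv m (.B φ d) z (.P φ) (c.get (tz φ)) (bagO c (mA φ) (some (tz φ))) =
      hv m (homeW (nxt φ d)) z (homeE (nxt φ d)) z (bagO c (mA φ) none) := by
  rw [hv_perm m (bagO_some φ (mA φ) c), hv_P, hv_R, hv_perm m (bagO_none φ (mA φ) c), tg_mA]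

/-- home word of an abstract state -/
noncomputable def hword (s : BSt Λ) : List (Let Λ) :=
  bword (homeW s.st) z [] (homeE s.st) z (bagO s.c (hmark s.st s.lk) none)

theorem ev_hword (s : BSt Λ) :
    m.ev (hword s) = hv m (homeW s.st) z (homeE s.st) z (bagO s.c (hmark s.st s.lk) none) := by
  unfold hword
  rw [← blk_eq_bword, ev_blk_hv m (by simp)]
  simp

omit [DecidableEq Λ] in
/-- all letters of a full block are consistent with the head mode -/
theorem own_cons {c : Cont Λ} {st : Option (Ph × Data)} {lk : Bool} {w : WK} {a : Λ} {e : EK}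
    {b : Λ} {o : Option TT} (h : Own c st lk w a e b o) :
    ∀ x ∈ bagO c (hmark st lk) o, cons e x.1 = true := by
  have hx : ∀ x ∈ xs Λ, ∀ e, cons e x.1 = true := by
    intro x hx e
    rw [mem_xs.mp hx]; rfl
  have key : ∀ e, cons e (letH c (hmark st lk) o).1 = true →
      cons e (letY c false o).1 = true → cons e (letY c true o).1 = true →
      ∀ x ∈ bagO c (hmark st lk) o, cons e x.1 = true := by
    intro e h1 h2 h3 x hx'
    unfold bagO at hx'
    simp only [List.mem_cons] at hx'
    rcases hx' with rfl | rfl | rfl | hx'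
    · exact h1
    · exact h2
    · exact h3
    · exact hx x hx' e
  have hN : ∀ (φ : Ph) (hm : HM), (tz φ = .H ∨ hm = .b) → ∀ e : EK, e = .N φ ∨ e = .K φ ∨ e = .P φ →
      (cons e (letH c hm (some (tz φ))).1 = true ∧
      cons e (letY c false (some (tz φ))).1 = true ∧
      cons e (letY c true (some (tz φ))).1 = true) := by
    intro φ hm hh e he
    have : ∀ φ : Ph, tz φ = .H ∨ tz φ = .Y false ∨ tz φ = .Y true := by decide
    rcases this φ with ht | ht | ht
    · rcases he with rfl | rfl | rfl <;>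
      simp [letH, letY, ht, cons, EK.idle, EK.outPh]
    · have hb : hm = .b := by
        rcases hh with hh | hh
        · rw [ht] at hh; exact absurd hh (by decide)
        · exact hh
      rcases he with rfl | rfl | rfl <;>
      simp [letH, letY, ht, cons, EK.idle, EK.outPh, hb]
    · have hb : hm = .b := by
        rcases hh with hh | hh
        · rw [ht] at hh; exact absurd hh (by decide)
        · exact hh
      rcases he with rfl | rfl | rfl <;>
      simp [letH, letY, ht, cons, EK.idle, EK.outPh, hb]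
  have hcur : ∀ φ d, (tz φ = .H ∨ hmark (cur φ d) false = .b) := by
    intro φ d
    rw [hmark_cur]
    have : ∀ φ : Ph, (tz φ = .H ∨ mB φ = .b) := by decide
    exact this φ
  have hnxt : ∀ φ d, (tz φ = .H ∨ hmark (nxt φ d) false = .b) := by
    intro φ d
    rw [hmark_nxt]
    have : ∀ φ : Ph, (tz φ = .H ∨ mA φ = .b) := by decide
    exact this φ
  cases h with
  | rest => apply key <;> cases lk <;> simp [letH, letY, cons, EK.idle, EK.outPh, hmark]
  | G φ d lk h =>
    have : ∀ φ : Ph, φ ≠ 0 → EK.idle (.G φ) = false := by decide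
    by_cases hφ : φ = 0
    · subst hφ
      apply key <;> cases lk <;> simp [letH, letY, cons, EK.idle, EK.outPh, hmark, cur]
    · have hl : lk = false := by
        cases lk
        · rfl
        · exact absurd (h rfl) hφ
      apply key <;> simp [letH, letY, cons, EK.idle, EK.outPh, hmark, cur, hφ, hl]
  | K φ d =>
    obtain ⟨h1, h2, h3⟩ := hN φ _ (hcur φ d) (.K φ) (by simp)
    exact key _ h1 h2 h3
  | C φ d =>
    obtain ⟨h1, h2, h3⟩ := hN φ _ (hcur φ d) (.N φ) (by simp)
    exact key _ h1 h2 h3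
  | D φ d =>
    obtain ⟨h1, h2, h3⟩ := hN φ _ (hnxt φ d) (.N φ) (by simp)
    exact key _ h1 h2 h3
  | P φ d =>
    obtain ⟨h1, h2, h3⟩ := hN φ _ (hnxt φ d) (.P φ) (by simp)
    exact key _ h1 h2 h3
  | R φ d lk h =>
    by_cases hφ : φ = 10
    · subst hφ
      apply key <;> cases lk <;> simp [letH, letY, cons, EK.idle, EK.outPh, hmark, nxt]
    · have hl : lk = false := by
        cases lk
        · rfl
        · exact absurd (h rfl) hφ
      apply key <;> simp [letH, letY, cons, EK.idle, EK.outPh, hmark, nxt, hφ, hl]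
  | Ti t b lk h => apply key <;> cases lk <;> simp [letH, letY, cons, EK.idle, EK.outPh, hmark]
  | Tb t b φ d hφ h => apply key <;> simp [letH, letY, cons, EK.idle, EK.outPh, hmark]

omit [DecidableEq Λ] [LabelSys Λ] [Fintype Λ] in
theorem canPass_of_Passable {e : EK} {b : Λ} {x : BL Λ} (h : Passable e b x)
    (hc : cons e x.1 = true) : canPass e b x := by
  obtain ⟨h1, h2, h3⟩ := h
  refine ⟨h1, hc, fun ht => ?_⟩
  by_cases hX : e.target = some .X
  · have hx : x.1 = .X := by
      rw [ht] at hX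
      exact ty_eq_X.mp (Option.some.inj hX)
    refine ⟨hx, fun hb => ?_⟩
    apply h2 hX
    exact Prod.ext hx hb
  · exact absurd ht (h3 hX)

omit [DecidableEq Λ] [LabelSys Λ] [Fintype Λ] in
theorem Passable_of_canPass {e : EK} {b : Λ} {x : BL Λ} (h : canPass e b x) :
    Passable e b x := by
  obtain ⟨h1, h2, h3⟩ := h
  refine ⟨h1, fun ht hx => ?_, fun ht hx => ?_⟩
  · subst hx
    exact (h3 ht).2 rfl
  · exact ht (by rw [hx, ty_eq_X.mpr (h3 hx).1])

theorem own_hv {c : Cont Λ} {st : Option (Ph × Data)} {lk : Bool} {w : WK} {a : Λ} {e : EK}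
    {b : Λ} {o : Option TT} (h : Own c st lk w a e b o) :
    hv m w a e b (bagO c (hmark st lk) o) =
      hv m (homeW st) z (homeE st) z (bagO c (hmark st lk) none) := by
  cases h with
  | rest => rfl
  | G φ d lk h => exact hv_G m φ d _
  | K φ d => rw [hmark_cur]; exact hv_K' m φ d c
  | C φ d => rw [hmark_cur, hv_C]; exact hv_K' m φ d c
  | D φ d => rw [hmark_nxt, hv_D]; exact hv_P' m φ d c
  | P φ d => rw [hmark_nxt]; exact hv_P' m φ d c
  | R φ d lk h => exact hv_R m φ d _
  | Ti t b lk h =>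
    by_cases ht : t = .X
    · subst ht; exact hv_we m _ (st_X m (by rfl) b)
    · have hb := h ht
      subst hb
      exact hv_we m _ (st_ne_X m ht (by rfl) _ rfl)
  | Tb t b φ d hφ h =>
    by_cases ht : t = .X
    · subst ht; exact hv_we m _ (st_X m (by simp [ctxOK, hφ]) b)
    · have hb := h ht
      subst hb
      exact hv_we m _ (st_ne_X m ht (by simp [ctxOK, hφ]) _ rfl)

/-- **every configuration is equal to its home word** -/
theorem conf_ev {s : BSt Λ} {B : List (Let Λ)} (h : Conf s B) : m.ev B = m.ev (hword s) := by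
  obtain ⟨w, a, e, b, o, P, U, rfl, hO, hM, hP⟩ := h
  have hperm : (P ++ U).Perm (bagO s.c (hmark s.st s.lk) o) := by
    rw [← Multiset.coe_eq_coe, hM, bagO_coe]
  have hc : ∀ x ∈ P ++ U, cons e x.1 = true := fun x hx => own_cons hO x (hperm.mem_iff.mp hx)
  have hcan : ∀ x ∈ P, canPass e b x := fun x hx =>
    canPass_of_Passable (hP x hx) (hc x (List.mem_append_left _ hx))
  rw [← blk_eq_bword, ev_blk_hv m hcan, hv_perm m hperm, own_hv m hO, ev_hword]

end fin

end Crest.Agent.R176.Machine
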