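import Crest.Agent.R176.Machine.Sim291B

/-!
# Row 176, part A, block (4): runs from an arbitrary phase, in word form (helper291)
-/

set_option autoImplicit false
set_option linter.unusedSectionVars false

namespace Crest.Agent.R176.Machine.Sim

open Crest.Agent.R176.Machine Crest.Agent.R176.Gen

variable {Λ : Type} [DecidableEq Λ] [LabelSys Λ] {M : Type*} [MonoidWithZero M] [Fintype Λ]
variable (m : Model (step (Λ := Λ)) M)

/-- the run from the beginning of phase `φ` -/
theorem run_from (φ : Ph) (d : Data) (a b : Cont Λ) :
    stt m φ d a b = res m (runL (allPh.drop φ.val) d a b) := by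
  have h10 := run_ten m
  have h9 := run_step m (φ := 9) (by decide) h10
  have h8 := run_step m (φ := 8) (by decide) h9
  have h7 := run_step m (φ := 7) (by decide) h8
  have h6 := run_step m (φ := 6) (by decide) h7
  have h5 := run_step m (φ := 5) (by decide) h6
  have h4 := run_step m (φ := 4) (by decide) h5
  have h3 := run_step m (φ := 3) (by decide) h4
  have h2 := run_step m (φ := 2) (by decide) h3
  have h1 := run_step m (φ := 1) (by decide) h2
  have h0 := run_step m (φ := 0) (by decide) h1
  fin_cases φ
  · exact h0 d a b
  · exact h1 d a b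
  · exact h2 d a b
  · exact h3 d a b
  · exact h4 d a b
  · exact h5 d a b
  · exact h6 d a b
  · exact h7 d a b
  · exact h8 d a b
  · exact h9 d a b
  · exact h10 d a b

/-- a full block in a home-empty state (`none`: idle, `some (φ, d)`: at the beginning of phase `φ`
with data `d`), mark `hm` of `H`, content `q` -/
noncomputable def blkL (c : Option (Ph × Data)) (hm : HM) (q : Cont Λ) : List (Let Λ) :=
  (.W (homeW c), z) :: (.E (homeE c), z) :: (bagL hm q).map fun p => (.bag true p.1, p.2)

theorem blkL_rest (x : Let (Λ × Λ)) : blkL none .f (cont x) = PhiL x := rfl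

theorem ev_blkL (c : Option (Ph × Data)) (hm : HM) (q : Cont Λ) :
    m.ev (blkL c hm q) = W m (homeW c) z * (E m (homeE c) z * um m (bagL hm q)) := by
  unfold blkL
  rw [Model.ev_cons, Model.ev_cons, ev_bag]
  rfl

theorem length_blkL (c : Option (Ph × Data)) (hm : HM) (q : Cont Λ) :
    (blkL c hm q).length = Fintype.card Λ + 5 := by
  simp [blkL, bagL, xsL]

/-- **RUN** of an engaged pair: left block (in any home state `c`) locked, right block at the
beginning of phase `φ ≠ 0`. -/
theorem run_pair (c : Option (Ph × Data)) {φ : Ph} (hφ : φ ≠ 0) (d : Data) (a b : Cont Λ) :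
    m.ev (blkL c .l a ++ blkL (some (φ, d)) .b b) =
      match runL (allPh.drop φ.val) d a b with
      | none => 0
      | some p => m.ev (blkL c .f p.1 ++ blkL none .f p.2) := by
  have e : m.ev (blkL c .l a ++ blkL (some (φ, d)) .b b) =
      W m (homeW c) z * (E m (homeE c) z * stt m φ d a b) := by
    rw [Model.ev_append, ev_blkL, ev_blkL]
    unfold stt
    have h1 : hA φ = .l := by unfold hA; rw [if_neg hφ]
    have h2 : hB φ = .b := by unfold hB; rw [if_neg hφ]
    rw [h1, h2]
    simp only [mul_assoc]
    rfl
  rw [e, run_from]
  cases runL (allPh.drop φ.val) d a b with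
  | none => simp [res]
  | some p =>
    simp only [res]
    rw [Model.ev_append, ev_blkL, ev_blkL]
    unfold fin2
    simp only [mul_assoc]
    rfl

/-- **START**: two adjacent idle unlocked blocks (the left one in any home state `c`). -/
theorem run_start (c : Option (Ph × Data)) (d : Data) (a b : Cont Λ) :
    m.ev (blkL c .f a ++ blkL none .f b) =
      match runL allPh d a b with
      | none => 0
      | some p => m.ev (blkL c .f p.1 ++ blkL none .f p.2) := by
  have e : ∀ a b : Cont Λ, m.ev (blkL c .f a ++ blkL none .f b) =
      W m (homeW c) z * (E m (homeE c) z * fin2 m a b) := by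
    intro a b
    rw [Model.ev_append, ev_blkL, ev_blkL]
    unfold fin2
    simp only [mul_assoc]
    rfl
  rw [e, run_all m d]
  cases runL allPh d a b with
  | none => simp [res]
  | some p =>
    simp only [res]
    rw [e]

/-- idle block = block at the beginning of phase `0` -/
theorem ev_blkL_zero (d : Data) (hm : HM) (q : Cont Λ) :
    m.ev (blkL (some (0, d)) hm q) = m.ev (blkL none hm q) := by
  rw [ev_blkL, ev_blkL]
  show W m (.A 0 d) z * (E m (.G 0) z * _) = W m .w0 z * (E m .home z * _)
  rw [← mul_assoc, start, mul_assoc]

end Crest.Agent.R176.Machine.Sim
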