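import Crest.Agent.R176.Machine.Own977C
import Crest.Agent.R176.Machine.Key309A
import Crest.Agent.R176.Machine.Sim291C

/-!
# Row 176, part A, block (3): garbage (helper977)

`garbage` : a wall-free word between two walls in a nonzero product is a full block (`Conf`).
-/

set_option autoImplicit false

namespace Crest.Agent.R176.Machine

open Gen

variable {Λ : Type} [Fintype Λ] [DecidableEq Λ] [LabelSys Λ] {M : Type*} [MonoidWithZero M]
variable (m : Model (step (Λ := Λ)) M)

omit [Fintype Λ] [DecidableEq Λ] [LabelSys Λ] in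
theorem slot_H {x : BL Λ} (h : slot x = .H) : ∃ hm a, x = (.H hm, a) := by
  obtain ⟨x, a⟩ := x
  rcases x with _ | hm | ⟨j, o⟩ <;> simp [slot] at h
  exact ⟨hm, a, rfl⟩

omit [Fintype Λ] [DecidableEq Λ] [LabelSys Λ] in
theorem slot_Y {x : BL Λ} {j : Bool} (h : slot x = .Y j) : ∃ o a, x = (.Y j o, a) := by
  obtain ⟨x, a⟩ := x
  rcases x with _ | hm | ⟨j', o⟩ <;> simp [slot] at h
  subst h
  exact ⟨o, a, rfl⟩

omit [Fintype Λ] [DecidableEq Λ] [LabelSys Λ] in
theorem slot_X {x : BL Λ} {c : Λ} (h : slot x = .X c) : x = (.X, c) := by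
  obtain ⟨x, a⟩ := x
  rcases x with _ | hm | ⟨j', o⟩ <;> simp [slot] at h
  subst h
  rfl

omit [Fintype Λ] [LabelSys Λ] in
/-- extract the letter of a slot -/
theorem ex_slot {V : List (BL Λ)} {σ : Slot Λ} (h : σ ∈ V.map slot) :
    ∃ x V', slot x = σ ∧ V.Perm (x :: V') := by
  obtain ⟨x, hx, rfl⟩ := List.mem_map.mp h
  exact ⟨x, V.erase x, rfl, List.perm_cons_erase hx⟩

omit [LabelSys Λ] in
/-- a bag with every slot exactly once -/
theorem full_perm {V : List (BL Λ)} (hf : ∀ σ : Slot Λ, σ ∈ V.map slot) (hn : (V.map slot).Nodup) :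
    ∃ (hm : HM) (h : Λ) (o1 : Bool) (y1 : Λ) (o2 : Bool) (y2 : Λ),
      V.Perm ((.H hm, h) :: (.Y false o1, y1) :: (.Y true o2, y2) :: xs Λ) := by
  obtain ⟨xh, V1, hxh, h1⟩ := ex_slot (hf .H)
  have hn1 := (h1.map slot).nodup_iff.mp hn
  have hf1 : ∀ σ : Slot Λ, σ = .H ∨ σ ∈ V1.map slot := by
    intro σ
    have := (h1.map slot).mem_iff.mp (hf σ)
    rw [List.map_cons, List.mem_cons, hxh] at this
    exact this
  rw [List.map_cons, List.nodup_cons, hxh] at hn1
  obtain ⟨xy, V2, hxy, h2⟩ := ex_slot (V := V1) (σ := .Y false)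
    ((hf1 (.Y false)).resolve_left (by simp))
  have hn2 := (h2.map slot).nodup_iff.mp hn1.2
  have hf2 : ∀ σ : Slot Λ, σ = .H ∨ σ = .Y false ∨ σ ∈ V2.map slot := by
    intro σ
    rcases hf1 σ with h | h
    · exact Or.inl h
    · have := (h2.map slot).mem_iff.mp h
      rw [List.map_cons, List.mem_cons, hxy] at this
      exact Or.inr this
  rw [List.map_cons, List.nodup_cons, hxy] at hn2
  obtain ⟨xw, V3, hxw, h3⟩ := ex_slot (V := V2) (σ := .Y true)
    (((hf2 (.Y true)).resolve_left (by simp)).resolve_left (by simp))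
  have hn3 := (h3.map slot).nodup_iff.mp hn2.2
  have hf3 : ∀ c : Λ, .X c ∈ V3.map slot := by
    intro c
    have h := ((hf2 (.X c)).resolve_left (by simp)).resolve_left (by simp)
    have := (h3.map slot).mem_iff.mp h
    rw [List.map_cons, List.mem_cons, hxw] at this
    exact this.resolve_left (by simp)
  rw [List.map_cons, List.nodup_cons, hxw] at hn3
  have hX3 : ∀ x ∈ V3, x.1 = .X := by
    intro x hx
    have hm3 : slot x ∈ V3.map slot := List.mem_map_of_mem hx
    have hm2 : slot x ∈ V2.map slot := (h3.map slot).mem_iff.mpr (by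
      rw [List.map_cons]; exact List.mem_cons_of_mem _ hm3)
    have hm1 : slot x ∈ V1.map slot := (h2.map slot).mem_iff.mpr (by
      rw [List.map_cons]; exact List.mem_cons_of_mem _ hm2)
    obtain ⟨x, a⟩ := x
    rcases x with _ | hm | ⟨j, o⟩
    · rfl
    · exact absurd hm1 hn1.1
    · cases j
      · exact absurd hm2 hn2.1
      · exact absurd hm3 hn3.1
  have hp3 : V3.Perm (xs Λ) := by
    refine (List.perm_ext_iff_of_nodup (List.Nodup.of_map _ hn3.2) nodup_xs).mpr ?_
    intro x
    rw [mem_xs]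
    constructor
    · exact hX3 x
    · intro hx
      obtain ⟨y, hy, hyx⟩ := List.mem_map.mp (hf3 x.2)
      have := slot_X hyx
      have hxy' : x = y := by
        rw [this]; exact Prod.ext hx rfl
      rw [hxy']; exact hy
  obtain ⟨hm, h, rfl⟩ := slot_H hxh
  obtain ⟨o1, y1, rfl⟩ := slot_Y hxy
  obtain ⟨o2, y2, rfl⟩ := slot_Y hxw
  exact ⟨hm, h, o1, y1, o2, y2, h1.trans (List.Perm.cons _ (h2.trans (List.Perm.cons _
    (h3.trans (List.Perm.cons _ hp3)))))⟩

/-- marks allowed in the mode `e` (no label out) -/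
theorem inv_none {e : EK} (he : e.outPh = none) {V : List (BL Λ)}
    (hf : ∀ σ : Slot Λ, σ ∈ V.map slot) (hn : (V.map slot).Nodup)
    (hc : ∀ x ∈ V, cons e x.1 = true) :
    ∃ (c : Cont Λ) (hm : HM), V.Perm (bagO c hm none) ∧
      (e.idle = true → hm = .f ∨ hm = .l) ∧ (e.idle = false → hm = .b) := by
  obtain ⟨hm, h, o1, y1, o2, y2, hp⟩ := full_perm hf hn
  have c1 := hc _ (hp.mem_iff.mpr (List.mem_cons_self (a := (BK.H hm, h))))
  have c2 := hc _ (hp.mem_iff.mpr (List.mem_cons_of_mem _ (List.mem_cons_self (a := (BK.Y false o1, y1)))))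
  have c3 := hc _ (hp.mem_iff.mpr (List.mem_cons_of_mem _ (List.mem_cons_of_mem _
    (List.mem_cons_self (a := (BK.Y true o2, y2))))))
  have e1 : o1 = false := by
    simpa [cons, he] using c2
  have e2 : o2 = false := by
    simpa [cons, he] using c3
  subst e1 e2
  refine ⟨⟨h, y1, y2⟩, hm, ?_, ?_, ?_⟩
  · simpa [bagO, letH, letY, Cont.get] using hp
  · intro hi
    simpa [cons, he, hi] using c1
  · intro hi
    simpa [cons, he, hi] using c1

section
variable {m}
variable {w : WK} {a : Λ} {e : EK} {b : Λ} {V : List (BL Λ)} {w' : WK} {a' : Λ}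

omit [Fintype Λ] in
theorem sweep_ex (h : hv m w a e b V * m.f (wl w' a') ≠ 0) (he : e.moving = true) :
    ∃ x ∈ V, e.target = some x.1.ty ∧ (x.1 = .X → x.2 = b) := by
  have hv0 : hv m w a e b V ≠ 0 := by
    intro h0; apply h; rw [h0, zero_mul]
  by_contra hn
  push Not at hn
  apply h
  apply hv_sweep
  intro x hx
  refine ⟨he, hv_cons m hv0 x hx, fun ht => ?_⟩
  exact hn x hx ht

omit [Fintype Λ] in
/-- tests: all slots are present -/
theorem full_of_home {c : Option (Ph × Data)} (hc : ctxOK c c.isSome = true)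
    (h : hv m (homeW c) z (homeE c) z V * m.f (wl w' a') ≠ 0) : ∀ σ : Slot Λ, σ ∈ V.map slot := by
  intro σ
  cases σ with
  | X a0 =>
    have e1 : hv m (homeW c) z (homeE c) z V = hv m (.S .X c) z (.T .X c.isSome) a0 V :=
      hv_we m V (st_X m hc a0).symm
    rw [e1] at h
    obtain ⟨x, hx, ht, hb⟩ := sweep_ex h rfl
    have hX : x.1 = .X := by
      have : x.1.ty = .X := by simpa [EK.target] using ht.symm
      exact ty_eq_X.mp this
    have : slot x = .X a0 := by
      unfold slot; rw [hX]; simp [hb hX]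
    rw [← this]
    exact List.mem_map_of_mem hx
  | H =>
    have e1 : hv m (homeW c) z (homeE c) z V = hv m (.S .H c) z (.T .H c.isSome) z V :=
      hv_we m V (st_ne_X m (by decide) hc z rfl).symm
    rw [e1] at h
    obtain ⟨x, hx, ht, hb⟩ := sweep_ex h rfl
    have hX : x.1.ty = .H := by simpa [EK.target] using ht.symm
    have : slot x = .H := by
      obtain ⟨x, a⟩ := x
      rcases x with _ | hm | ⟨j, o⟩ <;> simp [BK.ty] at hX
      rfl
    rw [← this]
    exact List.mem_map_of_mem hx
  | Y j =>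
    have e1 : hv m (homeW c) z (homeE c) z V = hv m (.S (.Y j) c) z (.T (.Y j) c.isSome) z V :=
      hv_we m V (st_ne_X m (by simp) hc z rfl).symm
    rw [e1] at h
    obtain ⟨x, hx, ht, hb⟩ := sweep_ex h rfl
    have hX : x.1.ty = .Y j := by simpa [EK.target] using ht.symm
    have : slot x = .Y j := by
      obtain ⟨x, a⟩ := x
      rcases x with _ | hm | ⟨j', o⟩ <;> simp [BK.ty] at hX
      subst hX
      rfl
    rw [← this]
    exact List.mem_map_of_mem hx

end

theorem cur_OK (φ : Ph) (d : Data) : ctxOK (cur φ d) (cur φ d).isSome = true := by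
  unfold cur
  by_cases h : φ = 0 <;> simp [h, ctxOK]

theorem nxt_OK (φ : Ph) (d : Data) : ctxOK (nxt φ d) (nxt φ d).isSome = true := by
  have : ∀ φ : Ph, φ ≠ 10 → φ + 1 ≠ 0 := by decide
  unfold nxt
  by_cases h : φ = 10
  · simp [h, ctxOK]
  · simp [h, ctxOK, this φ h]

omit [DecidableEq Λ] in
/-- comparison of two decompositions with the target letter in front -/
theorem tgt_eq {φ : Ph} {hm hm' : HM} {v : Λ} {V : List (BL Λ)} {c : Cont Λ}
    (hp : ((tg φ hm', v) :: V).Perm (bagO c hm none))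
    (hn : (((tg φ hm', v) :: V).map slot).Nodup) :
    (tg φ hm', v) = (tg φ hm, c.get (tz φ)) ∧ V.Perm (oth φ hm c) := by
  have h1 := hp.trans (bagO_none φ hm c)
  have hs : ∀ (k k' : HM) (v v' : Λ), slot ((tg φ k, v) : BL Λ) = slot ((tg φ k', v') : BL Λ) := by
    intro k k' v v'
    unfold tg
    have h := tz_ne_X φ
    cases ht : tz φ with
    | X => exact absurd ht h
    | H => simp [slot]
    | Y j => simp [slot]
  have he : (tg φ hm', v) = (tg φ hm, c.get (tz φ)) := by
    have hmem := h1.mem_iff.mp (List.mem_cons_self (a := ((tg φ hm', v) : BL Λ)))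
    rcases List.mem_cons.mp hmem with h | h
    · exact h
    · exfalso
      have hn' := (h1.map slot).nodup_iff.mp hn
      rw [List.map_cons, List.nodup_cons] at hn'
      apply hn'.1
      rw [hs hm hm' _ v]
      exact List.mem_map_of_mem h
  refine ⟨he, ?_⟩
  rw [he] at h1
  exact h1.cons_inv

theorem own_of_hv {w : WK} {a : Λ} {e : EK} {b : Λ} {V : List (BL Λ)} {w' : WK} {a' : Λ}
    (h : hv m w a e b V * m.f (wl w' a') ≠ 0) :
    ∃ (c : Cont Λ) (st : Option (Ph × Data)) (lk : Bool) (o : Option TT),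
      Own c st lk w a e b o ∧ V.Perm (bagO c (hmark st lk) o) := by
  have hv0 : hv m w a e b V ≠ 0 := by
    intro h0; apply h; rw [h0, zero_mul]
  have hwe : m.f (wl w a) * m.f (el e b) ≠ 0 := by
    intro h0; apply hv0; exact hv_we_zero m V h0
  have hlk : ∀ hm : HM, (hm = .f ∨ hm = .l) → ∃ lk : Bool, hmark none lk = hm := by
    intro hm hh
    rcases hh with rfl | rfl
    · exact ⟨false, rfl⟩
    · exact ⟨true, rfl⟩
  cases we_cases m hwe with
  | rest hw he ha hb =>
    subst hw he ha hb
    have hf := full_of_home (m := m) (w' := w') (a' := a') (c := none) (V := V) (by rfl) h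
    obtain ⟨c, hm, hp, hi, _⟩ := inv_none (e := .home) rfl hf (hv_nodup m hv0) (hv_cons m hv0)
    obtain ⟨lk, rfl⟩ := hlk hm (hi rfl)
    exact ⟨c, none, lk, none, .rest lk, hp⟩
  | G φ d hw he ha hb =>
    subst hw he ha hb
    have hf := full_of_home (m := m) (w' := w') (a' := a') (c := cur φ d) (V := V) (cur_OK φ d) (by rw [← hv_G]; exact h)
    obtain ⟨c, hm, hp, hi, hi'⟩ := inv_none (e := .G φ) rfl hf (hv_nodup m hv0) (hv_cons m hv0)
    by_cases hφ : φ = 0
    · obtain ⟨lk, rfl⟩ := hlk hm (hi (by simp [EK.idle, hφ]))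
      refine ⟨c, cur φ d, lk, none, .G φ d lk (fun _ => hφ), ?_⟩
      simpa [cur, hφ] using hp
    · have := hi' (by simp [EK.idle, hφ])
      subst this
      refine ⟨c, cur φ d, false, none, .G φ d false (by simp), ?_⟩
      simpa [cur, hφ, hmark] using hp
  | K φ d hw he ha =>
    subst hw he ha
    obtain ⟨x, hx, ht, -⟩ := sweep_ex h rfl
    have hty : x.1.ty = tz φ := by simpa [EK.target] using ht.symm
    have hx1 : x.1 = xout φ := K_tgt φ x.1 (hv_cons m hv0 x hx) hty
    obtain ⟨V1, hV1⟩ : ∃ V1, V.Perm (x :: V1) := ⟨V.erase x, List.perm_cons_erase hx⟩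
    have hx2 : x.2 = z := by
      by_contra hne
      apply hv0
      rw [hv_perm m hV1]
      apply hv_eb_zero
      have : x = (xout φ, x.2) := Prod.ext hx1 rfl
      rw [this]
      exact k_out_zero m φ b hne
    have hxe : x = (xout φ, z) := Prod.ext hx1 hx2
    subst hxe
    have e1 : hv m (.A φ d) z (.K φ) b V = hv m (.A φ d) z (.G φ) z ((xin φ, b) :: V1) := by
      rw [hv_perm m hV1, hv_K]
    rw [e1] at h hv0
    have hf := full_of_home (m := m) (w' := w') (a' := a') (c := cur φ d) (V := (xin φ, b) :: V1) (cur_OK φ d)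
      (by rw [← hv_G]; exact h)
    have hn := hv_nodup m hv0
    obtain ⟨c, hm, hp, hi, hi'⟩ := inv_none (e := .G φ) rfl hf hn (hv_cons m hv0)
    rw [← tg_mB] at hp hn
    obtain ⟨he1, he2⟩ := tgt_eq hp hn
    have hb : b = c.get (tz φ) := (Prod.mk.inj he1).2
    have hmk : hm = mB φ := by
      have h1 : tg φ (mB φ) = tg φ hm := (Prod.mk.inj he1).1
      have key : ∀ (φ : Ph) (hm : HM), tg φ (mB φ) = tg φ hm → (φ ≠ 0 → hm = .b) →
          hm = mB φ := by decide
      exact key φ hm h1 (fun h0 => hi' (by simp [EK.idle, h0]))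
    refine ⟨c, cur φ d, false, some (tz φ), ?_, ?_⟩
    · rw [hb]; exact .K φ d
    · rw [hmark_cur]
      rw [hmk] at he2
      exact hV1.trans ((List.Perm.cons _ he2).trans (bagO_some φ (mB φ) c).symm)
  | C φ d hw he hb =>
    subst hw he hb
    rw [hv_C] at h hv0
    obtain ⟨x, hx, ht, -⟩ := sweep_ex h rfl
    have hty : x.1.ty = tz φ := by simpa [EK.target] using ht.symm
    have hx1 : x.1 = xout φ := K_tgt φ x.1 (hv_cons m hv0 x hx) hty
    obtain ⟨V1, hV1⟩ : ∃ V1, V.Perm (x :: V1) := ⟨V.erase x, List.perm_cons_erase hx⟩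
    have hx2 : x.2 = z := by
      by_contra hne
      apply hv0
      rw [hv_perm m hV1]
      apply hv_eb_zero
      have : x = (xout φ, x.2) := Prod.ext hx1 rfl
      rw [this]
      exact k_out_zero m φ a hne
    have hxe : x = (xout φ, z) := Prod.ext hx1 hx2
    subst hxe
    have e1 : hv m (.A φ d) z (.K φ) a V = hv m (.A φ d) z (.G φ) z ((xin φ, a) :: V1) := by
      rw [hv_perm m hV1, hv_K]
    rw [e1] at h hv0
    have hf := full_of_home (m := m) (w' := w') (a' := a') (c := cur φ d) (V := (xin φ, a) :: V1) (cur_OK φ d)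
      (by rw [← hv_G]; exact h)
    have hn := hv_nodup m hv0
    obtain ⟨c, hm, hp, hi, hi'⟩ := inv_none (e := .G φ) rfl hf hn (hv_cons m hv0)
    rw [← tg_mB] at hp hn
    obtain ⟨he1, he2⟩ := tgt_eq hp hn
    have hb : a = c.get (tz φ) := (Prod.mk.inj he1).2
    have hmk : hm = mB φ := by
      have h1 : tg φ (mB φ) = tg φ hm := (Prod.mk.inj he1).1
      have key : ∀ (φ : Ph) (hm : HM), tg φ (mB φ) = tg φ hm → (φ ≠ 0 → hm = .b) →
          hm = mB φ := by decide
      exact key φ hm h1 (fun h0 => hi' (by simp [EK.idle, h0]))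
    refine ⟨c, cur φ d, false, some (tz φ), ?_, ?_⟩
    · rw [hb]; exact .C φ d
    · rw [hmark_cur]
      rw [hmk] at he2
      exact hV1.trans ((List.Perm.cons _ he2).trans (bagO_some φ (mB φ) c).symm)
  | D φ d hw he hb =>
    subst hw he hb
    rw [hv_D] at h hv0
    obtain ⟨x, hx, ht, -⟩ := sweep_ex h rfl
    have hty : x.1.ty = tz φ := by simpa [EK.target] using ht.symm
    have hx1 : x.1 = xout φ := P_tgt φ x.1 (hv_cons m hv0 x hx) hty
    obtain ⟨V1, hV1⟩ : ∃ V1, V.Perm (x :: V1) := ⟨V.erase x, List.perm_cons_erase hx⟩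
    have hx2 : x.2 = z := by
      by_contra hne
      apply hv0
      rw [hv_perm m hV1]
      apply hv_eb_zero
      have : x = (xout φ, x.2) := Prod.ext hx1 rfl
      rw [this]
      exact p_put_zero m φ a hne
    have hxe : x = (xout φ, z) := Prod.ext hx1 hx2
    subst hxe
    have e1 : hv m (.B φ d) z (.P φ) a V = hv m (.B φ d) z (.R φ) z ((xback φ, a) :: V1) := by
      rw [hv_perm m hV1, hv_P]
    rw [e1] at h hv0
    have hf := full_of_home (m := m) (w' := w') (a' := a') (c := nxt φ d) (V := (xback φ, a) :: V1) (nxt_OK φ d)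
      (by rw [← hv_R]; exact h)
    have hn := hv_nodup m hv0
    obtain ⟨c, hm, hp, hi, hi'⟩ := inv_none (e := .R φ) rfl hf hn (hv_cons m hv0)
    rw [← tg_mA] at hp hn
    obtain ⟨he1, he2⟩ := tgt_eq hp hn
    have hb : a = c.get (tz φ) := (Prod.mk.inj he1).2
    have hmk : hm = mA φ := by
      have h1 : tg φ (mA φ) = tg φ hm := (Prod.mk.inj he1).1
      have key : ∀ (φ : Ph) (hm : HM), tg φ (mA φ) = tg φ hm → (φ ≠ 10 → hm = .b) →
          hm = mA φ := by decide
      exact key φ hm h1 (fun h0 => hi' (by simp [EK.idle, h0]))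
    refine ⟨c, nxt φ d, false, some (tz φ), ?_, ?_⟩
    · rw [hb]; exact .D φ d
    · rw [hmark_nxt]
      rw [hmk] at he2
      exact hV1.trans ((List.Perm.cons _ he2).trans (bagO_some φ (mA φ) c).symm)
  | P φ d hw he ha =>
    subst hw he ha
    obtain ⟨x, hx, ht, -⟩ := sweep_ex h rfl
    have hty : x.1.ty = tz φ := by simpa [EK.target] using ht.symm
    have hx1 : x.1 = xout φ := P_tgt φ x.1 (hv_cons m hv0 x hx) hty
    obtain ⟨V1, hV1⟩ : ∃ V1, V.Perm (x :: V1) := ⟨V.erase x, List.perm_cons_erase hx⟩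
    have hx2 : x.2 = z := by
      by_contra hne
      apply hv0
      rw [hv_perm m hV1]
      apply hv_eb_zero
      have : x = (xout φ, x.2) := Prod.ext hx1 rfl
      rw [this]
      exact p_put_zero m φ b hne
    have hxe : x = (xout φ, z) := Prod.ext hx1 hx2
    subst hxe
    have e1 : hv m (.B φ d) z (.P φ) b V = hv m (.B φ d) z (.R φ) z ((xback φ, b) :: V1) := by
      rw [hv_perm m hV1, hv_P]
    rw [e1] at h hv0
    have hf := full_of_home (m := m) (w' := w') (a' := a') (c := nxt φ d) (V := (xback φ, b) :: V1) (nxt_OK φ d)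
      (by rw [← hv_R]; exact h)
    have hn := hv_nodup m hv0
    obtain ⟨c, hm, hp, hi, hi'⟩ := inv_none (e := .R φ) rfl hf hn (hv_cons m hv0)
    rw [← tg_mA] at hp hn
    obtain ⟨he1, he2⟩ := tgt_eq hp hn
    have hb : b = c.get (tz φ) := (Prod.mk.inj he1).2
    have hmk : hm = mA φ := by
      have h1 : tg φ (mA φ) = tg φ hm := (Prod.mk.inj he1).1
      have key : ∀ (φ : Ph) (hm : HM), tg φ (mA φ) = tg φ hm → (φ ≠ 10 → hm = .b) →
          hm = mA φ := by decide
      exact key φ hm h1 (fun h0 => hi' (by simp [EK.idle, h0]))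
    refine ⟨c, nxt φ d, false, some (tz φ), ?_, ?_⟩
    · rw [hb]; exact .P φ d
    · rw [hmark_nxt]
      rw [hmk] at he2
      exact hV1.trans ((List.Perm.cons _ he2).trans (bagO_some φ (mA φ) c).symm)
  | R φ d hw he ha hb =>
    subst hw he ha hb
    have hf := full_of_home (m := m) (w' := w') (a' := a') (c := nxt φ d) (V := V) (nxt_OK φ d) (by rw [← hv_R]; exact h)
    obtain ⟨c, hm, hp, hi, hi'⟩ := inv_none (e := .R φ) rfl hf (hv_nodup m hv0) (hv_cons m hv0)
    by_cases hφ : φ = 10
    · obtain ⟨lk, rfl⟩ := hlk hm (hi (by simp [EK.idle, hφ]))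
      refine ⟨c, nxt φ d, lk, none, .R φ d lk (fun _ => hφ), ?_⟩
      simpa [nxt, hφ] using hp
    · have := hi' (by simp [EK.idle, hφ])
      subst this
      refine ⟨c, nxt φ d, false, none, .R φ d false (by simp), ?_⟩
      simpa [nxt, hφ, hmark] using hp
  | T t c busy hw he hc ha hb =>
    subst hw he ha
    have e1 : hv m (.S t c) z (.T t busy) b V = hv m (homeW c) z (homeE c) z V := by
      by_cases ht : t = .X
      · subst ht; exact hv_we m _ (st_X m hc b)
      · have hb' := hb ht
        subst hb'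
        exact hv_we m _ (st_ne_X m ht hc _ rfl)
    have hbusy : busy = c.isSome := by
      rcases c with _ | ⟨φ, d⟩
      · simpa [ctxOK] using hc
      · have := hc
        simp only [ctxOK, Bool.and_eq_true] at this
        simpa using this.1
    subst hbusy
    have hf := full_of_home (m := m) (w' := w') (a' := a') (c := c) (V := V) hc (by rw [← e1]; exact h)
    obtain ⟨q, hm, hp, hi, hi'⟩ := inv_none (e := .T t c.isSome) rfl hf (hv_nodup m hv0)
      (hv_cons m hv0)
    rcases c with _ | ⟨φ, d⟩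
    · obtain ⟨lk, rfl⟩ := hlk hm (hi rfl)
      exact ⟨q, none, lk, none, .Ti t b lk hb, hp⟩
    · have := hi' rfl
      subst this
      have hφ : φ ≠ 0 := by
        simp only [ctxOK, Bool.and_eq_true, decide_eq_true_eq] at hc
        exact hc.2
      exact ⟨q, some (φ, d), false, none, .Tb t b φ d hφ hb, hp⟩

/-- a block word followed by a wall in a nonzero product is a configuration -/
theorem conf_of_blk {w : WK} {a : Λ} {P : List (BL Λ)} {e : EK} {b : Λ} {U : List (BL Λ)}
    {w' : WK} {a' : Λ} (h : m.ev (blk w a P e b U ++ [wl w' a']) ≠ 0) :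
    ∃ s, Conf s (blk w a P e b U) := by
  rw [Model.ev_append, Model.ev_singleton] at h
  have hB : m.ev (blk w a P e b U) ≠ 0 := by
    intro h0; apply h; rw [h0, zero_mul]
  have hP := blk_canPass m hB
  rw [ev_blk_hv m hP] at h
  obtain ⟨c, st, lk, o, hO, hp⟩ := own_of_hv m h
  refine ⟨⟨c, st, lk⟩, w, a, e, b, o, P, U, rfl, hO, ?_, fun x hx => Passable_of_canPass (hP x hx)⟩
  rw [← bagO_coe]
  exact Multiset.coe_eq_coe.mpr hp

/-- **GARBAGE**: a wall-free word between two walls in a nonzero product is a full block -/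
theorem garbage (w : WK) (a : Λ) (t : List (Let Λ)) (ht : ∀ x ∈ t, Key309.isWb x = false)
    (w' : WK) (a' : Λ) (h : m.ev ((.W w, a) :: t ++ [(.W w', a')]) ≠ 0) :
    ∃ s, Conf s ((.W w, a) :: t) := by
  have h1 : m.ev ((.W w, a) :: t) ≠ 0 := by
    intro h0; apply h; rw [Model.ev_append, h0, zero_mul]
  have h2 : m.ev t ≠ 0 := by
    intro h0; apply h1; rw [Model.ev_cons, h0, mul_zero]
  obtain ⟨P, U, hPU⟩ := Key309.parse m t ht h2
  rcases hPU with ⟨rfl, hPU⟩ | ⟨e, b, rfl⟩
  · exfalso
    apply h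
    rcases hPU with rfl | rfl
    · cases U with
      | nil =>
        simp only [List.map_nil, List.append_nil, List.nil_append, Model.ev_cons, Model.ev_nil,
          mul_one, List.cons_append]
        exact ww_zero m w w' a a'
      | cons x U =>
        simp only [List.map_nil, List.nil_append, List.map_cons, List.cons_append, Model.ev_cons]
        rw [← mul_assoc]
        have := wb_true_zero m w a x
        unfold wl bl at this
        unfold Key309.ul
        rw [this, zero_mul]
    · rcases List.eq_nil_or_concat P with rfl | ⟨P', x, rfl⟩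
      · simp only [List.map_nil, List.append_nil, List.nil_append, Model.ev_cons, Model.ev_nil,
          mul_one, List.cons_append]
        exact ww_zero m w w' a a'
      · have := bw_false_zero m w' a' x
        unfold wl bl at this
        simp only [List.map_nil, List.append_nil, List.map_append, List.map_cons,
          List.cons_append, Model.ev_cons, Model.ev_append, Model.ev_nil, mul_one, List.append_assoc,
          List.nil_append, List.concat_eq_append]
        unfold Key309.pl
        rw [this, mul_zero, mul_zero]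
  · exact conf_of_blk m (w' := w') (a' := a') h

end Crest.Agent.R176.Machine
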