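import Crest.Agent.R176.Machine.Own977D
import Crest.Agent.R176.Machine.Key309B

/-!
# Row 176, part A, block (3): NormQ / NormP (helper977)
-/

set_option autoImplicit false

namespace Crest.Agent.R176.Machine

open Gen

variable {Λ : Type} [Fintype Λ] [DecidableEq Λ] [LabelSys Λ]

omit [DecidableEq Λ] in
/-- the home word is the standard home block -/
theorem hword_eq_blkL (s : BSt Λ) : hword s = Key.blkL s.st (hmark s.st s.lk) s.c := by
  unfold hword bword Key.blkL bagO Key.xs xs letH letY bg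
  simp [Cont.get, Function.comp_def]

omit [Fintype Λ] [DecidableEq Λ] in
theorem own_locked {c : Cont Λ} {st : Option (Ph × Data)} {lk : Bool} {w : WK} {a : Λ} {e : EK}
    {b : Λ} {o : Option TT} (h : Own c st lk w a e b o) :
    (st = none ∧ locked w = false ∧ (a = z ∨ (a = c.h ∧ lk = false))) ∨
      (∃ φ d, φ ≠ 0 ∧ st = some (φ, d) ∧ locked w = true) := by
  have h10 : ∀ φ : Ph, φ ≠ 10 → φ + 1 ≠ 0 := by decide
  cases h with
  | rest => exact Or.inl ⟨rfl, rfl, Or.inl rfl⟩
  | G φ d lk h =>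
    by_cases hφ : φ = 0
    · exact Or.inl ⟨by simp [cur, hφ], by simp [locked, hφ], Or.inl rfl⟩
    · exact Or.inr ⟨φ, d, hφ, by simp [cur, hφ], by simp [locked, hφ]⟩
  | K φ d =>
    by_cases hφ : φ = 0
    · exact Or.inl ⟨by simp [cur, hφ], by simp [locked, hφ], Or.inl rfl⟩
    · exact Or.inr ⟨φ, d, hφ, by simp [cur, hφ], by simp [locked, hφ]⟩
  | C φ d =>
    by_cases hφ : φ = 0
    · subst hφ
      exact Or.inl ⟨by simp [cur], by simp [locked], Or.inr ⟨rfl, rfl⟩⟩
    · exact Or.inr ⟨φ, d, hφ, by simp [cur, hφ], by simp [locked, hφ]⟩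
  | D φ d =>
    by_cases hφ : φ = 10
    · subst hφ
      exact Or.inl ⟨by simp [nxt], by simp [locked], Or.inr ⟨rfl, rfl⟩⟩
    · exact Or.inr ⟨φ + 1, d, h10 φ hφ, by simp [nxt, hφ], by simp [locked, hφ]⟩
  | P φ d =>
    by_cases hφ : φ = 10
    · exact Or.inl ⟨by simp [nxt, hφ], by simp [locked, hφ], Or.inl rfl⟩
    · exact Or.inr ⟨φ + 1, d, h10 φ hφ, by simp [nxt, hφ], by simp [locked, hφ]⟩
  | R φ d lk h =>
    by_cases hφ : φ = 10
    · exact Or.inl ⟨by simp [nxt, hφ], by simp [locked, hφ], Or.inl rfl⟩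
    · exact Or.inr ⟨φ + 1, d, h10 φ hφ, by simp [nxt, hφ], by simp [locked, hφ]⟩
  | Ti t b lk h => exact Or.inl ⟨rfl, rfl, Or.inl rfl⟩
  | Tb t b φ d hφ h => exact Or.inr ⟨φ, d, hφ, rfl, by simp [locked, hφ]⟩

omit [DecidableEq Λ] in
theorem conf_length {s : BSt Λ} {B : List (Let Λ)} (h : Conf s B) :
    B.length = Fintype.card Λ + 5 := by
  obtain ⟨w, a, e, b, o, P, U, rfl, hO, hM, hP⟩ := h
  have h1 := congrArg Multiset.card hM
  rw [← bagO_coe, Multiset.coe_card, Multiset.coe_card] at h1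
  simp only [bagO, xs, List.length_cons, List.length_map, Finset.length_toList,
    Finset.card_univ, List.length_append] at h1
  simp only [bword, List.length_cons, List.length_append, List.length_map]
  omega

variable {M : Type*} [MonoidWithZero M] (m : Model (step (Λ := Λ)) M)

/-- **NORM** -/
theorem normQ : Key309.NormQ m := by
  intro w a t ht
  by_cases h : ∀ (w' : WK) (b : Λ), m.ev ((((.W w, a) : Let Λ) :: t) ++ [(.W w', b)]) = 0
  · exact Or.inl h
  right
  push Not at h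
  obtain ⟨w', b, h⟩ := h
  have ht' : ∀ x ∈ t, Key309.isWb x = false := by
    intro x hx
    have := ht x hx
    obtain ⟨κ, c⟩ := x
    rcases κ with ⟨s, x⟩ | e | w
    · rfl
    · rfl
    · exact absurd ⟨w, rfl⟩ this
  obtain ⟨s, hs⟩ := garbage m w a t ht' w' b h
  have hl := conf_length hs
  refine ⟨s.st, hmark s.st s.lk, s.c, ?_, ?_, ?_⟩
  · simpa using hl
  · intro w' b
    rw [Model.ev_append, Model.ev_append, conf_ev m hs, hword_eq_blkL]
  · obtain ⟨w1, a1, e, b1, o, P, U, hB, hO, hM, hP⟩ := hs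
    have hw : ((.W w, a) : Let Λ) = (.W w1, a1) := (List.cons.inj hB).1
    obtain ⟨hw1, hw2⟩ := Prod.mk.inj hw
    obtain rfl : w = w1 := by injection hw1
    obtain rfl : a = a1 := hw2
    rcases own_locked hO with ⟨h1, h2, h3⟩ | ⟨φ, d, h1, h2, h3⟩
    · left
      refine ⟨h1, h2, ?_, ?_⟩
      · rcases h3 with h3 | ⟨h3, h4⟩
        · exact Or.inl h3
        · exact Or.inr ⟨h3, by rw [h1, h4]; rfl⟩
      · rw [h1]
        cases s.lk
        · exact Or.inl rfl
        · exact Or.inr rfl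
    · right
      exact ⟨φ, d, h1, h2, h3, by rw [h2]; rfl⟩

theorem normP : Key.NormP m := (normQ m).normP

end Crest.Agent.R176.Machine
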