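import Crest.Agent.R176.Machine.Key309B
import Crest.Agent.R176.Machine.Sim291C
import Crest.Agent.R176.Gen.Mon206

/-!
# Row 176, part A: phases of all levels (block (5P); helper845)

Literal words: every full block `B` of a nonzero word has a chosen home-empty form `nf B` (`NormP`).
`RunsC ps cs` : executing all engaged pairs of the list `ps` gives the contents `cs`.
-/

set_option autoImplicit false
set_option linter.unusedSectionVars false

namespace Crest.Agent.R176.Machine.Phase

open Crest.Agent.R176.Gen Crest.Agent.R176.Machine.Key Crest.Agent.R176.Machine.Key309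

section runs
variable {Λ : Type} [DecidableEq Λ] [LabelSys Λ]

/-- home-empty forms: context, mark of `H`, content -/
abbrev Trip (Λ : Type) := Option (Ph × Data) × HM × Cont Λ

/-- the head of the list is not busy -/
def HdOK (ps : List (Trip Λ)) : Prop := ∀ p ∈ ps.head?, p.1 = none
/-- the last form is not locked -/
def LstOK (ps : List (Trip Λ)) : Prop := ∀ p ∈ ps.getLast?, p.2.1 ≠ .l

/-- execute all engaged pairs of a list of home-empty forms -/
inductive RunsC : List (Trip Λ) → List (Cont Λ) → Prop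
  | nil : RunsC [] []
  | one (a : Cont Λ) (ps : List (Trip Λ)) (cs : List (Cont Λ)) (h : RunsC ps cs) :
      RunsC ((none, .f, a) :: ps) (a :: cs)
  | two (a b : Cont Λ) (φ : Ph) (d : Data) (p : Cont Λ × Cont Λ)
      (hr : runL (allPh.drop φ.val) d a b = some p) (ps : List (Trip Λ)) (cs : List (Cont Λ))
      (h : RunsC ps cs) : RunsC ((none, .l, a) :: (some (φ, d), .b, b) :: ps) (p.1 :: p.2 :: cs)

theorem RunsC.unique {ps : List (Trip Λ)} {cs cs' : List (Cont Λ)} (h : RunsC ps cs)
    (h' : RunsC ps cs') : cs = cs' := by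
  induction h generalizing cs' with
  | nil => cases h'; rfl
  | one a ps cs h ih =>
    cases h' with
    | one _ _ cs'' h'' => rw [ih h'']
  | two a b φ d p hr ps cs h ih =>
    cases h' with
    | two _ _ _ _ p' hr' _ cs'' h'' =>
      rw [hr] at hr'
      cases hr'
      rw [ih h'']

theorem RunsC.length {ps : List (Trip Λ)} {cs : List (Cont Λ)} (h : RunsC ps cs) :
    cs.length = ps.length := by
  induction h with
  | nil => rfl
  | one a ps cs h ih => simp [ih]
  | two a b φ d p hr ps cs h ih => simp [ih]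

theorem RunsC.hd {ps : List (Trip Λ)} {cs : List (Cont Λ)} (h : RunsC ps cs) : HdOK ps := by
  intro p hp
  cases h with
  | nil => simp at hp
  | one a ps cs h => simp at hp; rw [← hp]
  | two a b φ d p hr ps cs h => simp at hp; rw [← hp]

theorem RunsC.lst {ps : List (Trip Λ)} {cs : List (Cont Λ)} (h : RunsC ps cs) : LstOK ps := by
  induction h with
  | nil => intro p hp; simp at hp
  | one a ps cs h ih =>
    intro p hp
    rcases ps with _ | ⟨q, ps⟩
    · simp at hp; rw [← hp]; simp
    · rw [List.getLast?_cons_cons] at hp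
      exact ih p hp
  | two a b φ d p hr ps cs h ih =>
    intro p hp
    rw [List.getLast?_cons_cons] at hp
    rcases ps with _ | ⟨q, ps⟩
    · simp at hp; rw [← hp]; simp
    · rw [List.getLast?_cons_cons] at hp
      exact ih p hp

/-- splitting at a place where the right part does not begin with a busy block -/
theorem RunsC.split {A R : List (Trip Λ)} {cs : List (Cont Λ)} (h : RunsC (A ++ R) cs)
    (hR : HdOK R) (hR0 : R ≠ []) :
    ∃ cA cR, RunsC A cA ∧ RunsC R cR ∧ cs = cA ++ cR := by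
  generalize hX : A ++ R = X at h
  induction h generalizing A with
  | nil => simp at hX; exact absurd hX.2 hR0
  | one a ps cs h ih =>
    rcases A with _ | ⟨x, A⟩
    · simp only [List.nil_append] at hX
      subst hX
      exact ⟨[], a :: cs, .nil, .one a ps cs h, rfl⟩
    · simp only [List.cons_append, List.cons.injEq] at hX
      obtain ⟨rfl, hX⟩ := hX
      obtain ⟨cA, cR, h1, h2, rfl⟩ := ih hX
      exact ⟨a :: cA, cR, .one a _ _ h1, h2, rfl⟩
  | two a b φ d p hr ps cs h ih =>
    rcases A with _ | ⟨x, A⟩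
    · simp only [List.nil_append] at hX
      subst hX
      exact ⟨[], _, .nil, .two a b φ d p hr ps cs h, rfl⟩
    · simp only [List.cons_append, List.cons.injEq] at hX
      obtain ⟨rfl, hX⟩ := hX
      rcases A with _ | ⟨y, A⟩
      · simp only [List.nil_append] at hX
        subst hX
        have := hR (some (φ, d), .b, b) (by simp)
        simp at this
      · simp only [List.cons_append, List.cons.injEq] at hX
        obtain ⟨rfl, hX⟩ := hX
        obtain ⟨cA, cR, h1, h2, rfl⟩ := ih hX
        exact ⟨p.1 :: p.2 :: cA, cR, .two a b φ d p hr _ _ h1, h2, rfl⟩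

end runs

section norm
variable {Λ : Type} [Fintype Λ] [DecidableEq Λ] [LabelSys Λ] {M : Type*} [MonoidWithZero M]

/-- segments -/
abbrev Seg (Λ : Type) := WK × Λ × List (Let Λ)

/-- the word of a segment -/
def seg1 (s : Seg Λ) : List (Let Λ) := (.W s.1, s.2.1) :: s.2.2

theorem segs_cons' (s : Seg Λ) (X : List (Seg Λ)) : segs (s :: X) = seg1 s ++ segs X := rfl

theorem segs_append (X Y : List (Seg Λ)) : segs (X ++ Y) = segs X ++ segs Y := by
  unfold segs; rw [List.map_append, List.flatten_append]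

/-- the word of a home-empty form -/
noncomputable def bl (p : Trip Λ) : List (Let Λ) := Key.blkL p.1 p.2.1 p.2.2

/-- valid home-empty forms -/
def Val (p : Trip Λ) : Prop :=
  (p.1 = none ∧ (p.2.1 = .f ∨ p.2.1 = .l)) ∨ (∃ φ d, φ ≠ 0 ∧ p.1 = some (φ, d) ∧ p.2.1 = .b)

variable (m : Model (step (Λ := Λ)) M)

/-- `p` is a home-empty form of the segment `s` -/
def Nrm (s : Seg Λ) (p : Trip Λ) : Prop :=
  s.2.2.length = Fintype.card Λ + 4 ∧
    (∀ (w' : WK) (b : Λ), m.ev (seg1 s ++ [(.W w', b)]) = m.ev (bl p ++ [(.W w', b)])) ∧ Val p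

open Classical in
/-- the chosen home-empty form of a literal segment -/
noncomputable def nf (s : Seg Λ) : Trip Λ :=
  if h : ∃ p, Nrm m s p then h.choose else (none, .f, ⟨z, z, z⟩)

variable {m}

theorem nf_spec (hN : NormP m) {s : Seg Λ} (hs : ∀ x ∈ s.2.2, ¬ IsW x) {w' : WK} {b : Λ}
    (h : m.ev (seg1 s ++ [(.W w', b)]) ≠ 0) : Nrm m s (nf m s) := by
  have : ∃ p, Nrm m s p := by
    rcases hN s.1 s.2.1 s.2.2 hs with h0 | ⟨c, hm, q, h1, h2, h3⟩
    · exact absurd (h0 w' b) h
    · refine ⟨(c, hm, q), h1, h2, ?_⟩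
      rcases h3 with ⟨h4, -, -, h5⟩ | ⟨φ, d, h4, h5, -, h6⟩
      · exact Or.inl ⟨h4, h5⟩
      · exact Or.inr ⟨φ, d, h4, h5, h6⟩
  unfold nf
  rw [dif_pos this]
  exact this.choose_spec

/-- a word of segments followed by a wall letter begins with a wall letter -/
theorem segs_wall (X : List (Seg Λ)) (w : WK) (a : Λ) (h : List (Let Λ)) :
    ∃ w' a' h', segs X ++ ((.W w, a) : Let Λ) :: h = (.W w', a') :: h' := by
  rcases X with _ | ⟨s, X⟩
  · exact ⟨w, a, h, rfl⟩
  · exact ⟨s.1, s.2.1, s.2.2 ++ (segs X ++ ((.W w, a) : Let Λ) :: h), by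
      rw [segs_cons']; simp [seg1]⟩

/-- normalisation of all segments of a nonzero word -/
theorem norm_ev (hN : NormP m) (X : List (Seg Λ)) (hX : ∀ s ∈ X, ∀ x ∈ s.2.2, ¬ IsW x)
    (w : WK) (a : Λ) (h : List (Let Λ)) (hnz : m.ev (segs X ++ (.W w, a) :: h) ≠ 0) :
    m.ev (segs X ++ (.W w, a) :: h) =
      m.ev ((X.map fun s => bl (nf m s)).flatten ++ (.W w, a) :: h) ∧
    ∀ s ∈ X, Nrm m s (nf m s) := by
  induction X with
  | nil => exact ⟨rfl, by simp⟩
  | cons s X ih =>
    obtain ⟨w', a', h', hw⟩ := segs_wall X w a h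
    have e1 : m.ev (segs (s :: X) ++ (.W w, a) :: h) =
        m.ev (seg1 s ++ [(.W w', a')]) * m.ev h' := by
      rw [segs_cons', List.append_assoc, hw, ← Model.ev_append]
      simp
    have h1 : m.ev (seg1 s ++ [(.W w', a')]) ≠ 0 := by
      intro h0; rw [e1, h0, zero_mul] at hnz; exact hnz rfl
    have h2 := nf_spec hN (hX s (by simp)) h1
    have h3 : m.ev (segs X ++ (.W w, a) :: h) ≠ 0 := by
      intro h0
      rw [segs_cons', List.append_assoc, Model.ev_append, h0, mul_zero] at hnz
      exact hnz rfl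
    obtain ⟨h4, h5⟩ := ih (fun t ht => hX t (by simp [ht])) h3
    refine ⟨?_, ?_⟩
    · have e2 : m.ev (((s :: X).map fun s => bl (nf m s)).flatten ++ (.W w, a) :: h) =
          m.ev (bl (nf m s)) * (m.f (.W w', a') * m.ev h') := by
        rw [List.map_cons, List.flatten_cons, List.append_assoc, Model.ev_append, ← h4, hw,
          Model.ev_cons]
      rw [e1, e2, h2.2.1 w' a', Model.ev_append, Model.ev_cons, Model.ev_nil, mul_one, mul_assoc]
    · intro t ht
      simp only [List.mem_cons] at ht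
      rcases ht with rfl | ht
      · exact h2
      · exact h5 t ht

theorem lock_adj (hL : LockP m) {p p' : Trip Λ} (hV : Val p') (r : List (Let Λ))
    (h : m.ev (bl p ++ (bl p' ++ r)) ≠ 0) : p.2.1 = .l ↔ p'.1 ≠ none := by
  have h1 : m.ev (Key.blkL p.1 p.2.1 p.2.2 ++ [(.W (homeW p'.1), z)]) ≠ 0 := by
    intro h0
    apply h
    have : bl p ++ (bl p' ++ r) = (Key.blkL p.1 p.2.1 p.2.2 ++ [(.W (homeW p'.1), z)]) ++
        ((bl p').tail ++ r) := by
      simp [bl, Key.blkL]
    rw [this, Model.ev_append, h0, zero_mul]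
  have h2 : p.2.1 = .l ↔ locked (homeW p'.1) = true := by
    by_contra hc
    exact h1 (hL _ _ _ _ _ hc)
  rw [h2]
  rcases hV with ⟨h3, -⟩ | ⟨φ, d, h3, h4, -⟩
  · rw [h3]; simp [homeW, locked]
  · rw [h4]; simp [homeW, locked, h3]

theorem runs_exists (hL : LockP m) (hR : RunP m) : ∀ ps : List (Trip Λ), (∀ p ∈ ps, Val p) →
    HdOK ps → LstOK ps → m.ev (ps.map bl).flatten ≠ 0 →
    ∃ cs, RunsC ps cs ∧ m.ev (ps.map bl).flatten = m.ev (cs.map (Key.blkL none .f)).flatten
  | [], _, _, _, _ => ⟨[], .nil, rfl⟩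
  | [p], hV, hd, hl, _ => by
    have h1 : p.1 = none := hd p (by simp)
    have h2 : p.2.1 ≠ .l := hl p (by simp)
    obtain ⟨c, hm, a⟩ := p
    simp only at h1 h2
    subst h1
    rcases hV (none, hm, a) (by simp) with ⟨-, h3⟩ | ⟨φ, d, -, h3, -⟩
    · simp only [h2, or_false] at h3
      subst h3
      exact ⟨[a], .one a [] [] .nil, rfl⟩
    · simp at h3
  | p :: p' :: ps, hV, hd, hl, hnz => by
    have h1 : p.1 = none := hd p (by simp)
    have hadj : p.2.1 = .l ↔ p'.1 ≠ none := by
      refine lock_adj hL (hV p' (by simp)) (ps.map bl).flatten ?_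
      simpa using hnz
    obtain ⟨c, hm, a⟩ := p
    simp only at h1
    subst h1
    have hVp := hV (none, hm, a) (by simp)
    rcases hVp with ⟨-, h3⟩ | ⟨φ, d, -, h3, -⟩
    · simp only at h3 hadj
      rcases h3 with rfl | rfl
      · have h4 : p'.1 = none := by
          by_contra h5
          exact absurd (hadj.2 h5) (by simp)
        have hnz' : m.ev ((p' :: ps).map bl).flatten ≠ 0 := by
          intro h0; apply hnz
          rw [List.map_cons, List.flatten_cons, Model.ev_append, h0, mul_zero]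
        obtain ⟨cs, h5, h6⟩ := runs_exists hL hR (p' :: ps) (fun q hq => hV q (by simp [hq]))
          (fun q hq => by simp at hq; rw [← hq]; exact h4)
          (fun q hq => hl q (by rw [List.getLast?_cons_cons]; exact hq)) hnz'
        refine ⟨a :: cs, .one a _ _ h5, ?_⟩
        rw [List.map_cons, List.flatten_cons, Model.ev_append, h6, List.map_cons,
          List.flatten_cons, Model.ev_append]
        rfl
      · have h4 : p'.1 ≠ none := hadj.1 rfl
        obtain ⟨c', hm', b⟩ := p'
        rcases hV (c', hm', b) (by simp) with ⟨h5, -⟩ | ⟨φ, d, hφ, h5, h6⟩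
        · exact absurd h5 h4
        · simp only at h5 h6
          subst h5 h6
          have hrun := hR φ d a b hφ
          have hsplit : (((none, .l, a) :: (some (φ, d), .b, b) :: ps : List (Trip Λ)).map bl).flatten
              = (Key.blkL none .l a ++ Key.blkL (some (φ, d)) .b b) ++ (ps.map bl).flatten := by
            simp [bl]
          rw [hsplit, Model.ev_append] at hnz
          cases hr : runL (allPh.drop φ.val) d a b with
          | none =>
            rw [hr] at hrun
            rw [hrun, zero_mul] at hnz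
            exact absurd rfl hnz
          | some p =>
            rw [hr] at hrun
            simp only at hrun
            have hnz' : m.ev (ps.map bl).flatten ≠ 0 := by
              intro h0; rw [h0, mul_zero] at hnz; exact hnz rfl
            have hd' : HdOK ps := by
              intro q hq
              rcases ps with _ | ⟨q', ps⟩
              · simp at hq
              · simp at hq
                subst hq
                by_contra h7
                have h8 := lock_adj (m := m) hL (p := (some (φ, d), .b, b)) (hV q' (by simp))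
                  (ps.map bl).flatten (by
                    intro h0
                    apply hnz
                    rw [← Model.ev_append, List.append_assoc, Model.ev_append]
                    have : m.ev (Key.blkL (some (φ, d)) .b b ++ ((q' :: ps).map bl).flatten) = 0 := by
                      rw [← h0]; simp [bl]
                    rw [this, mul_zero])
                exact absurd (h8.2 h7) (by simp)
            obtain ⟨cs, h7, h8⟩ := runs_exists hL hR ps (fun q hq => hV q (by simp [hq])) hd'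
              (fun q hq => hl q (by
                rcases ps with _ | ⟨q', ps⟩
                · simp at hq
                · rw [List.getLast?_cons_cons, List.getLast?_cons_cons]; exact hq)) hnz'
            refine ⟨p.1 :: p.2 :: cs, .two a b φ d p hr ps cs h7, ?_⟩
            rw [hsplit, Model.ev_append, hrun, h8, ← Model.ev_append]
            simp
    · simp at h3

theorem codes (hS : StartP m) : ∀ cs : List (Cont Λ), 2 ≤ cs.length →
    m.ev (cs.map (Key.blkL none .f)).flatten ≠ 0 → ∀ c ∈ cs, decode c.h ≠ none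
  | [], h2, _ => by simp at h2
  | [_], h2, _ => by simp at h2
  | a :: b :: cs, _, hnz => by
    have h1 : m.ev (Key.blkL none .f a ++ Key.blkL none .f b) ≠ 0 := by
      intro h0; apply hnz
      have : ((a :: b :: cs).map (Key.blkL none .f)).flatten =
          (Key.blkL none .f a ++ Key.blkL none .f b) ++ (cs.map (Key.blkL none .f)).flatten := by
        simp
      rw [this, Model.ev_append, h0, zero_mul]
    have h2 : ∀ d : Data, ¬ (decode b.h = none ∨ decode a.h = none) := by
      intro d hc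
      apply h1
      rw [hS d a b, runL_none allPh ten_mem_allPh d a b hc]
    have h3 := h2 (fun _ => false)
    push Not at h3
    intro c hc
    simp only [List.mem_cons] at hc
    rcases hc with rfl | hc
    · exact h3.2
    · rcases cs with _ | ⟨c', cs⟩
      · simp only [List.not_mem_nil, or_false] at hc
        rw [hc]; exact h3.1
      · refine codes hS (b :: c' :: cs) (by simp) ?_ c (by simpa using hc)
        intro h0; apply hnz
        rw [List.map_cons, List.flatten_cons, Model.ev_append, h0, mul_zero]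

theorem exists_word (cs : List (Cont Λ)) (h : ∀ c ∈ cs, decode c.h ≠ none) :
    ∃ v : List (Let (Λ × Λ)), cs = v.map cont := by
  induction cs with
  | nil => exact ⟨[], rfl⟩
  | cons c cs ih =>
    obtain ⟨v, rfl⟩ := ih (fun c' hc' => h c' (by simp [hc']))
    cases hk : decode c.h with
    | none => exact absurd hk (h c (by simp))
    | some κ =>
      refine ⟨(κ, (c.y1, c.y2)) :: v, ?_⟩
      rw [List.map_cons]
      congr 1
      have := LabelSys.code_decode c.h κ hk
      unfold cont
      rw [← this]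

theorem cont_injective : Function.Injective (cont : Let (Λ × Λ) → Cont Λ) := by
  rintro ⟨κ, a⟩ ⟨κ', a'⟩ h
  simp only [cont, Cont.mk.injEq] at h
  obtain ⟨h1, h2, h3⟩ := h
  have h4 : κ = κ' := by
    have := congrArg decode h1
    rw [LabelSys.decode_code, LabelSys.decode_code] at this
    exact Option.some.inj this
  rw [h4, Prod.ext h2 h3]

theorem blkL_eq (c : Option (Ph × Data)) (hm : HM) (q : Cont Λ) :
    Key.blkL c hm q = Sim.blkL c hm q := by
  simp [Key.blkL, Sim.blkL, Sim.bagL, Sim.xsL, xs]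

theorem ev_rest (v : List (Let (Λ × Λ))) :
    m.ev ((v.map cont).map (Key.blkL none .f)).flatten = (Sim.sq m).ev v := by
  rw [← Sim.ev_Phi]
  congr 1
  unfold Sim.Phi
  rw [List.map_map]
  rw [List.flatMap_def]
  congr 2
  funext x
  simp only [Function.comp]
  rw [blkL_eq, Sim.blkL_rest]

/-- the macro word of a range of full segments of a nonzero word -/
theorem macro_exists (hN : NormP m) (hL : LockP m) (hR : RunP m) (hS : StartP m)
    {t : List (Let Λ)} {X : List (Seg Λ)} (hX : ∀ s ∈ X, ∀ x ∈ s.2.2, ¬ IsW x)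
    {w : WK} {a : Λ} {h : List (Let Λ)} (hnz : m.ev (t ++ (segs X ++ (.W w, a) :: h)) ≠ 0)
    (hd : HdOK (X.map (nf m))) (hl : LstOK (X.map (nf m))) (h2 : 2 ≤ X.length) :
    ∃ v : List (Let (Λ × Λ)), RunsC (X.map (nf m)) (v.map cont) ∧ (Sim.sq m).ev v ≠ 0 ∧
      v.length = X.length := by
  have h3 : m.ev (segs X ++ (.W w, a) :: h) ≠ 0 := by
    intro h0; apply hnz; rw [Model.ev_append, h0, mul_zero]
  obtain ⟨h4, h5⟩ := norm_ev hN X hX w a h h3
  have h6 : m.ev ((X.map (nf m)).map bl).flatten ≠ 0 := by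
    intro h0; apply h3
    rw [h4, Model.ev_append]
    rw [List.map_map] at h0
    have : m.ev (X.map fun s => bl (nf m s)).flatten = 0 := h0
    rw [this, zero_mul]
  obtain ⟨cs, h7, h8⟩ := runs_exists hL hR (X.map (nf m)) (by
    intro p hp
    obtain ⟨s, hs, rfl⟩ := List.mem_map.1 hp
    exact (h5 s hs).2.2) hd hl h6
  have hlen : cs.length = X.length := by rw [h7.length, List.length_map]
  rw [h8] at h6
  have h9 := codes hS cs (by omega) h6
  obtain ⟨v, rfl⟩ := exists_word cs h9
  refine ⟨v, h7, ?_, by simpa using hlen⟩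
  rw [← ev_rest]; exact h6

end norm

end Crest.Agent.R176.Machine.Phase

namespace Crest.Agent.R176.Machine.Phase

open Crest.Agent.R176.Gen Crest.Agent.R176.Machine.Key Crest.Agent.R176.Machine.Key309

section uniq
variable {Λ : Type} [Fintype Λ] [DecidableEq Λ] [LabelSys Λ]

theorem RunsC.split_left {R Z : List (Trip Λ)} {cR c : List (Cont Λ)} (h : RunsC R cR)
    (h' : RunsC (R ++ Z) c) : ∃ cZ, RunsC Z cZ ∧ c = cR ++ cZ := by
  induction h generalizing c with
  | nil => exact ⟨c, h', rfl⟩
  | one a ps cs h ih =>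
    cases h' with
    | one _ _ cs' h'' =>
      obtain ⟨cZ, h1, rfl⟩ := ih h''
      exact ⟨cZ, h1, rfl⟩
  | two a b φ d p hr ps cs h ih =>
    cases h' with
    | two _ _ _ _ p' hr' _ cs' h'' =>
      rw [hr] at hr'
      cases hr'
      obtain ⟨cZ, h1, rfl⟩ := ih h''
      exact ⟨cZ, h1, rfl⟩

theorem first_wall {t t' : List (Let Λ)} {y y' : Let Λ} {r r' : List (Let Λ)}
    (ht : ∀ x ∈ t, ¬ IsW x) (ht' : ∀ x ∈ t', ¬ IsW x) (hy : IsW y) (hy' : IsW y')
    (h : t ++ y :: r = t' ++ y' :: r') : t = t' ∧ y = y' ∧ r = r' := by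
  induction t generalizing t' with
  | nil =>
    rcases t' with _ | ⟨x', t'⟩
    · simp only [List.nil_append, List.cons.injEq] at h
      exact ⟨rfl, h.1, h.2⟩
    · simp only [List.nil_append, List.cons_append, List.cons.injEq] at h
      exact absurd (h.1 ▸ hy) (ht' x' (by simp))
  | cons x t ih =>
    rcases t' with _ | ⟨x', t'⟩
    · simp only [List.nil_append, List.cons_append, List.cons.injEq] at h
      exact absurd (h.1 ▸ hy') (ht x (by simp))
    · simp only [List.cons_append, List.cons.injEq] at h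
      obtain ⟨rfl, h2⟩ := h
      obtain ⟨rfl, h3, h4⟩ := ih (fun x hx => ht x (by simp [hx])) (fun x hx => ht' x (by simp [hx])) h2
      exact ⟨rfl, h3, h4⟩

theorem seg_unique {t t' : List (Let Λ)} {X X' : List (Seg Λ)}
    (ht : ∀ x ∈ t, ¬ IsW x) (ht' : ∀ x ∈ t', ¬ IsW x)
    (hX : ∀ s ∈ X, ∀ x ∈ s.2.2, ¬ IsW x) (hX' : ∀ s ∈ X', ∀ x ∈ s.2.2, ¬ IsW x)
    (h : t ++ segs X = t' ++ segs X') : t = t' ∧ X = X' := by
  induction X generalizing t t' X' with
  | nil =>
    rcases X' with _ | ⟨s', X'⟩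
    · simpa using h
    · exfalso
      rw [segs_nil, List.append_nil, segs_cons'] at h
      exact ht (.W s'.1, s'.2.1) (by rw [h]; simp [seg1]) ⟨_, rfl⟩
  | cons s X ih =>
    rcases X' with _ | ⟨s', X'⟩
    · exfalso
      rw [segs_nil, List.append_nil, segs_cons'] at h
      exact ht' (.W s.1, s.2.1) (by rw [← h]; simp [seg1]) ⟨_, rfl⟩
    · rw [segs_cons', segs_cons'] at h
      unfold seg1 at h
      rw [List.cons_append, List.cons_append] at h
      obtain ⟨rfl, h2, h3⟩ := first_wall ht ht' ⟨_, rfl⟩ ⟨_, rfl⟩ h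
      obtain ⟨h4, h5⟩ := ih (hX s (by simp)) (hX' s' (by simp)) (fun r hr => hX r (by simp [hr]))
        (fun r hr => hX' r (by simp [hr])) h3
      refine ⟨rfl, ?_⟩
      obtain ⟨s1, s2, s3⟩ := s
      obtain ⟨s1', s2', s3'⟩ := s'
      simp only [Prod.mk.injEq, KK.W.injEq] at h2 h4
      obtain ⟨rfl, rfl⟩ := h2
      rw [h4, h5]

/-- phase data of a level -/
structure PhD (Λ : Type) [Fintype Λ] [DecidableEq Λ] [LabelSys Λ] (ℓ M : ℕ)
    (ph : List (Let Λ) → ZMod ℓ) : Prop where
  two : 2 ≤ M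
  pre : ∀ u w : List (Let Λ), S.of (step (Λ := Λ)) (u ++ w) ≠ 0 → M ≤ u.length →
    ph (u ++ w) = ph u
  suf : ∀ w u : List (Let Λ), S.of (step (Λ := Λ)) (w ++ u) ≠ 0 → M ≤ u.length →
    ph (w ++ u) + (w.length : ZMod ℓ) = ph u

/-- multiplication by `b` -/
def bet (b ℓ : ℕ) : ZMod ℓ →+ ZMod (b * ℓ) :=
  ZMod.lift ℓ ⟨zmultiplesHom _ (b : ZMod (b * ℓ)), by
    simp only [zmultiplesHom_apply, natCast_zsmul, nsmul_eq_mul]
    rw [← Nat.cast_mul, mul_comm, ZMod.natCast_self]⟩

theorem bet_natCast (b ℓ n : ℕ) : bet b ℓ (n : ZMod ℓ) = (b : ZMod (b * ℓ)) * n := by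
  unfold bet
  have := ZMod.lift_coe ℓ ⟨zmultiplesHom _ (b : ZMod (b * ℓ)), by
    simp only [zmultiplesHom_apply, natCast_zsmul, nsmul_eq_mul]
    rw [← Nat.cast_mul, mul_comm, ZMod.natCast_self]⟩ (n : ℤ)
  rw [Int.cast_natCast] at this
  rw [this]
  simp only [zmultiplesHom_apply, natCast_zsmul, nsmul_eq_mul]
  exact mul_comm _ _

/-- the universal model -/
noncomputable abbrev um : Model (step (Λ := Λ)) (S (step (Λ := Λ))) := S.model _

theorem ne_zero_of_sq {v : List (Let (Λ × Λ))} (h : (Sim.sq (um (Λ := Λ))).ev v ≠ 0) :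
    S.of (step (Λ := Λ × Λ)) v ≠ 0 := by
  intro h0
  apply h
  rw [← S.lift_of, h0, map_zero]

variable {ℓ' M' : ℕ} {ph' : List (Let (Λ × Λ)) → ZMod ℓ'}

theorem sub_range (hP : PhD (Λ × Λ) ℓ' M' ph') {A R Z : List (Seg Λ)}
    {w v : List (Let (Λ × Λ))} (hw : RunsC ((A ++ (R ++ Z)).map (nf um)) (w.map cont))
    (hwnz : S.of (step (Λ := Λ × Λ)) w ≠ 0) (hv : RunsC (R.map (nf um)) (v.map cont))
    (hM : M' ≤ v.length) : ph' v = ph' w + (A.length : ZMod ℓ') := by
  have h2 := hP.two
  have hR0 : R ≠ [] := by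
    rintro rfl
    have := hv.length
    simp at this
    rw [this] at hM
    simp at hM
    omega
  rw [List.map_append] at hw
  obtain ⟨cA, cR, h3, h4, h5⟩ := hw.split (by
      intro p hp
      rcases R with _ | ⟨s, R⟩
      · exact absurd rfl hR0
      · exact hv.hd p (by simpa using hp)) (by simpa using fun h => absurd h hR0)
  rw [List.map_append] at h4
  obtain ⟨cZ, h6, rfl⟩ := hv.split_left h4
  obtain ⟨wA, w2, rfl, h7, h8⟩ := List.map_eq_append_iff.1 h5
  obtain ⟨v', wZ, rfl, h9, h10⟩ := List.map_eq_append_iff.1 h8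
  have hvv : v' = v := List.map_injective_iff.2 cont_injective h9
  subst hvv
  have h11 : wA.length = A.length := by
    have := h3.length
    rw [← h7] at this
    simpa using this
  have h12 := hP.suf wA (v' ++ wZ) hwnz (by simp; omega)
  have h13 : S.of (step (Λ := Λ × Λ)) (v' ++ wZ) ≠ 0 := by
    intro h0; apply hwnz; rw [S.of_append, h0, mul_zero]
  rw [hP.pre v' wZ h13 hM, h11] at h12
  exact h12.symm

theorem bet_add_nat (b : ℕ) (x : ZMod ℓ') (n : ℕ) :
    bet b ℓ' (x + (n : ZMod ℓ')) = bet b ℓ' x + (b : ZMod (b * ℓ')) * n := by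
  rw [map_add, bet_natCast]

theorem segs_length_of {X : List (Seg Λ)} (h : ∀ s ∈ X, s.2.2.length = Fintype.card Λ + 4) :
    (segs X).length = (Fintype.card Λ + 5) * X.length := by
  induction X with
  | nil => rfl
  | cons s X ih =>
    rw [segs_cons', List.length_append, ih (fun s' hs' => h s' (by simp [hs'])), List.length_cons]
    have := h s (by simp)
    simp only [seg1, List.length_cons, this]
    ring

theorem phase_val (hN : NormP (um (Λ := Λ))) (hL : LockP (um (Λ := Λ))) (hR : RunP (um (Λ := Λ)))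
    (hS : StartP (um (Λ := Λ))) (hP : PhD (Λ × Λ) ℓ' M' ph') {t : List (Let Λ)}
    {T X H : List (Seg Λ)} (hwf : ∀ s ∈ X, ∀ x ∈ s.2.2, ¬ IsW x) (hH : H ≠ [])
    (hnz : S.of (step (Λ := Λ)) (t ++ segs (T ++ (X ++ H))) ≠ 0)
    (hd : HdOK (X.map (nf um))) (hl : LstOK (X.map (nf um))) (h2 : 2 ≤ X.length) :
    ∃ c : ZMod ((Fintype.card Λ + 5) * ℓ'), ∀ (A R Z : List (Seg Λ)) (v : List (Let (Λ × Λ))),
      X = A ++ (R ++ Z) → RunsC (R.map (nf um)) (v.map cont) → M' ≤ v.length →
      -(((t ++ segs (T ++ A)).length : ℕ) : ZMod ((Fintype.card Λ + 5) * ℓ')) +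
        bet (Fintype.card Λ + 5) ℓ' (ph' v) = c := by
  rcases H with _ | ⟨s0, H⟩
  · exact absurd rfl hH
  have hnz' : (um (Λ := Λ)).ev ((t ++ segs T) ++ (segs X ++ (.W s0.1, s0.2.1) ::
      (s0.2.2 ++ segs H))) ≠ 0 := by
    rw [S.model_ev]
    convert hnz using 2
    rw [segs_append, segs_append, segs_cons']
    simp [seg1]
  obtain ⟨w, h3, h4, h5⟩ := macro_exists hN hL hR hS hwf hnz' hd hl h2
  have h6 : ∀ s ∈ X, Nrm um s (nf um s) := by
    refine (norm_ev hN X hwf s0.1 s0.2.1 (s0.2.2 ++ segs H) ?_).2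
    intro h0; apply hnz'; rw [Model.ev_append, h0, mul_zero]
  refine ⟨-(((t ++ segs T).length : ℕ) : ZMod ((Fintype.card Λ + 5) * ℓ')) +
    bet (Fintype.card Λ + 5) ℓ' (ph' w), ?_⟩
  intro A R Z v hX hv hM
  subst hX
  have h7 := sub_range hP h3 (ne_zero_of_sq h4) hv hM
  have h8 : (segs A).length = (Fintype.card Λ + 5) * A.length :=
    segs_length_of fun s hs => (h6 s (by simp [hs])).1
  rw [h7, bet_add_nat, segs_append, ← List.append_assoc, List.length_append, h8]
  push_cast
  ring

/-- `u` has start phase `q` -/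
def PhR (ph' : List (Let (Λ × Λ)) → ZMod ℓ') (M' : ℕ) (u : List (Let Λ))
    (q : ZMod ((Fintype.card Λ + 5) * ℓ')) : Prop :=
  ∃ (t : List (Let Λ)) (T R H : List (Seg Λ)) (v : List (Let (Λ × Λ))),
    (∀ x ∈ t, ¬ IsW x) ∧ (∀ s ∈ T ++ (R ++ H), ∀ x ∈ s.2.2, ¬ IsW x) ∧ H ≠ [] ∧
    u = t ++ segs (T ++ (R ++ H)) ∧ RunsC (R.map (nf um)) (v.map cont) ∧ M' ≤ v.length ∧
    q = -(((t ++ segs T).length : ℕ) : ZMod ((Fintype.card Λ + 5) * ℓ')) +
      bet (Fintype.card Λ + 5) ℓ' (ph' v)

theorem unique_aux (hN : NormP (um (Λ := Λ))) (hL : LockP (um (Λ := Λ))) (hR : RunP (um (Λ := Λ)))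
    (hS : StartP (um (Λ := Λ))) (hP : PhD (Λ × Λ) ℓ' M' ph') {t : List (Let Λ)}
    {T R H A R' H' : List (Seg Λ)} {v v' : List (Let (Λ × Λ))}
    (hwf : ∀ s ∈ T ++ (R ++ H), ∀ x ∈ s.2.2, ¬ IsW x) (hH : H ≠ []) (hH' : H' ≠ [])
    (he : R ++ H = A ++ (R' ++ H'))
    (hnz : S.of (step (Λ := Λ)) (t ++ segs (T ++ (R ++ H))) ≠ 0)
    (hv : RunsC (R.map (nf um)) (v.map cont)) (hM : M' ≤ v.length)
    (hv' : RunsC (R'.map (nf um)) (v'.map cont)) (hM' : M' ≤ v'.length) :
    -(((t ++ segs T).length : ℕ) : ZMod ((Fintype.card Λ + 5) * ℓ')) +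
      bet (Fintype.card Λ + 5) ℓ' (ph' v) =
    -(((t ++ segs (T ++ A)).length : ℕ) : ZMod ((Fintype.card Λ + 5) * ℓ')) +
      bet (Fintype.card Λ + 5) ℓ' (ph' v') := by
  have h2 := hP.two
  have hRl : v.length = R.length := by simpa using hv.length
  have hRl' : v'.length = R'.length := by simpa using hv'.length
  have hR0 : R ≠ [] := by
    rintro rfl
    simp at hRl; rw [hRl] at hM; simp at hM; omega
  have hR0' : R' ≠ [] := by
    rintro rfl
    simp at hRl'; rw [hRl'] at hM'; simp at hM'; omega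
  rw [← List.append_assoc] at he
  rcases List.append_eq_append_iff.1 he with ⟨Z, h3, h4⟩ | ⟨Z, h3, h4⟩
  · -- A ++ R' = R ++ Z, H = Z ++ H'
    have hnz' : S.of (step (Λ := Λ)) (t ++ segs (T ++ ((A ++ R') ++ H'))) ≠ 0 := by
      rw [← he]; exact hnz
    obtain ⟨c, hc⟩ := phase_val hN hL hR hS hP (X := A ++ R') (T := T) (H := H') (t := t)
      (by
        intro s hs
        exact hwf s (by rw [he]; simp only [List.mem_append] at hs ⊢; tauto)) hH' hnz'
      (by
        rw [h3]
        intro p hp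
        rcases R with _ | ⟨s, R⟩
        · exact absurd rfl hR0
        · exact hv.hd p (by simpa using hp))
      (by
        intro p hp
        refine hv'.lst p ?_
        rw [List.map_append, List.getLast?_append_of_ne_nil _ (by simpa using hR0')] at hp
        exact hp)
      (by rw [List.length_append]; omega)
    have h5 := hc [] R Z v (by rw [h3]; rfl) hv hM
    have h6 := hc A R' [] v' (by simp) hv' hM'
    rw [List.append_nil] at h5
    rw [h5, h6]
  · -- R = (A ++ R') ++ Z, H' = Z ++ H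
    obtain ⟨c, hc⟩ := phase_val hN hL hR hS hP (X := R) (T := T) (H := H) (t := t)
      (by
        intro s hs
        exact hwf s (by simp only [List.mem_append]; tauto)) hH hnz hv.hd hv.lst (by omega)
    have h5 := hc [] R [] v (by simp) hv hM
    have h6 := hc A R' Z v' (by rw [h3, List.append_assoc]) hv' hM'
    rw [List.append_nil] at h5
    rw [h5, h6]

theorem PhR.unique (hN : NormP (um (Λ := Λ))) (hL : LockP (um (Λ := Λ))) (hR : RunP (um (Λ := Λ)))
    (hS : StartP (um (Λ := Λ))) (hP : PhD (Λ × Λ) ℓ' M' ph') {u : List (Let Λ)}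
    (hu : S.of (step (Λ := Λ)) u ≠ 0) {q q' : ZMod ((Fintype.card Λ + 5) * ℓ')}
    (h : PhR ph' M' u q) (h' : PhR ph' M' u q') : q = q' := by
  obtain ⟨t, T, R, H, v, h1, h2, h3, rfl, h5, h6, rfl⟩ := h
  obtain ⟨t', T', R', H', v', h1', h2', h3', h4', h5', h6', rfl⟩ := h'
  obtain ⟨rfl, h7⟩ := seg_unique h1 h1' h2 h2' h4'
  rcases List.append_eq_append_iff.1 h7 with ⟨A, rfl, h8⟩ | ⟨A, rfl, h8⟩
  · exact unique_aux hN hL hR hS hP h2 h3 h3' h8 hu h5 h6 h5' h6'
  · refine (unique_aux hN hL hR hS hP h2' h3' h3 h8 ?_ h5' h6' h5 h6).symm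
    rw [← h7]; exact hu

/-- the last segment absorbs a wall-free word -/
theorem absorb (W : List (Seg Λ)) (hW : W ≠ []) (hwf : ∀ s ∈ W, ∀ x ∈ s.2.2, ¬ IsW x)
    (t : List (Let Λ)) (ht : ∀ x ∈ t, ¬ IsW x) :
    ∃ W' : List (Seg Λ), W' ≠ [] ∧ (∀ s ∈ W', ∀ x ∈ s.2.2, ¬ IsW x) ∧ segs W' = segs W ++ t := by
  rcases List.eq_nil_or_concat W with rfl | ⟨W0, s, rfl⟩
  · exact absurd rfl hW
  · rw [List.concat_eq_append] at hwf ⊢
    refine ⟨W0 ++ [(s.1, s.2.1, s.2.2 ++ t)], by simp, ?_, ?_⟩
    · intro r hr x hx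
      simp only [List.mem_append, List.mem_singleton] at hr
      rcases hr with hr | rfl
      · exact hwf r (by simp [hr]) x hx
      · simp only [List.mem_append] at hx
        rcases hx with hx | hx
        · exact hwf s (by simp) x hx
        · exact ht x hx
    · rw [segs_append, segs_append, List.append_assoc]
      congr 1
      simp

theorem PhR.app_right {u w : List (Let Λ)} {q : ZMod ((Fintype.card Λ + 5) * ℓ')}
    (h : PhR ph' M' u q) : PhR ph' M' (u ++ w) q := by
  obtain ⟨t, T, R, H, v, h1, h2, h3, rfl, h5, h6, rfl⟩ := h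
  obtain ⟨tw, W, rfl, h7, h8⟩ := exists_segs w
  obtain ⟨H', h9, h10, h11⟩ := absorb H h3 (fun s hs => h2 s (by simp [hs])) tw h7
  refine ⟨t, T, R, H' ++ W, v, h1, ?_, by simp [h9], ?_, h5, h6, rfl⟩
  · intro s hs x hx
    simp only [List.mem_append] at hs
    rcases hs with hs | hs | hs | hs
    · exact h2 s (by simp [hs]) x hx
    · exact h2 s (by simp [hs]) x hx
    · exact h10 s hs x hx
    · exact h8 s hs x hx
  · simp only [segs_append, h11, List.append_assoc]

theorem PhR.app_left {u w : List (Let Λ)} {q : ZMod ((Fintype.card Λ + 5) * ℓ')}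
    (h : PhR ph' M' u q) :
    PhR ph' M' (w ++ u) (q - (w.length : ZMod ((Fintype.card Λ + 5) * ℓ'))) := by
  obtain ⟨t, T, R, H, v, h1, h2, h3, rfl, h5, h6, rfl⟩ := h
  obtain ⟨tw, W, rfl, h7, h8⟩ := exists_segs w
  rcases W with _ | ⟨s0, W⟩
  · refine ⟨tw ++ t, T, R, H, v, ?_, h2, h3, ?_, h5, h6, ?_⟩
    · intro x hx
      simp only [List.mem_append] at hx
      rcases hx with hx | hx
      · exact h7 x hx
      · exact h1 x hx
    · simp
    · simp only [segs_nil, List.append_nil, List.length_append]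
      push_cast
      ring
  · obtain ⟨W', h9, h10, h11⟩ := absorb (s0 :: W) (by simp) h8 t h1
    refine ⟨tw, W' ++ T, R, H, v, h7, ?_, h3, ?_, h5, h6, ?_⟩
    · intro s hs x hx
      simp only [List.mem_append] at hs
      rcases hs with (hs | hs) | hs
      · exact h10 s hs x hx
      · exact h2 s (by simp [hs]) x hx
      · exact h2 s (by simp only [List.mem_append]; right; exact hs) x hx
    · simp only [segs_append, h11, List.append_assoc]
    · rw [segs_append, h11]
      simp only [List.length_append]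
      push_cast
      ring

/-- neighbours in a nonzero word agree about the lock -/
theorem adj (hN : NormP (um (Λ := Λ))) (hL : LockP (um (Λ := Λ))) {t : List (Let Λ)}
    {P Q : List (Seg Λ)} {s s2 : Seg Λ} {w : WK} {a : Λ} {h : List (Let Λ)}
    (hwf : ∀ r ∈ P ++ s :: s2 :: Q, ∀ x ∈ r.2.2, ¬ IsW x)
    (hnz : (um (Λ := Λ)).ev (t ++ (segs (P ++ s :: s2 :: Q) ++ (.W w, a) :: h)) ≠ 0) :
    (nf um s).2.1 = .l ↔ (nf um s2).1 ≠ none := by
  have h1 : (um (Λ := Λ)).ev (segs (s :: s2 :: Q) ++ (.W w, a) :: h) ≠ 0 := by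
    intro h0; apply hnz
    rw [segs_append, List.append_assoc, Model.ev_append, Model.ev_append, h0, mul_zero, mul_zero]
  obtain ⟨h2, h3⟩ := norm_ev hN (s :: s2 :: Q)
    (fun r hr => hwf r (by simp only [List.mem_append]; right; exact hr)) w a h h1
  rw [h2] at h1
  refine lock_adj hL (h3 s2 (by simp)).2.2
    ((Q.map fun s => bl (nf um s)).flatten ++ (.W w, a) :: h) ?_
  simpa using h1

/-- existence of a range in a long nonzero word -/
theorem PhR.exists (hN : NormP (um (Λ := Λ))) (hL : LockP (um (Λ := Λ))) (hR : RunP (um (Λ := Λ)))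
    (hS : StartP (um (Λ := Λ))) (ph' : List (Let (Λ × Λ)) → ZMod ℓ') (M' : ℕ)
    {u : List (Let Λ)} (hu : S.of (step (Λ := Λ)) u ≠ 0)
    (hlen : (Fintype.card Λ + 5) * (M' + 6) ≤ u.length) : ∃ q, PhR ph' M' u q := by
  obtain ⟨t, bs, rfl, h1, h2⟩ := exists_segs u
  have hu' : (um (Λ := Λ)).ev (t ++ segs bs) ≠ 0 := by rw [S.model_ev]; exact hu
  have h3 : (um (Λ := Λ)).ev t ≠ 0 := by
    intro h0; apply hu'; rw [Model.ev_append, h0, zero_mul]
  have h4 : (um (Λ := Λ)).ev (segs bs) ≠ 0 := by
    intro h0; apply hu'; rw [Model.ev_append, h0, mul_zero]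
  have h5 := (wfree um t (fun x hx => (isWb_false_iff x).2 (h1 x hx)) h3).1
  have h6 := segs_len bs h2 h4
  rw [List.length_append] at hlen
  have h7 : M' + 6 ≤ bs.length := by
    by_contra hc
    have h8 : bs.length ≤ M' + 5 := by omega
    have h9 : bs.length * (Fintype.card Λ + 5) ≤ (M' + 5) * (Fintype.card Λ + 5) :=
      Nat.mul_le_mul_right _ h8
    have h10 : (Fintype.card Λ + 5) * (M' + 6) =
      (M' + 5) * (Fintype.card Λ + 5) + (Fintype.card Λ + 5) := by ring
    omega
  rcases List.eq_nil_or_concat bs with rfl | ⟨X0, s0, rfl⟩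
  · simp at h7
  rw [List.concat_eq_append] at *
  have h8 : M' + 5 ≤ X0.length := by simp at h7; omega
  have hev : ∀ (A B : List (Seg Λ)), X0 = A ++ B →
      (um (Λ := Λ)).ev ((t ++ segs A) ++ (segs B ++ (.W s0.1, s0.2.1) :: s0.2.2)) ≠ 0 := by
    rintro A B rfl
    convert hu' using 2
    simp only [segs_append, List.append_assoc]
    simp
  have hwf : ∀ s ∈ X0, ∀ x ∈ s.2.2, ¬ IsW x := fun s hs => h2 s (by simp [hs])
  have hval : ∀ s ∈ X0, Val (nf (um (Λ := Λ)) s) := by
    intro s hs
    have h9 : (um (Λ := Λ)).ev (segs X0 ++ (.W s0.1, s0.2.1) :: s0.2.2) ≠ 0 := by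
      have := hev [] X0 rfl
      intro h0; apply this; rw [Model.ev_append, h0, mul_zero]
    exact ((norm_ev hN X0 hwf s0.1 s0.2.1 s0.2.2 h9).2 s hs).2.2
  -- trim on the left
  obtain ⟨T, X1, hX1, hT, hd1⟩ : ∃ T X1, X0 = T ++ X1 ∧ T.length ≤ 1 ∧
      HdOK (X1.map (nf (um (Λ := Λ)))) := by
    rcases X0 with _ | ⟨s, X0⟩
    · exact ⟨[], [], rfl, by simp, by intro p hp; simp at hp⟩
    · by_cases hs : (nf (um (Λ := Λ)) s).1 = none
      · exact ⟨[], s :: X0, rfl, by simp, by intro p hp; simp at hp; rw [← hp]; exact hs⟩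
      · refine ⟨[s], X0, rfl, by simp, ?_⟩
        rcases X0 with _ | ⟨s2, X0⟩
        · intro p hp; simp at hp
        · intro p hp
          simp at hp
          rw [← hp]
          have h9 := adj hN hL (P := []) (s := s) (s2 := s2) (Q := X0) (by simpa using hwf)
            (t := t ++ segs []) (hev [] _ rfl)
          by_contra hc
          have h10 := h9.2 hc
          rcases hval s (by simp) with ⟨h11, -⟩ | ⟨φ, d, -, -, h11⟩
          · exact hs h11
          · rw [h11] at h10; simp at h10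
  -- trim on the right
  obtain ⟨X, Z, hX, hZ, hl⟩ : ∃ X Z, X1 = X ++ Z ∧ Z.length ≤ 1 ∧
      LstOK (X.map (nf (um (Λ := Λ)))) := by
    rcases List.eq_nil_or_concat X1 with rfl | ⟨X2, s2, rfl⟩
    · exact ⟨[], [], rfl, by simp, by intro p hp; simp at hp⟩
    · rw [List.concat_eq_append] at *
      by_cases hs : (nf (um (Λ := Λ)) s2).2.1 = .l
      · refine ⟨X2, [s2], rfl, by simp, ?_⟩
        rcases List.eq_nil_or_concat X2 with rfl | ⟨X3, s, rfl⟩
        · intro p hp; simp at hp
        · rw [List.concat_eq_append] at *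
          intro p hp
          simp at hp
          rw [← hp]
          have hX0 : X0 = (T ++ X3) ++ s :: s2 :: [] := by rw [hX1]; simp
          have h9 := adj hN hL (P := T ++ X3) (s := s) (s2 := s2) (Q := [])
            (by rw [← hX0]; exact hwf) (t := t ++ segs []) (by rw [← hX0]; exact hev [] _ rfl)
          intro hc
          have h10 := h9.1 hc
          rcases hval s2 (by rw [hX0]; simp) with ⟨h11, -⟩ | ⟨φ, d, -, -, h11⟩
          · exact h10 h11
          · rw [h11] at hs; simp at hs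
      · exact ⟨X2 ++ [s2], [], by simp, by simp, by intro p hp; simp at hp; rw [← hp]; exact hs⟩
  have hXlen : M' + 3 ≤ X.length := by
    rw [hX1, hX] at h8
    simp only [List.length_append] at h8
    omega
  have hd : HdOK (X.map (nf (um (Λ := Λ)))) := by
    rcases X with _ | ⟨s, X⟩
    · intro p hp; simp at hp
    · intro p hp
      refine hd1 p ?_
      rw [hX]
      simpa using hp
  have hX0 : X0 = T ++ (X ++ Z) := by rw [hX1, hX]
  obtain ⟨w', a', h', hw'⟩ := segs_wall Z s0.1 s0.2.1 s0.2.2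
  have hnz : (um (Λ := Λ)).ev ((t ++ segs T) ++ (segs X ++ (.W w', a') :: h')) ≠ 0 := by
    have := hev T (X ++ Z) hX0
    rw [segs_append, List.append_assoc (segs X), hw'] at this
    exact this
  obtain ⟨v, h9, h10, h11⟩ := macro_exists hN hL hR hS
    (fun s hs => hwf s (by rw [hX0]; simp [hs])) hnz hd hl (by omega)
  refine ⟨_, t, T, X, Z ++ [s0], v, h1, ?_, by simp, ?_, h9, by omega, rfl⟩
  · intro s hs
    refine h2 s ?_
    rw [hX0]
    simp only [List.mem_append] at hs ⊢
    tauto
  · rw [hX0]; simp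

open Classical in
/-- **the phase function of the next level** -/
theorem phase_succ (hN : NormP (um (Λ := Λ))) (hL : LockP (um (Λ := Λ))) (hR : RunP (um (Λ := Λ)))
    (hS : StartP (um (Λ := Λ))) (hP : PhD (Λ × Λ) ℓ' M' ph') :
    ∃ ph, PhD Λ ((Fintype.card Λ + 5) * ℓ') ((Fintype.card Λ + 5) * (M' + 6)) ph := by
  refine ⟨fun u => if h : ∃ q, PhR ph' M' u q then h.choose else 0, ?_, ?_, ?_⟩
  · have := Nat.mul_le_mul (show 1 ≤ Fintype.card Λ + 5 by omega) (show 6 ≤ M' + 6 by omega)
    omega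
  · intro u w hnz hlen
    have hu : S.of (step (Λ := Λ)) u ≠ 0 := by
      intro h0; apply hnz; rw [S.of_append, h0, zero_mul]
    have h1 := PhR.exists hN hL hR hS ph' M' hu hlen
    have h2 : ∃ q, PhR ph' M' (u ++ w) q := ⟨_, h1.choose_spec.app_right⟩
    simp only [dif_pos h1, dif_pos h2]
    exact h2.choose_spec.unique hN hL hR hS hP hnz h1.choose_spec.app_right
  · intro w u hnz hlen
    have hu : S.of (step (Λ := Λ)) u ≠ 0 := by
      intro h0; apply hnz; rw [S.of_append, h0, mul_zero]
    have h1 := PhR.exists hN hL hR hS ph' M' hu hlen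
    have h2 : ∃ q, PhR ph' M' (w ++ u) q := ⟨_, h1.choose_spec.app_left⟩
    simp only [dif_pos h1, dif_pos h2]
    rw [h2.choose_spec.unique hN hL hR hS hP hnz h1.choose_spec.app_left]
    ring

end uniq

end Crest.Agent.R176.Machine.Phase
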