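import Crest.Agent.R176.Machine.Phase845
import Crest.Agent.R176.Machine.Own977E
import Crest.Agent.R176.Machine.Key593Run
import Crest.Agent.R176.Ph396

/-!
# Row 176: phases of all levels = `Ph396.PhaseAll` for the machine algebra (helper845)
-/

set_option autoImplicit false
set_option linter.unusedSectionVars false

namespace Crest.Agent.R176.Machine.Phase

open Crest.Agent.R176.Gen Crest.Agent.R176.Machine.Key Crest.Agent.R176.Machine.Key309
open Crest.Agent.R176.QAlg206 (WEq IsZ Mv)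

/-- phases of level `k` for all label systems of even cardinality -/
theorem phases (k : ℕ) : ∀ (Λ : Type) [Fintype Λ] [DecidableEq Λ] [LabelSys Λ],
    Even (Fintype.card Λ) → ∃ (ℓ M : ℕ) (ph : List (Let Λ) → ZMod ℓ),
      Odd ℓ ∧ 5 ^ k ≤ ℓ ∧ PhD Λ ℓ M ph := by
  induction k with
  | zero =>
    intro Λ _ _ _ _
    refine ⟨1, 2, fun _ => 0, odd_one, by simp, ⟨le_refl _, fun _ _ _ _ => rfl, ?_⟩⟩
    intro w u _ _
    exact Subsingleton.elim _ _
  | succ k ih =>
    intro Λ _ _ _ hΛ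
    obtain ⟨ℓ', M', ph', h1, h2, h3⟩ := ih (Λ × Λ) (by
      rw [Fintype.card_prod]; exact hΛ.mul_right _)
    obtain ⟨ph, hph⟩ := phase_succ (normP _) (lockP _) (runP _) (startP _) h3
    refine ⟨(Fintype.card Λ + 5) * ℓ', _, ph, ?_, ?_, hph⟩
    · refine Odd.mul ?_ h1
      exact hΛ.add_odd (by decide)
    · calc 5 ^ (k + 1) = 5 * 5 ^ k := by ring
        _ ≤ (Fintype.card Λ + 5) * ℓ' := Nat.mul_le_mul (by omega) h2

section inv
variable {Λ : Type} [Fintype Λ] [DecidableEq Λ] [LabelSys Λ]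

theorem inv_move {ℓ M : ℕ} {ph : List (Let Λ) → ZMod ℓ} (hP : PhD Λ ℓ M ph)
    {p s : List (Let Λ)} {a b a' b' : Let Λ}
    (h1 : S.of (step (Λ := Λ)) (p ++ a :: b :: s) ≠ 0)
    (h2 : S.of (step (Λ := Λ)) (p ++ a' :: b' :: s) ≠ 0)
    (hlen : 2 * M + 2 ≤ (p ++ a :: b :: s).length) :
    ph (p ++ a :: b :: s) = ph (p ++ a' :: b' :: s) := by
  by_cases hp : M ≤ p.length
  · rw [hP.pre p _ h1 hp, hP.pre p _ h2 hp]
  · have hs : M ≤ s.length := by simp at hlen; omega
    have e1 : p ++ a :: b :: s = (p ++ [a, b]) ++ s := by simp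
    have e2 : p ++ a' :: b' :: s = (p ++ [a', b']) ++ s := by simp
    rw [e1] at h1 ⊢
    rw [e2] at h2 ⊢
    have h3 := hP.suf _ _ h1 hs
    have h4 := hP.suf _ _ h2 hs
    have h5 : (p ++ [a, b]).length = (p ++ [a', b']).length := by simp
    rw [← h4, h5] at h3
    exact add_right_cancel h3

open Classical in
theorem inv_weq {ℓ M : ℕ} {ph : List (Let Λ) → ZMod ℓ} (hP : PhD Λ ℓ M ph)
    {u v : List (Let Λ)} (hu : ¬ IsZ (step (Λ := Λ)) u) (hlen : 2 * M + 2 ≤ u.length)
    (h : WEq (step (Λ := Λ)) (some u) (some v)) : ph u = ph v := by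
  let f : Option (List (Let Λ)) → Option (ZMod ℓ) := fun x =>
    x.bind fun u => if ¬ IsZ (step (Λ := Λ)) u ∧ 2 * M + 2 ≤ u.length then some (ph u) else none
  have hf : f (some u) = f (some v) := by
    refine WEq.inv f ?_ h
    intro x y hxy
    cases hxy with
    | @move p s a b a' b' hs =>
      have hW : WEq (step (Λ := Λ)) (some (p ++ a :: b :: s)) (some (p ++ a' :: b' :: s)) :=
        WEq.of_move p s hs
      have hz : IsZ (step (Λ := Λ)) (p ++ a :: b :: s) ↔ IsZ (step (Λ := Λ)) (p ++ a' :: b' :: s) :=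
        ⟨fun h => hW.symm.trans h, fun h => hW.trans h⟩
      have hl : (p ++ a :: b :: s).length = (p ++ a' :: b' :: s).length := by simp
      simp only [f, Option.bind_some]
      by_cases hc : ¬ IsZ (step (Λ := Λ)) (p ++ a :: b :: s) ∧ 2 * M + 2 ≤ (p ++ a :: b :: s).length
      · have hc' : ¬ IsZ (step (Λ := Λ)) (p ++ a' :: b' :: s) ∧
            2 * M + 2 ≤ (p ++ a' :: b' :: s).length := by rwa [← hz, ← hl]
        rw [if_pos hc, if_pos hc']
        rw [inv_move hP (by rw [Ne, S.of_eq_zero_iff]; exact hc.1)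
          (by rw [Ne, S.of_eq_zero_iff]; exact hc'.1) hc.2]
      · have hc' : ¬ (¬ IsZ (step (Λ := Λ)) (p ++ a' :: b' :: s) ∧
            2 * M + 2 ≤ (p ++ a' :: b' :: s).length) := by rwa [← hz, ← hl]
        rw [if_neg hc, if_neg hc']
    | @zero p s a b hs =>
      have hz : IsZ (step (Λ := Λ)) (p ++ a :: b :: s) := WEq.of_zero p s hs
      simp only [f, Option.bind_some, Option.bind_none]
      rw [if_neg (by simp [hz])]
  have hv : ¬ IsZ (step (Λ := Λ)) v := fun hz => hu (h.trans hz)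
  have hl := h.length_eq hu
  simp only [f, Option.bind_some] at hf
  rw [if_pos ⟨hu, hlen⟩, if_pos ⟨hv, by omega⟩] at hf
  exact Option.some.inj hf

/-- the interface to part B -/
def wphase {ℓ M : ℕ} {ph : List (Let Λ) → ZMod ℓ} (hP : PhD Λ ℓ M ph) :
    Ph396.WPhase (step (Λ := Λ)) ℓ (2 * M + 2) where
  ph := ph
  inv u v hu hlen h := inv_weq hP hu hlen h
  left u w hnz hlen := hP.pre u w (by rw [Ne, S.of_eq_zero_iff]; exact hnz) (by omega)
  right w u hnz hlen := hP.suf w u (by rw [Ne, S.of_eq_zero_iff]; exact hnz) (by omega)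

/-- **PHASES OF ALL LEVELS** -/
theorem phaseAll (hΛ : Even (Fintype.card Λ)) : Ph396.PhaseAll (step (Λ := Λ)) := by
  intro N
  obtain ⟨ℓ, M, ph, h1, h2, h3⟩ := phases N Λ hΛ
  refine ⟨ℓ, 2 * M + 2, ?_, h1, ⟨wphase h3⟩⟩
  exact (Nat.lt_pow_self (by norm_num)).le.trans h2

end inv

theorem card_prod_bool (X : Type) [Fintype X] : Even (Fintype.card (X × Bool)) := by
  rw [Fintype.card_prod, Fintype.card_bool]
  exact even_two.mul_left _

theorem card_Lab0 : Even (Fintype.card Lab0) := card_prod_bool (Option KK)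

/-- phases of all levels for the machine algebra of the first label system -/
theorem phaseAll_Lab0 : Ph396.PhaseAll (step (Λ := Lab0)) := phaseAll card_Lab0

end Crest.Agent.R176.Machine.Phase
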