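import Crest.Agent.R176.Gen.Basic
import Crest.Agent.R176.Machine.Run

/-!
# Row 176, part A, block (4): local relations in an arbitrary model (helper291)

`W m w a`, `E m e a`, `U m x a`, `P m x a` : images of the letters in a model `m` of `step`.
* all unpassed bag letters commute, all passed bag letters commute;
* a moving head passes consistent non-target letters;
* fetch / put / home / contact relations.
-/

set_option autoImplicit false

namespace Crest.Agent.R176.Machine.Sim

open Crest.Agent.R176.Machine Crest.Agent.R176.Gen

variable {Λ : Type} [DecidableEq Λ] [LabelSys Λ] {M : Type*} [MonoidWithZero M]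
variable (m : Model (step (Λ := Λ)) M)

/-- wall -/
def W (w : WK) (a : Λ) : M := m.f (.W w, a)
/-- head -/
def E (e : EK) (a : Λ) : M := m.f (.E e, a)
/-- unpassed bag letter -/
def U (x : BK) (a : Λ) : M := m.f (.bag true x, a)
/-- passed bag letter -/
def P (x : BK) (a : Λ) : M := m.f (.bag false x, a)

/-- the relation of two letters in unfolded form -/
theorem rel_eq (κ κ' : KK) (a b : Λ) :
    m.f (κ, a) * m.f (κ', b) =
      if (rule κ κ').rd.eval a b then
        (match (rule κ κ').g1 with
          | none => 0
          | some p => m.f (p.1, a) * m.f (p.2, b))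
      else
        (match (rule κ κ').g0, (rule κ κ').ac.eval a b with
          | some p, some q => m.f (p.1, q.1) * m.f (p.2, q.2)
          | _, _ => 0) := by
  rw [m.rel]
  unfold step
  by_cases h : (rule κ κ').rd.eval a b = true
  · simp only [h, if_true]
    cases (rule κ κ').g1 <;> rfl
  · simp only [h, if_false, Bool.false_eq_true]
    cases (rule κ κ').g0 with
    | none => rfl
    | some p =>
      cases h2 : (rule κ κ').ac.eval a b with
      | none => simp
      | some q => simp

/-! ### bag letters -/

theorem comm_bag (s : Bool) (x y : BK) (a b : Λ) :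
    m.f (.bag s x, a) * m.f (.bag s y, b) = m.f (.bag s y, b) * m.f (.bag s x, a) := by
  rw [rel_eq m (.bag s x) (.bag s y) a b]
  have hr : rule (.bag s x) (.bag s y) = ruleBB s x s y := rfl
  rw [hr]
  unfold ruleBB
  rw [if_pos rfl]
  by_cases hxy : x.ty = y.ty
  · -- same type
    cases x <;> cases y <;> simp only [BK.ty, TT.Y.injEq, reduceCtorEq] at hxy
    · -- X X
      by_cases hab : a = b
      · subst hab; simp [RD.eval]; rw [rel_eq m]; simp [rule, ruleBB, RD.eval]
      · simp [RD.eval, AC.eval, hab]
    · simp only [BK.ty, if_true, Rule.zero]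
      rw [rel_eq m]; simp [rule, ruleBB, BK.ty, Rule.zero, RD.eval]
    · subst hxy
      simp only [BK.ty, if_true, Rule.zero]
      rw [rel_eq m]; simp [rule, ruleBB, BK.ty, Rule.zero, RD.eval]
  · cases x <;> cases y <;> simp only [BK.ty, not_true_eq_false] at hxy <;>
      simp [BK.ty, hxy, RD.eval, AC.eval]

theorem commU (x y : BK) (a b : Λ) : Commute (U m x a) (U m y b) := comm_bag m true x y a b
theorem commP (x y : BK) (a b : Λ) : Commute (P m x a) (P m y b) := comm_bag m false x y a b

/-- product of unpassed letters -/
def um (l : List (BK × Λ)) : M := (l.map fun p => U m p.1 p.2).prod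
/-- product of passed letters -/
def pm (l : List (BK × Λ)) : M := (l.map fun p => P m p.1 p.2).prod

@[simp] theorem um_nil : um m [] = 1 := rfl
@[simp] theorem pm_nil : pm m [] = 1 := rfl
@[simp] theorem um_cons (p : BK × Λ) (l : List (BK × Λ)) :
    um m (p :: l) = U m p.1 p.2 * um m l := by simp [um]
@[simp] theorem pm_cons (p : BK × Λ) (l : List (BK × Λ)) :
    pm m (p :: l) = P m p.1 p.2 * pm m l := by simp [pm]
theorem um_append (l l' : List (BK × Λ)) : um m (l ++ l') = um m l * um m l' := by simp [um]
theorem pm_append (l l' : List (BK × Λ)) : pm m (l ++ l') = pm m l * pm m l' := by simp [pm]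

theorem um_perm {l l' : List (BK × Λ)} (h : l.Perm l') : um m l = um m l' := by
  unfold um
  refine List.Perm.prod_eq' (h.map _) ?_
  rw [List.pairwise_map]
  exact List.pairwise_of_forall fun x y => commU m _ _ _ _

theorem pm_perm {l l' : List (BK × Λ)} (h : l.Perm l') : pm m l = pm m l' := by
  unfold pm
  refine List.Perm.prod_eq' (h.map _) ?_
  rw [List.pairwise_map]
  exact List.pairwise_of_forall fun x y => commP m _ _ _ _

/-! ### the head -/

/-- the head `e` can pass the letter `x` -/
def passes (e : EK) (x : BK) : Prop := e.moving = true ∧ cons e x = true ∧ e.target ≠ some x.ty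

theorem head_pass {e : EK} {x : BK} (h : passes e x) (a b : Λ) :
    E m e a * U m x b = P m x b * E m e a := by
  obtain ⟨h1, h2, h3⟩ := h
  unfold E U P
  rw [rel_eq m]
  have hr : rule (.E e) (.bag true x) = ⟨.F, .SW, some (.bag false x, .E e), none⟩ := by
    show ruleEB e true x = _
    unfold ruleEB
    have h4 : ¬ (x = .X ∧ e.target = some .X) := by
      rintro ⟨rfl, h⟩
      exact h3 h
    simp [h1, h2, h3, h4]
  rw [hr]
  simp [RD.eval, AC.eval]

theorem head_pass_list {e : EK} (a : Λ) (l : List (BK × Λ)) (h : ∀ p ∈ l, passes e p.1) :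
    E m e a * um m l = pm m l * E m e a := by
  induction l with
  | nil => simp
  | cons p l ih =>
    rw [um_cons, pm_cons, ← mul_assoc, head_pass m (h p (by simp)), mul_assoc,
      ih fun q hq => h q (by simp [hq]), mul_assoc]

end Crest.Agent.R176.Machine.Sim
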