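import Crest.Agent.R176.Machine.Conf845

/-!
# Row 176, part A, block (5B): one step on two letters, forward and backward (helper804)

Explicit values of `step` on the pairs of letters of a full block, and the inverse of `step` on
every kind of pair of results.
-/

set_option autoImplicit false

namespace Crest.Agent.R176.Machine.Snd

open Crest.Agent.R176.Machine

variable {Λ : Type} [DecidableEq Λ] [LabelSys Λ]

/-- application of a rule to labels -/
def rstep (r : Rule) (a b : Λ) : Option (Let Λ × Let Λ) :=
  if r.rd.eval a b then r.g1.map fun p => ((p.1, a), (p.2, b))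
  else r.g0.bind fun p => (r.ac.eval a b).map fun q => ((p.1, q.1), (p.2, q.2))

theorem step_def (κ κ' : KK) (a b : Λ) : step (κ, a) (κ', b) = rstep (rule κ κ') a b := rfl

theorem rstep_stay (κ κ' : KK) (a b : Λ) :
    rstep (Rule.stay κ κ') a b = some ((κ, a), (κ', b)) := by
  simp [rstep, Rule.stay, RD.eval, AC.eval]

theorem rstep_zero (a b : Λ) : rstep Rule.zero a b = none := by
  simp [rstep, Rule.zero, RD.eval]

theorem rstep_F (ac : AC) (g0 g1 : Option (KK × KK)) (a b : Λ) :
    rstep ⟨.F, ac, g0, g1⟩ a b =
      g0.bind fun p => (ac.eval a b).map fun q => ((p.1, q.1), (p.2, q.2)) := by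
  simp [rstep, RD.eval]

theorem rstep_SW (p : KK × KK) (a b : Λ) :
    rstep ⟨.F, .SW, some p, none⟩ a b = some ((p.1, b), (p.2, a)) := by
  simp [rstep_F, AC.eval]

theorem rstep_EQ (ac : AC) (g0 g1 : Option (KK × KK)) (a b : Λ) :
    rstep ⟨.EQ, ac, g0, g1⟩ a b =
      if a = b then g1.map (fun p => ((p.1, a), (p.2, b))) else
      g0.bind fun p => (ac.eval a b).map fun q => ((p.1, q.1), (p.2, q.2)) := by
  simp [rstep, RD.eval]

theorem rstep_N1 (ac : AC) (g0 : Option (KK × KK)) (a b : Λ) :
    rstep ⟨.N1, ac, g0, none⟩ a b =
      if a = z then g0.bind fun p => (ac.eval a b).map fun q => ((p.1, q.1), (p.2, q.2))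
      else none := by
  by_cases h : a = z <;> simp [rstep, RD.eval, h]

theorem rstep_N2 (ac : AC) (g0 : Option (KK × KK)) (a b : Λ) :
    rstep ⟨.N2, ac, g0, none⟩ a b =
      if b = z then g0.bind fun p => (ac.eval a b).map fun q => ((p.1, q.1), (p.2, q.2))
      else none := by
  by_cases h : b = z <;> simp [rstep, RD.eval, h]

theorem rstep_NN (ac : AC) (g0 : Option (KK × KK)) (a b : Λ) :
    rstep ⟨.NN, ac, g0, none⟩ a b =
      if a = z ∧ b = z then g0.bind fun p => (ac.eval a b).map fun q => ((p.1, q.1), (p.2, q.2))
      else none := by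
  by_cases h : a = z <;> by_cases h' : b = z <;> simp [rstep, RD.eval, h, h']

/-! ### bag, bag -/

theorem step_bag_bag (s t : Bool) (x y : BK) (a b : Λ) :
    step (.bag s x, a) (.bag t y, b) =
      if s = t ∧ ((x.ty = y.ty) → (x = .X ∧ y = .X ∧ a ≠ b)) then
        some ((.bag s y, b), (.bag s x, a)) else none := by
  rw [step_def]
  have hr : rule (.bag s x) (.bag t y) = ruleBB s x t y := rfl
  rw [hr]
  unfold ruleBB
  by_cases hst : s = t
  · subst hst
    rcases x with _ | m | ⟨j, o⟩ <;> rcases y with _ | m' | ⟨j', o'⟩ <;>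
      simp only [BK.ty, if_true, if_false, reduceCtorEq, rstep_zero, rstep_SW, rstep_EQ]
    all_goals try simp
    · by_cases hab : a = b <;> simp [hab, AC.eval]
    · by_cases hj : j = j' <;> simp [hj, rstep_zero, rstep_SW]
  · simp [hst, rstep_zero]

/-! ### wall, bag -/

/-- walls which may be followed by a passed letter -/
def wopen : WK → Bool
  | .w0 => false
  | .C _ _ => false
  | .D _ _ => false
  | _ => true

theorem step_W_bag (w : WK) (s : Bool) (x : BK) (a b : Λ) :
    step (.W w, a) (.bag s x, b) =
      if s = false ∧ wopen w = true then some ((.W w, a), (.bag s x, b)) else none := by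
  rw [step_def]
  have hr : rule (.W w) (.bag s x) = ruleWB w s x := rfl
  rw [hr]
  cases s
  · cases w <;> simp [ruleWB, wopen, rstep_stay, rstep_zero]
  · simp [ruleWB, rstep_zero]

/-! ### bag, head -/

theorem step_bag_E (s : Bool) (x : BK) (e : EK) (a b : Λ) :
    step (.bag s x, a) (.E e, b) =
      if s = false ∧ e.moving = true ∧ cons e x = true ∧
          (e.target = some x.ty → x = .X ∧ a ≠ b) then
        some ((.bag s x, a), (.E e, b)) else none := by
  rw [step_def]
  have hr : rule (.bag s x) (.E e) = ruleBE s x e := rfl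
  rw [hr]
  unfold ruleBE
  cases s
  · rw [if_neg (by simp)]
    by_cases h1 : (e.moving && cons e x) = true
    · rw [if_pos h1]
      rw [Bool.and_eq_true] at h1
      by_cases h2 : x = .X ∧ e.target = some .X
      · rw [if_pos h2]
        obtain ⟨rfl, h2⟩ := h2
        by_cases hab : a = b <;> simp [rstep_EQ, AC.eval, h1.1, h1.2, h2, BK.ty, hab]
      · rw [if_neg h2]
        by_cases h3 : e.target = some x.ty
        · rw [if_pos h3]
          have : x ≠ .X := by rintro rfl; exact h2 ⟨rfl, h3⟩
          simp [rstep_zero, this, h3]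
        · rw [if_neg h3]
          simp [rstep_stay, h1.1, h1.2, h3]
    · rw [if_neg h1]
      rw [Bool.and_eq_true] at h1
      have : ¬ (false = false ∧ e.moving = true ∧ cons e x = true ∧
        (e.target = some x.ty → x = .X ∧ a ≠ b)) := fun h => h1 ⟨h.2.1, h.2.2.1⟩
      rw [if_neg this, rstep_zero]
  · simp [rstep_zero]

/-! ### head, bag -/

/-- the step of a head and its (consistent, unpassed) target letter -/
def tgtStep (e : EK) (x : BK) (a b : Λ) : Option (Let Λ × Let Λ) :=
  match e with
  | .G φ => if φ = 0 ∧ x = .H .l then some ((.E (.G φ), a), (.bag true x, b))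
      else if a = z then some ((.E (.K φ), b), (.bag true x.out, a)) else none
  | .K φ => if b = z then some ((.E (.K φ), a), (.bag true x, b)) else none
  | .P φ => if b = z then some ((.E (.R φ), b), (.bag true (x.inn φ), a)) else none
  | .R φ => if a = z then some ((.E (.R φ), a), (.bag true x, b)) else none
  | e => some ((.E e, a), (.bag true x, b))

theorem rstep_tgt (e : EK) (x : BK) (a b : Λ) :
    rstep (ruleTgt e x) a b = tgtStep e x a b := by
  cases e with
  | G φ =>
    simp only [ruleTgt, tgtStep]
    by_cases h5 : φ = 0 ∧ x = .H .l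
    · rw [if_pos h5, if_pos h5, rstep_stay]
    · rw [if_neg h5, if_neg h5, rstep_N1]
      by_cases ha : a = z <;> simp [AC.eval, ha]
  | K φ => simp only [ruleTgt, tgtStep, rstep_N2]; simp [AC.eval]
  | P φ => simp only [ruleTgt, tgtStep, rstep_N2]; simp [AC.eval]
  | R φ => simp only [ruleTgt, tgtStep, rstep_N1]; simp [AC.eval]
  | home => simp only [ruleTgt, tgtStep, rstep_stay]
  | N φ => simp only [ruleTgt, tgtStep, rstep_stay]
  | T t u => simp only [ruleTgt, tgtStep, rstep_stay]

theorem step_E_bag (e : EK) (s : Bool) (x : BK) (a b : Λ) :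
    step (.E e, a) (.bag s x, b) =
      if s = true ∧ cons e x = true then
        (if e.moving = true then
          (if x = .X ∧ e.target = some .X then
            (if a = b then some ((.E e, a), (.bag true .X, b))
              else some ((.bag false .X, b), (.E e, a)))
          else if e.target = some x.ty then tgtStep e x a b
          else some ((.bag false x, b), (.E e, a)))
        else some ((.E e, a), (.bag true x, b)))
      else none := by
  rw [step_def]
  have hr : rule (.E e) (.bag s x) = ruleEB e s x := rfl
  rw [hr]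
  unfold ruleEB
  by_cases h1 : (s && cons e x) = true
  · rw [if_pos h1]
    rw [Bool.and_eq_true] at h1
    rw [if_pos (c := s = true ∧ cons e x = true) h1]
    by_cases h2 : e.moving = true
    · rw [if_pos h2, if_pos h2]
      by_cases h3 : x = .X ∧ e.target = some .X
      · rw [if_pos h3, if_pos h3]
        by_cases hab : a = b <;> simp [rstep_EQ, AC.eval, hab]
      · rw [if_neg h3, if_neg h3]
        by_cases h4 : e.target = some x.ty
        · rw [if_pos h4, if_pos h4, rstep_tgt]
        · rw [if_neg h4, if_neg h4, rstep_SW]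
    · rw [if_neg h2, if_neg h2, rstep_stay]
  · rw [if_neg h1]
    rw [Bool.and_eq_true] at h1
    rw [if_neg h1, rstep_zero]

/-! ### wall, head -/

/-- the step of a wall and a head -/
def weStep (w : WK) (a : Λ) (e : EK) (b : Λ) : Option (Let Λ × Let Λ) :=
  match w, e with
  | .w0, .home => if a = z ∧ b = z then some ((.W .w0, a), (.E .home, b)) else none
  | .A φ d, .G ψ => if φ = ψ then (if a = z ∧ b = z then
      (if φ = 0 then some ((.W .w0, a), (.E .home, b)) else some ((.W (.A φ d), a), (.E (.G φ), b)))
      else none) else none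
  | .A φ d, .K ψ => if φ = ψ then (if a = z then some ((.W (.A φ d), a), (.E (.K φ), b)) else none)
      else none
  | .C φ d, .N ψ => if φ = ψ then (if b = z then some ((.W (.A φ d), b), (.E (.K φ), a)) else none)
      else none
  | .D φ d, .N ψ => if φ = ψ then (if b = z then some ((.W (.B φ d), b), (.E (.P φ), a)) else none)
      else none
  | .B φ d, .P ψ => if φ = ψ then (if a = z then some ((.W (.B φ d), a), (.E (.P φ), b)) else none)
      else none
  | .B φ d, .R ψ => if φ = ψ then (if a = z ∧ b = z then
      (if φ = 10 then some ((.W .w0, a), (.E .home, b))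
      else some ((.W (.A (φ + 1) d), a), (.E (.G (φ + 1)), b))) else none) else none
  | .S t c, .T t' busy => if t = t' ∧ ctxOK c busy = true then
      (if a = z ∧ (t ≠ .X → b = z) then some ((.W (homeW c), z), (.E (homeE c), z)) else none)
      else none
  | _, _ => none

theorem step_W_E (w : WK) (e : EK) (a b : Λ) :
    step (.W w, a) (.E e, b) = weStep w a e b := by
  rw [step_def]
  have hr : rule (.W w) (.E e) = ruleWE w e := rfl
  rw [hr]
  cases w <;> cases e <;> simp only [ruleWE, weStep, rstep_zero]
  · rw [rstep_NN]; simp [AC.eval]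
  · rename_i φ d ψ
    by_cases h : φ = ψ
    · rw [if_pos h, if_pos h]
      by_cases h0 : φ = 0
      · rw [if_pos h0, if_pos h0, rstep_NN]; simp [AC.eval]
      · rw [if_neg h0, if_neg h0, rstep_NN]; simp [AC.eval]
    · rw [if_neg h, if_neg h, rstep_zero]
  · rename_i φ d ψ
    by_cases h : φ = ψ
    · rw [if_pos h, if_pos h, rstep_N1]; simp [AC.eval]
    · rw [if_neg h, if_neg h, rstep_zero]
  · rename_i φ d ψ
    by_cases h : φ = ψ
    · rw [if_pos h, if_pos h, rstep_N2]; simp [AC.eval]
    · rw [if_neg h, if_neg h, rstep_zero]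
  · rename_i φ d ψ
    by_cases h : φ = ψ
    · rw [if_pos h, if_pos h, rstep_N2]; simp [AC.eval]
    · rw [if_neg h, if_neg h, rstep_zero]
  · rename_i φ d ψ
    by_cases h : φ = ψ
    · rw [if_pos h, if_pos h, rstep_N1]; simp [AC.eval]
    · rw [if_neg h, if_neg h, rstep_zero]
  · rename_i φ d ψ
    by_cases h : φ = ψ
    · rw [if_pos h, if_pos h]
      by_cases h0 : φ = 10
      · rw [if_pos h0, if_pos h0, rstep_NN]; simp [AC.eval]
      · rw [if_neg h0, if_neg h0, rstep_NN]; simp [AC.eval]
    · rw [if_neg h, if_neg h, rstep_zero]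
  · rename_i t c t' u
    by_cases h : t = t' ∧ ctxOK c u = true
    · rw [if_pos h, if_pos h]
      by_cases ht : t = .X
      · rw [if_pos ht, rstep_N1]
        by_cases ha : a = z <;> simp [ha, AC.eval, ht]
      · rw [if_neg ht, rstep_NN]
        by_cases ha : a = z <;> by_cases hb : b = z <;> simp [ha, hb, AC.eval, ht]
    · rw [if_neg h, if_neg h, rstep_zero]

/-! ### bag, wall: the contacts -/

/-- the contact operation of phase `φ` on labels -/
def opstep (φ : Ph) (d : Data) (a b : Λ) : Option (Data × Λ × Λ) :=
  if (op φ d).rd.eval a b then (op φ d).g1.map fun d' => (d', a, b)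
  else (op φ d).g0.bind fun d' => ((op φ d).ac.eval a b).map fun q => (d', q.1, q.2)

omit [DecidableEq Λ] [LabelSys Λ] in
theorem set_get (c : Cont Λ) (t : TT) : c.set t (c.get t) = c := by
  rcases t with _ | _ | ⟨_ | _⟩ <;> rfl

theorem cstep_eq (φ : Ph) (d : Data) (a b : Cont Λ) :
    cstep φ d a b = (opstep φ d (a.get (tz φ)) (b.get (tz φ))).map fun r =>
      (r.1, a.set (tz φ) r.2.1, b.set (tz φ) r.2.2) := by
  unfold cstep opstep
  by_cases h : (op φ d).rd.eval (a.get (tz φ)) (b.get (tz φ)) = true
  · rw [if_pos h, if_pos h]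
    cases (op φ d).g1 <;> simp [set_get]
  · rw [if_neg h, if_neg h]
    cases (op φ d).g0 with
    | none => simp
    | some d' => cases (op φ d).ac.eval (a.get (tz φ)) (b.get (tz φ)) <;> simp

theorem rstep_contact (x x' : BK) (φ : Ph) (d : Data) (a b : Λ) :
    rstep (contact x x' φ d) a b = (opstep φ d a b).map fun r =>
      ((.bag true x', r.2.1), (.W (.D φ r.1), r.2.2)) := by
  unfold rstep contact opstep
  by_cases h : (op φ d).rd.eval a b = true
  · simp only [h, if_true]
    cases (op φ d).g1 <;> simp
  · simp only [h, if_false, Bool.false_eq_true]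
    cases (op φ d).g0 with
    | none => simp
    | some d' => cases (op φ d).ac.eval a b <;> simp

/-- the phase and data of the contact of `x` with `w`, if there is one -/
def ctc (x : BK) (w : WK) : Option (Ph × Data) :=
  match w with
  | .C φ d =>
    match x with
    | .X => none
    | .H m => if tz φ = .H ∧ (m = .l ∨ (φ = 0 ∧ m = .f)) then some (φ, d) else none
    | .Y j out => if tz φ = .Y j ∧ out = false then some (φ, d) else none
  | _ => none

/-- the pair of kinds `bag true x`, `W w` is not zero -/
def bwOK (x : BK) (w : WK) : Prop := ∀ m, x = .H m → (m = .l ↔ locked w = true)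

/-- the letter after the contact -/
def aft (φ : Ph) : BK → BK
  | .H _ => .H (if φ = 10 then .f else .l)
  | x => x

instance (x : BK) (w : WK) : Decidable (bwOK x w) := by
  unfold bwOK; infer_instance

theorem step_bag_W (s : Bool) (x : BK) (w : WK) (a b : Λ) :
    step (.bag s x, a) (.W w, b) =
      if s = true ∧ bwOK x w then
        (match ctc x w with
        | some (φ, d) => (opstep φ d a b).map fun r =>
            ((.bag true (aft φ x), r.2.1), (.W (.D φ r.1), r.2.2))
        | none => some ((.bag true x, a), (.W w, b)))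
      else none := by
  rw [step_def]
  have hr : rule (.bag s x) (.W w) = ruleBW s x w := rfl
  rw [hr]
  unfold ruleBW
  cases s
  · simp [rstep_zero]
  · rw [if_pos rfl]
    rcases x with _ | m | ⟨j, o⟩
    · have : bwOK .X w := fun m h => by cases h
      have h2 : ctc .X w = none := by cases w <;> rfl
      rw [h2]
      simp [rstep_stay, this]
    · simp only []
      by_cases h : m = .l ↔ locked w = true
      · have : bwOK (.H m) w := fun m' h' => by cases h'; exact h
        have hc : (True ∧ bwOK (.H m) w) := ⟨trivial, this⟩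
        rw [if_pos h, if_pos hc]
        cases w with
        | C φ d =>
          simp only [ctc]
          by_cases h2 : tz φ = .H ∧ (m = .l ∨ (φ = 0 ∧ m = .f))
          · rw [if_pos h2, if_pos h2, rstep_contact]; rfl
          · rw [if_neg h2, if_neg h2, rstep_stay]
        | w0 => simp [ctc, rstep_stay]
        | A φ d => simp [ctc, rstep_stay]
        | D φ d => simp [ctc, rstep_stay]
        | B φ d => simp [ctc, rstep_stay]
        | S t c => simp [ctc, rstep_stay]
      · have : ¬ bwOK (.H m) w := fun h' => h (h' m rfl)
        have hc : ¬ (True ∧ bwOK (.H m) w) := fun h' => this h'.2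
        rw [if_neg h, if_neg hc, rstep_zero]
    · have : bwOK (.Y j o) w := fun m h => by cases h
      have hc : (true = true ∧ bwOK (.Y j o) w) := ⟨rfl, this⟩
      rw [if_pos hc]
      cases w with
      | C φ d =>
        simp only [ctc]
        by_cases h2 : tz φ = .Y j ∧ o = false
        · rw [if_pos h2, if_pos h2, rstep_contact]; rfl
        · rw [if_neg h2, if_neg h2, rstep_stay]
      | w0 => simp [ctc, rstep_stay]
      | A φ d => simp [ctc, rstep_stay]
      | D φ d => simp [ctc, rstep_stay]
      | B φ d => simp [ctc, rstep_stay]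
      | S t c => simp [ctc, rstep_stay]

theorem step_E_E (e e' : EK) (a b : Λ) : step (.E e, a) (.E e', b) = none := by
  rw [step_def]; exact rstep_zero a b

theorem step_E_W (e : EK) (w : WK) (a b : Λ) : step (.E e, a) (.W w, b) = none := by
  rw [step_def]; exact rstep_zero a b

theorem step_W_W (w w' : WK) (a b : Λ) : step (.W w, a) (.W w', b) = none := by
  rw [step_def]; exact rstep_zero a b

end Crest.Agent.R176.Machine.Snd
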