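import Crest.Agent.R176.Machine.Snd804A

/-!
# Row 176, part A, block (5B): inverse of one step (helper804)
-/

set_option autoImplicit false

namespace Crest.Agent.R176.Machine.Snd

open Crest.Agent.R176.Machine

variable {Λ : Type} [DecidableEq Λ] [LabelSys Λ]

theorem weStep_shape {w : WK} {e : EK} {a b : Λ} {p : Let Λ × Let Λ}
    (h : weStep w a e b = some p) : ∃ w' e', p.1.1 = .W w' ∧ p.2.1 = .E e' := by
  unfold weStep at h
  split at h <;> (try (split_ifs at h)) <;> simp only [Option.some.injEq, reduceCtorEq] at h <;>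
    subst h <;> exact ⟨_, _, rfl, rfl⟩

theorem tgtStep_shape {e : EK} {x : BK} {a b : Λ} {p : Let Λ × Let Λ}
    (h : tgtStep e x a b = some p) : ∃ e' x', p.1.1 = .E e' ∧ p.2.1 = .bag true x' := by
  unfold tgtStep at h
  split at h <;> (try (split_ifs at h)) <;> simp only [Option.some.injEq, reduceCtorEq] at h <;>
    subst h <;> exact ⟨_, _, rfl, rfl⟩

/-- the possible shapes of a result -/
theorem step_shape {u v u' v' : Let Λ} (h : step u v = some (u', v')) :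
    (∃ s x y, u.1 = .bag s x ∧ v.1 = .bag s y ∧ u'.1 = .bag s y ∧ v'.1 = .bag s x) ∨
    (∃ w x, u.1 = .W w ∧ v.1 = .bag false x ∧ u'.1 = .W w ∧ v'.1 = .bag false x) ∨
    (∃ x e, u.1 = .bag false x ∧ v.1 = .E e ∧ u'.1 = .bag false x ∧ v'.1 = .E e) ∨
    (∃ x e, u.1 = .E e ∧ v.1 = .bag true x ∧ u'.1 = .bag false x ∧ v'.1 = .E e) ∨
    (∃ x e x' e', u.1 = .E e ∧ v.1 = .bag true x ∧ u'.1 = .E e' ∧ v'.1 = .bag true x') ∨
    (∃ w e w' e', u.1 = .W w ∧ v.1 = .E e ∧ u'.1 = .W w' ∧ v'.1 = .E e') ∨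
    (∃ x w x' w', u.1 = .bag true x ∧ v.1 = .W w ∧ u'.1 = .bag true x' ∧ v'.1 = .W w') := by
  obtain ⟨κ, a⟩ := u
  obtain ⟨κ', b⟩ := v
  cases κ with
  | bag s x =>
    cases κ' with
    | bag t y =>
      rw [step_bag_bag] at h
      split_ifs at h with h1
      obtain ⟨rfl, h1⟩ := h1
      simp only [Option.some.injEq, Prod.mk.injEq] at h
      obtain ⟨rfl, rfl⟩ := h
      exact Or.inl ⟨s, x, y, rfl, rfl, rfl, rfl⟩
    | E e =>
      rw [step_bag_E] at h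
      split_ifs at h with h1
      obtain ⟨rfl, h1⟩ := h1
      simp only [Option.some.injEq, Prod.mk.injEq] at h
      obtain ⟨rfl, rfl⟩ := h
      exact Or.inr (Or.inr (Or.inl ⟨x, e, rfl, rfl, rfl, rfl⟩))
    | W w =>
      rw [step_bag_W] at h
      split_ifs at h with h1
      obtain ⟨rfl, h1⟩ := h1
      refine Or.inr (Or.inr (Or.inr (Or.inr (Or.inr (Or.inr ?_)))))
      cases hc : ctc x w with
      | none =>
        rw [hc] at h
        simp only [Option.some.injEq, Prod.mk.injEq] at h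
        obtain ⟨rfl, rfl⟩ := h
        exact ⟨x, w, x, w, rfl, rfl, rfl, rfl⟩
      | some p =>
        rw [hc] at h
        simp only at h
        cases ho : opstep p.1 p.2 a b with
        | none => rw [ho] at h; simp at h
        | some r =>
          rw [ho] at h
          simp only [Option.map_some, Option.some.injEq, Prod.mk.injEq] at h
          obtain ⟨rfl, rfl⟩ := h
          exact ⟨x, w, _, _, rfl, rfl, rfl, rfl⟩
  | E e =>
    cases κ' with
    | bag s x =>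
      rw [step_E_bag] at h
      split_ifs at h with h1 h2 h3 h4 h5
      · obtain ⟨rfl, h1⟩ := h1
        obtain ⟨rfl, h3⟩ := h3
        simp only [Option.some.injEq, Prod.mk.injEq] at h
        obtain ⟨rfl, rfl⟩ := h
        exact Or.inr (Or.inr (Or.inr (Or.inr (Or.inl ⟨_, _, _, _, rfl, rfl, rfl, rfl⟩))))
      · obtain ⟨rfl, h1⟩ := h1
        obtain ⟨rfl, h3⟩ := h3
        simp only [Option.some.injEq, Prod.mk.injEq] at h
        obtain ⟨rfl, rfl⟩ := h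
        exact Or.inr (Or.inr (Or.inr (Or.inl ⟨_, _, rfl, rfl, rfl, rfl⟩)))
      · obtain ⟨rfl, h1⟩ := h1
        obtain ⟨e', x', he, hx⟩ := tgtStep_shape h
        exact Or.inr (Or.inr (Or.inr (Or.inr (Or.inl ⟨_, _, _, _, rfl, rfl, he, hx⟩))))
      · obtain ⟨rfl, h1⟩ := h1
        simp only [Option.some.injEq, Prod.mk.injEq] at h
        obtain ⟨rfl, rfl⟩ := h
        exact Or.inr (Or.inr (Or.inr (Or.inl ⟨_, _, rfl, rfl, rfl, rfl⟩)))
      · obtain ⟨rfl, h1⟩ := h1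
        simp only [Option.some.injEq, Prod.mk.injEq] at h
        obtain ⟨rfl, rfl⟩ := h
        exact Or.inr (Or.inr (Or.inr (Or.inr (Or.inl ⟨_, _, _, _, rfl, rfl, rfl, rfl⟩))))
    | E e' => rw [step_E_E] at h; exact absurd h (by simp)
    | W w => rw [step_E_W] at h; exact absurd h (by simp)
  | W w =>
    cases κ' with
    | bag s x =>
      rw [step_W_bag] at h
      split_ifs at h with h1
      obtain ⟨rfl, h1⟩ := h1
      simp only [Option.some.injEq, Prod.mk.injEq] at h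
      obtain ⟨rfl, rfl⟩ := h
      exact Or.inr (Or.inl ⟨w, x, rfl, rfl, rfl, rfl⟩)
    | E e =>
      rw [step_W_E] at h
      obtain ⟨w', e', h1, h2⟩ := weStep_shape h
      exact Or.inr (Or.inr (Or.inr (Or.inr (Or.inr (Or.inl ⟨_, _, _, _, rfl, rfl, h1, h2⟩)))))
    | W w' => rw [step_W_W] at h; exact absurd h (by simp)

theorem inv_BB {u v : Let Λ} {s t : Bool} {x y : BK} {a b : Λ}
    (h : step u v = some ((.bag s x, a), (.bag t y, b))) :
    s = t ∧ u = (.bag s y, b) ∧ v = (.bag s x, a) := by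
  obtain ⟨κ, c⟩ := u
  obtain ⟨κ', d⟩ := v
  rcases step_shape h with ⟨s', x', y', h1, h2, h3, h4⟩ | ⟨_, _, h1, h2, h3, h4⟩ |
    ⟨_, _, h1, h2, h3, h4⟩ | ⟨_, _, h1, h2, h3, h4⟩ | ⟨_, _, _, _, h1, h2, h3, h4⟩ |
    ⟨_, _, _, _, h1, h2, h3, h4⟩ | ⟨_, _, _, _, h1, h2, h3, h4⟩ <;>
    simp only [KK.bag.injEq, reduceCtorEq] at h1 h2 h3 h4
  obtain ⟨rfl, rfl⟩ := h3
  obtain ⟨rfl, rfl⟩ := h4
  subst h1 h2
  rw [step_bag_bag] at h
  split_ifs at h with h1
  simp only [Option.some.injEq, Prod.mk.injEq, true_and] at h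
  obtain ⟨rfl, rfl⟩ := h
  exact ⟨rfl, rfl, rfl⟩

theorem inv_WB {u v : Let Λ} {w : WK} {s : Bool} {x : BK} {a b : Λ}
    (h : step u v = some ((.W w, a), (.bag s x, b))) :
    u = (.W w, a) ∧ v = (.bag s x, b) := by
  obtain ⟨κ, c⟩ := u
  obtain ⟨κ', d⟩ := v
  rcases step_shape h with ⟨s', x', y', h1, h2, h3, h4⟩ | ⟨_, _, h1, h2, h3, h4⟩ |
    ⟨_, _, h1, h2, h3, h4⟩ | ⟨_, _, h1, h2, h3, h4⟩ | ⟨_, _, _, _, h1, h2, h3, h4⟩ |
    ⟨_, _, _, _, h1, h2, h3, h4⟩ | ⟨_, _, _, _, h1, h2, h3, h4⟩ <;>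
    simp only [KK.bag.injEq, KK.W.injEq, reduceCtorEq] at h1 h2 h3 h4
  subst h3
  obtain ⟨rfl, rfl⟩ := h4
  subst h1 h2
  rw [step_W_bag] at h
  split_ifs at h with h1
  simp only [Option.some.injEq, Prod.mk.injEq, true_and] at h
  obtain ⟨rfl, rfl⟩ := h
  exact ⟨rfl, rfl⟩

theorem inv_BE {u v : Let Λ} {s : Bool} {x : BK} {e : EK} {a b : Λ}
    (h : step u v = some ((.bag s x, a), (.E e, b))) :
    s = false ∧ ((u = (.bag false x, a) ∧ v = (.E e, b)) ∨
      (u = (.E e, b) ∧ v = (.bag true x, a) ∧ cons e x = true)) := by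
  obtain ⟨κ, c⟩ := u
  obtain ⟨κ', d⟩ := v
  rcases step_shape h with ⟨s', x', y', h1, h2, h3, h4⟩ | ⟨_, _, h1, h2, h3, h4⟩ |
    ⟨_, _, h1, h2, h3, h4⟩ | ⟨_, _, h1, h2, h3, h4⟩ | ⟨_, _, _, _, h1, h2, h3, h4⟩ |
    ⟨_, _, _, _, h1, h2, h3, h4⟩ | ⟨_, _, _, _, h1, h2, h3, h4⟩ <;>
    simp only [KK.bag.injEq, KK.W.injEq, KK.E.injEq, reduceCtorEq] at h1 h2 h3 h4
  · obtain ⟨rfl, rfl⟩ := h3
    subst h4
    subst h1 h2
    rw [step_bag_E] at h
    split_ifs at h with h1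
    simp only [Option.some.injEq, Prod.mk.injEq, true_and] at h
    obtain ⟨rfl, rfl⟩ := h
    exact ⟨rfl, Or.inl ⟨rfl, rfl⟩⟩
  · obtain ⟨rfl, rfl⟩ := h3
    subst h4
    subst h1 h2
    rw [step_E_bag] at h
    split_ifs at h with h1 h2 h3 h4 h5
    · simp at h
    · simp only [Option.some.injEq, Prod.mk.injEq, true_and] at h
      obtain ⟨⟨_, rfl⟩, rfl⟩ := h
      exact ⟨rfl, Or.inr ⟨rfl, rfl, h1.2⟩⟩
    · obtain ⟨e', x', he, hx⟩ := tgtStep_shape h
      simp at he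
    · simp only [Option.some.injEq, Prod.mk.injEq, true_and] at h
      obtain ⟨rfl, rfl⟩ := h
      exact ⟨rfl, Or.inr ⟨rfl, rfl, h1.2⟩⟩
    · simp at h

theorem inv_EB {u v : Let Λ} {s : Bool} {x : BK} {e : EK} {a b : Λ}
    (h : step u v = some ((.E e, b), (.bag s x, a))) :
    s = true ∧ ((u = (.E e, b) ∧ v = (.bag true x, a)) ∨
      (∃ φ y, e = .K φ ∧ u = (.E (.G φ), z) ∧ v = (.bag true y, b) ∧ x = y.out ∧ a = z ∧
        y.ty = tz φ ∧ cons (.G φ) y = true ∧ ¬ (φ = 0 ∧ y = .H .l)) ∨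
      (∃ φ y, e = .R φ ∧ b = z ∧ u = (.E (.P φ), a) ∧ v = (.bag true y, z) ∧ x = y.inn φ ∧
        y.ty = tz φ ∧ cons (.P φ) y = true)) := by
  obtain ⟨κ, c⟩ := u
  obtain ⟨κ', d⟩ := v
  rcases step_shape h with ⟨s', x', y', h1, h2, h3, h4⟩ | ⟨_, _, h1, h2, h3, h4⟩ |
    ⟨_, _, h1, h2, h3, h4⟩ | ⟨_, _, h1, h2, h3, h4⟩ | ⟨x', e', _, _, h1, h2, h3, h4⟩ |
    ⟨_, _, _, _, h1, h2, h3, h4⟩ | ⟨_, _, _, _, h1, h2, h3, h4⟩ <;>
    simp only [KK.bag.injEq, KK.W.injEq, KK.E.injEq, reduceCtorEq] at h1 h2 h3 h4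
  obtain ⟨rfl, rfl⟩ := h4
  subst h3
  subst h1 h2
  refine ⟨rfl, ?_⟩
  rw [step_E_bag] at h
  split_ifs at h with h1 h2 h3 h4 h5
  · simp only [Option.some.injEq, Prod.mk.injEq, KK.E.injEq, KK.bag.injEq, true_and] at h
    obtain ⟨⟨rfl, rfl⟩, rfl, rfl⟩ := h
    obtain ⟨rfl, h3⟩ := h3
    exact Or.inl ⟨rfl, rfl⟩
  · simp at h
  · cases e' with
    | G φ =>
      simp only [tgtStep] at h
      split_ifs at h with h6 h7
      · simp only [Option.some.injEq, Prod.mk.injEq, KK.E.injEq, KK.bag.injEq, true_and] at h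
        obtain ⟨⟨rfl, rfl⟩, rfl, rfl⟩ := h
        exact Or.inl ⟨rfl, rfl⟩
      · simp only [Option.some.injEq, Prod.mk.injEq, KK.E.injEq, KK.bag.injEq, true_and] at h
        obtain ⟨⟨rfl, rfl⟩, rfl, rfl⟩ := h
        refine Or.inr (Or.inl ⟨φ, x', rfl, ?_, rfl, rfl, h7, ?_, h1.2, h6⟩)
        · rw [h7]
        · simpa [EK.target] using h5.symm
    | K φ =>
      simp only [tgtStep] at h
      split_ifs at h with h6
      simp only [Option.some.injEq, Prod.mk.injEq, KK.E.injEq, KK.bag.injEq, true_and] at h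
      obtain ⟨⟨rfl, rfl⟩, rfl, rfl⟩ := h
      exact Or.inl ⟨rfl, rfl⟩
    | P φ =>
      simp only [tgtStep] at h
      split_ifs at h with h6
      simp only [Option.some.injEq, Prod.mk.injEq, KK.E.injEq, KK.bag.injEq, true_and] at h
      obtain ⟨⟨rfl, rfl⟩, rfl, rfl⟩ := h
      refine Or.inr (Or.inr ⟨φ, x', rfl, h6, rfl, ?_, rfl, ?_, h1.2⟩)
      · rw [h6]
      · simpa [EK.target] using h5.symm
    | R φ =>
      simp only [tgtStep] at h
      split_ifs at h with h6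
      simp only [Option.some.injEq, Prod.mk.injEq, KK.E.injEq, KK.bag.injEq, true_and] at h
      obtain ⟨⟨rfl, rfl⟩, rfl, rfl⟩ := h
      exact Or.inl ⟨rfl, rfl⟩
    | home => exact absurd h2 (by simp [EK.moving, EK.target])
    | N φ => exact absurd h2 (by simp [EK.moving, EK.target])
    | T t u =>
      simp only [tgtStep] at h
      simp only [Option.some.injEq, Prod.mk.injEq, KK.E.injEq, KK.bag.injEq, true_and] at h
      obtain ⟨⟨rfl, rfl⟩, rfl, rfl⟩ := h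
      exact Or.inl ⟨rfl, rfl⟩
  · simp at h
  · simp only [Option.some.injEq, Prod.mk.injEq, KK.E.injEq, KK.bag.injEq, true_and] at h
    obtain ⟨⟨rfl, rfl⟩, rfl, rfl⟩ := h
    exact Or.inl ⟨rfl, rfl⟩

end Crest.Agent.R176.Machine.Snd
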