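import Crest.Agent.R176.Machine.Snd804B

/-!
# Row 176, part A, block (5B): bags and the last letter of a block (helper804)
-/

set_option autoImplicit false

namespace Crest.Agent.R176.Machine.Snd

open Crest.Agent.R176.Machine

variable {Λ : Type} [DecidableEq Λ] [LabelSys Λ]

theorem ctc_some {x : BK} {w : WK} {p : Ph × Data} (h : ctc x w = some p) :
    w = .C p.1 p.2 ∧ ((∃ m, x = .H m ∧ tz p.1 = .H ∧ (m = .l ∨ (p.1 = 0 ∧ m = .f))) ∨
      ∃ j, x = .Y j false ∧ tz p.1 = .Y j) := by
  cases w with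
  | C φ d =>
    rcases x with _ | m | ⟨j, o⟩
    · simp [ctc] at h
    · simp only [ctc] at h
      split_ifs at h with h1
      simp only [Option.some.injEq] at h
      subst h
      exact ⟨rfl, Or.inl ⟨m, rfl, h1⟩⟩
    · simp only [ctc] at h
      split_ifs at h with h1
      simp only [Option.some.injEq] at h
      subst h
      obtain ⟨h1, rfl⟩ := h1
      exact ⟨rfl, Or.inr ⟨j, rfl, h1⟩⟩
  | w0 => simp [ctc] at h
  | A φ d => simp [ctc] at h
  | D φ d => simp [ctc] at h
  | B φ d => simp [ctc] at h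
  | S t c => simp [ctc] at h

/-- inverse of a step: bag, wall -/
theorem inv_BW {u v : Let Λ} {s : Bool} {x : BK} {w : WK} {a b : Λ}
    (h : step u v = some ((.bag s x, a), (.W w, b))) :
    s = true ∧ ((u = (.bag true x, a) ∧ v = (.W w, b)) ∨
      ∃ x0 φ d d' a0 b0, w = .D φ d' ∧ x = aft φ x0 ∧ u = (.bag true x0, a0) ∧
        v = (.W (.C φ d), b0) ∧ ctc x0 (.C φ d) = some (φ, d) ∧ bwOK x0 (.C φ d) ∧
        opstep φ d a0 b0 = some (d', a, b)) := by
  obtain ⟨κ, c⟩ := u
  obtain ⟨κ', d⟩ := v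
  rcases step_shape h with ⟨s', x', y', h1, h2, h3, h4⟩ | ⟨_, _, h1, h2, h3, h4⟩ |
    ⟨_, _, h1, h2, h3, h4⟩ | ⟨_, _, h1, h2, h3, h4⟩ | ⟨_, _, _, _, h1, h2, h3, h4⟩ |
    ⟨_, _, _, _, h1, h2, h3, h4⟩ | ⟨x0, w0, _, _, h1, h2, h3, h4⟩ <;>
    simp only [KK.bag.injEq, KK.W.injEq, reduceCtorEq] at h1 h2 h3 h4
  obtain ⟨rfl, rfl⟩ := h3
  subst h4
  subst h1 h2
  refine ⟨rfl, ?_⟩
  rw [step_bag_W] at h
  split_ifs at h with h1
  cases hc : ctc x0 w0 with
  | none =>
    rw [hc] at h
    simp only [Option.some.injEq, Prod.mk.injEq, KK.bag.injEq, KK.W.injEq, true_and] at h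
    obtain ⟨⟨rfl, rfl⟩, rfl, rfl⟩ := h
    exact Or.inl ⟨rfl, rfl⟩
  | some p =>
    rw [hc] at h
    obtain ⟨φ, d0⟩ := p
    obtain ⟨rfl, -⟩ := ctc_some hc
    simp only at h
    cases ho : opstep φ d0 c d with
    | none => rw [ho] at h; simp at h
    | some r =>
      rw [ho] at h
      obtain ⟨d', a', b'⟩ := r
      simp only [Option.map_some, Option.some.injEq, Prod.mk.injEq, KK.bag.injEq, KK.W.injEq,
        true_and] at h
      obtain ⟨⟨rfl, rfl⟩, rfl, rfl⟩ := h
      exact Or.inr ⟨x0, φ, d0, d', c, d, rfl, rfl, rfl, rfl, hc, h1.2, ho⟩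

/-! ### letters of the bag -/

/-- the letter of type `t` of a bag -/
def lt (c : Cont Λ) (m : HM) (o : Option TT) : TT → BK × Λ
  | .X => (.X, z)
  | .H => letH c m o
  | .Y j => letY c j o

omit [DecidableEq Λ] in
theorem lt_ty (c : Cont Λ) (m : HM) (o : Option TT) (t : TT) : (lt c m o t).1.ty = t := by
  rcases t with _ | _ | j
  · rfl
  · simp only [lt, letH]; split_ifs <;> rfl
  · simp only [lt, letY]; split_ifs <;> rfl

variable [Fintype Λ]

/-- a bag without its letter of type `t` -/
def rst (c : Cont Λ) (m : HM) (o : Option TT) (t : TT) : Multiset (BK × Λ) :=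
  (match t with
    | .X => {lt c m o .H, lt c m o (.Y false), lt c m o (.Y true)}
    | .H => {lt c m o (.Y false), lt c m o (.Y true)}
    | .Y false => {lt c m o .H, lt c m o (.Y true)}
    | .Y true => {lt c m o .H, lt c m o (.Y false)}) +
    (Finset.univ : Finset Λ).val.map fun a => (BK.X, a)

theorem bagM_eq_cons (c : Cont Λ) (m : HM) (o : Option TT) {t : TT} (ht : t ≠ .X) :
    bagM c m o = lt c m o t ::ₘ rst c m o t := by
  rcases t with _ | _ | ⟨_ | _⟩
  · exact absurd rfl ht
  · simp [bagM, lt, rst]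
  · simp only [bagM, lt, rst]
    simp only [Multiset.insert_eq_cons, Multiset.cons_add, Multiset.singleton_add]
    rw [Multiset.cons_swap (letH c m o) (letY c false o)]
  · simp only [bagM, lt, rst]
    simp only [Multiset.insert_eq_cons, Multiset.cons_add, Multiset.singleton_add]
    rw [Multiset.cons_swap (letY c true o) (letH c m o),
      Multiset.cons_swap (letY c true o) (letY c false o)]

theorem mem_bagM {c : Cont Λ} {m : HM} {o : Option TT} {x : BK × Λ} :
    x ∈ bagM c m o ↔ x = lt c m o x.1.ty ∧ x.1 ≠ .X ∨ x.1 = .X := by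
  simp only [bagM, Multiset.mem_cons, Multiset.mem_map]
  constructor
  · rintro (rfl | rfl | rfl | ⟨a, -, rfl⟩)
    · left
      constructor
      · conv_rhs => rw [show (letH c m o) = lt c m o .H from rfl, lt_ty]
        rfl
      · intro h
        have := lt_ty c m o .H
        rw [show lt c m o .H = letH c m o from rfl, h] at this
        cases this
    · left
      constructor
      · conv_rhs => rw [show (letY c false o) = lt c m o (.Y false) from rfl, lt_ty]
        rfl
      · intro h
        have := lt_ty c m o (.Y false)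
        rw [show lt c m o (.Y false) = letY c false o from rfl, h] at this
        cases this
    · left
      constructor
      · conv_rhs => rw [show (letY c true o) = lt c m o (.Y true) from rfl, lt_ty]
        rfl
      · intro h
        have := lt_ty c m o (.Y true)
        rw [show lt c m o (.Y true) = letY c true o from rfl, h] at this
        cases this
    · exact Or.inr rfl
  · rintro (⟨h, hx⟩ | h)
    · obtain ⟨k, a⟩ := x
      rcases k with _ | m' | ⟨_ | _, o'⟩
      · exact absurd rfl hx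
      · exact Or.inl h
      · exact Or.inr (Or.inl h)
      · exact Or.inr (Or.inr (Or.inl h))
    · obtain ⟨k, a⟩ := x
      simp only at h
      subst h
      exact Or.inr (Or.inr (Or.inr ⟨a, Finset.mem_univ_val a, rfl⟩))

theorem eq_lt_of_mem {c : Cont Λ} {m : HM} {o : Option TT} {x : BK × Λ} {t : TT}
    (h : x ∈ bagM c m o) (ht : t ≠ .X) (hx : x.1.ty = t) : x = lt c m o t := by
  rcases mem_bagM.1 h with ⟨h1, -⟩ | h1
  · rw [hx] at h1; exact h1
  · rw [h1] at hx; exact absurd hx.symm ht

omit [DecidableEq Λ] in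
theorem rst_congr {c c' : Cont Λ} {m m' : HM} {o o' : Option TT} {t : TT} (ht : t ≠ .X)
    (h : ∀ t', t' ≠ .X → t' ≠ t → lt c' m' o' t' = lt c m o t') :
    rst c' m' o' t = rst c m o t := by
  rcases t with _ | _ | ⟨_ | _⟩
  · exact absurd rfl ht
  · simp only [rst]
    rw [h (.Y false) (by simp) (by simp), h (.Y true) (by simp) (by simp)]
  · simp only [rst]
    rw [h .H (by simp) (by simp), h (.Y true) (by simp) (by simp)]
  · simp only [rst]
    rw [h .H (by simp) (by simp), h (.Y false) (by simp) (by simp)]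

/-- replacement of a letter of type `t ≠ X` -/
theorem bag_repl {c c' : Cont Λ} {m m' : HM} {o o' : Option TT} {t : TT} {P U : List (BK × Λ)}
    {x x' : BK × Λ} (ht : t ≠ .X) (h : ((P ++ x :: U : List (BK × Λ)) : Multiset (BK × Λ)) =
      bagM c m o) (hx : x.1.ty = t) (hx' : x' = lt c' m' o' t)
    (hoth : ∀ t', t' ≠ .X → t' ≠ t → lt c' m' o' t' = lt c m o t') :
    ((P ++ x' :: U : List (BK × Λ)) : Multiset (BK × Λ)) = bagM c' m' o' := by
  have hmem : x ∈ bagM c m o := by rw [← h]; simp
  have hxe : x = lt c m o t := eq_lt_of_mem hmem ht hx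
  rw [bagM_eq_cons c m o ht] at h
  rw [bagM_eq_cons c' m' o' ht, rst_congr ht hoth]
  have h1 : ((P ++ x :: U : List (BK × Λ)) : Multiset (BK × Λ)) =
      x ::ₘ ((P ++ U : List (BK × Λ)) : Multiset (BK × Λ)) := by
    rw [Multiset.cons_coe, Multiset.coe_eq_coe]
    exact List.perm_middle
  have h2 : ((P ++ x' :: U : List (BK × Λ)) : Multiset (BK × Λ)) =
      x' ::ₘ ((P ++ U : List (BK × Λ)) : Multiset (BK × Λ)) := by
    rw [Multiset.cons_coe, Multiset.coe_eq_coe]
    exact List.perm_middle
  rw [h1, hxe] at h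
  rw [h2, hx', (Multiset.cons_inj_right _).1 h]

theorem bagM_congr {c c' : Cont Λ} {m m' : HM} {o o' : Option TT}
    (h : ∀ t', t' ≠ .X → lt c' m' o' t' = lt c m o t') : bagM c' m' o' = bagM c m o := by
  rw [bagM_eq_cons c' m' o' (t := .H) (by simp), bagM_eq_cons c m o (t := .H) (by simp),
    rst_congr (by simp) (fun t' h1 _ => h t' h1), h .H (by simp)]

end Crest.Agent.R176.Machine.Snd
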