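import Crest.Agent.R176.Machine.Snd804C

/-!
# Row 176, part A, block (5B): the boundary of two blocks (helper804)
-/

set_option autoImplicit false

namespace Crest.Agent.R176.Machine.Snd

open Crest.Agent.R176.Machine

variable {Λ : Type} [DecidableEq Λ] [LabelSys Λ]

theorem own_lk {c : Cont Λ} {st : Option (Ph × Data)} {lk : Bool} {w : WK} {a : Λ} {e : EK} {b : Λ}
    {o : Option TT} (h : Own c st lk w a e b o) (hl : lk = true) : st = none ∧ o = none := by
  cases h with
  | rest => exact ⟨rfl, rfl⟩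
  | G φ d _ h => exact ⟨by simp [cur, h hl], rfl⟩
  | K => exact absurd hl (by simp)
  | C => exact absurd hl (by simp)
  | D => exact absurd hl (by simp)
  | P => exact absurd hl (by simp)
  | R φ d _ h => exact ⟨by simp [nxt, h hl], rfl⟩
  | Ti => exact ⟨rfl, rfl⟩
  | Tb => exact absurd hl (by simp)

theorem own_relabel {c : Cont Λ} {st : Option (Ph × Data)} {lk : Bool} {w : WK} {a : Λ} {e : EK}
    {b : Λ} {o : Option TT} (h : Own c st lk w a e b o) (hs : st = none) (ho : o = none)
    (c' : Cont Λ) (lk' : Bool) : Own c' none lk' w a e b none := by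
  cases h with
  | rest => exact Own.rest lk'
  | G φ d _ h =>
    have hφ : φ = 0 := by
      by_contra hne
      simp [cur, hne] at hs
    have := Own.G (c := c') φ d lk' (fun _ => hφ)
    rwa [hs] at this
  | K => exact absurd ho (by simp)
  | C => exact absurd ho (by simp)
  | D => exact absurd ho (by simp)
  | P => exact absurd ho (by simp)
  | R φ d _ h =>
    have hφ : φ = 10 := by
      by_contra hne
      simp [nxt, hne] at hs
    have := Own.R (c := c') φ d lk' (fun _ => hφ)
    rwa [hs] at this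
  | Ti t b _ h => exact Own.Ti t b lk' h
  | Tb => exact absurd hs (by simp)

theorem own_noneH {c : Cont Λ} {st : Option (Ph × Data)} {lk : Bool} {w : WK} {a : Λ} {e : EK}
    {b : Λ} {o : Option TT} (h : Own c st lk w a e b o) (hs : st = none) :
    o = none ∨ o = some .H := by
  cases h with
  | rest => exact Or.inl rfl
  | G φ d _ h => exact Or.inl rfl
  | K φ d =>
    have hφ : φ = 0 := by
      by_contra hne
      simp [cur, hne] at hs
    subst hφ; exact Or.inr rfl
  | C φ d =>
    have hφ : φ = 0 := by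
      by_contra hne
      simp [cur, hne] at hs
    subst hφ; exact Or.inr rfl
  | D φ d =>
    have hφ : φ = 10 := by
      by_contra hne
      simp [nxt, hne] at hs
    subst hφ; exact Or.inr rfl
  | P φ d =>
    have hφ : φ = 10 := by
      by_contra hne
      simp [nxt, hne] at hs
    subst hφ; exact Or.inr rfl
  | R φ d _ h => exact Or.inl rfl
  | Ti t b _ h => exact Or.inl rfl
  | Tb => exact Or.inl rfl

theorem own_C {c : Cont Λ} {st : Option (Ph × Data)} {lk : Bool} {w : WK} {a : Λ} {e : EK}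
    {b : Λ} {o : Option TT} (h : Own c st lk w a e b o) {φ : Ph} {d : Data} (hw : w = .C φ d) :
    st = cur φ d ∧ lk = false ∧ a = c.get (tz φ) ∧ e = .N φ ∧ b = z ∧ o = some (tz φ) := by
  cases h <;> simp only [reduceCtorEq, WK.C.injEq] at hw
  obtain ⟨rfl, rfl⟩ := hw
  exact ⟨rfl, rfl, rfl, rfl, rfl, rfl⟩

theorem own_D {c : Cont Λ} {st : Option (Ph × Data)} {lk : Bool} {w : WK} {a : Λ} {e : EK}
    {b : Λ} {o : Option TT} (h : Own c st lk w a e b o) {φ : Ph} {d : Data} (hw : w = .D φ d) :
    st = nxt φ d ∧ lk = false ∧ a = c.get (tz φ) ∧ e = .N φ ∧ b = z ∧ o = some (tz φ) := by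
  cases h <;> simp only [reduceCtorEq, WK.D.injEq] at hw
  obtain ⟨rfl, rfl⟩ := hw
  exact ⟨rfl, rfl, rfl, rfl, rfl, rfl⟩

theorem cur_isSome (φ : Ph) (d : Data) : (cur φ d).isSome = decide (φ ≠ 0) := by
  unfold cur; by_cases h : φ = 0 <;> simp [h]

theorem nxt_isSome (φ : Ph) (d : Data) : (nxt φ d).isSome = decide (φ ≠ 10) := by
  unfold nxt; by_cases h : φ = 10 <;> simp [h]

theorem own_lockd {c : Cont Λ} {st : Option (Ph × Data)} {lk : Bool} {w : WK} {a : Λ} {e : EK}
    {b : Λ} {o : Option TT} (h : Own c st lk w a e b o) : locked w = st.isSome := by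
  cases h with
  | rest => rfl
  | G φ d _ h => rw [cur_isSome]; rfl
  | K φ d => rw [cur_isSome]; rfl
  | C φ d => rw [cur_isSome]; rfl
  | D φ d => rw [nxt_isSome]; rfl
  | P φ d => rw [nxt_isSome]; rfl
  | R φ d _ h => rw [nxt_isSome]; rfl
  | Ti t b _ h => rfl
  | Tb t b φ d h => simp [locked, h]

theorem own_mark {c : Cont Λ} {st : Option (Ph × Data)} {lk : Bool} {w : WK} {a : Λ} {e : EK}
    {b : Λ} {o : Option TT} (h : Own c st lk w a e b o) {m : HM} {l : Λ}
    (hm : (BK.H m, l) = letH c (hmark st lk) o) :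
    (m = .l ↔ lk = true) ∧ (m = .f → st = none ∧ o = none ∧ lk = false) := by
  unfold letH at hm
  by_cases ho : o = some .H
  · rw [if_pos ho] at hm
    simp only [Prod.mk.injEq, BK.H.injEq] at hm
    obtain ⟨rfl, -⟩ := hm
    refine ⟨⟨fun h1 => absurd h1 (by simp), fun h1 => ?_⟩, fun h1 => absurd h1 (by simp)⟩
    have := (own_lk h h1).2
    rw [this] at ho
    exact absurd ho (by simp)
  · rw [if_neg ho] at hm
    simp only [Prod.mk.injEq, BK.H.injEq] at hm
    obtain ⟨rfl, -⟩ := hm
    cases st with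
    | some p =>
      refine ⟨⟨fun h1 => absurd h1 (by simp [hmark]), fun h1 => ?_⟩,
        fun h1 => absurd h1 (by simp [hmark])⟩
      exact absurd (own_lk h h1).1 (by simp)
    | none =>
      cases lk with
      | true => exact ⟨⟨fun _ => rfl, fun _ => rfl⟩, fun h1 => absurd h1 (by simp [hmark])⟩
      | false =>
        refine ⟨⟨fun h1 => absurd h1 (by simp [hmark]), fun h1 => absurd h1 (by simp)⟩,
          fun _ => ⟨rfl, ?_, rfl⟩⟩
        rcases own_noneH h rfl with h1 | h1
        · exact h1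
        · exact absurd h1 ho

variable [Fintype Λ]

theorem conf_last {s : BSt Λ} {p : List (Let Λ)} {x : Let Λ} (h : Conf s (p ++ [x])) :
    ∃ (w : WK) (a : Λ) (e : EK) (b : Λ) (o : Option TT) (P U : List (BK × Λ)) (x0 : BK × Λ),
      p = bword w a P e b U ∧ x = bg true x0 ∧ Own s.c s.st s.lk w a e b o ∧
      ((P ++ (U ++ [x0]) : List (BK × Λ)) : Multiset (BK × Λ)) = bagM s.c (hmark s.st s.lk) o ∧
      ∀ y ∈ P, Passable e b y := by
  obtain ⟨w, a, e, b, o, P, V, hB, hO, hM, hP⟩ := h
  rcases List.eq_nil_or_concat V with rfl | ⟨U, x0, rfl⟩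
  · exfalso
    rw [List.append_nil] at hM
    have hmem : ∀ y, y ∈ bagM s.c (hmark s.st s.lk) o → y ∈ P := by
      intro y hy
      rw [← hM] at hy
      exact hy
    have hH : lt s.c (hmark s.st s.lk) o .H ∈ bagM s.c (hmark s.st s.lk) o := by
      rw [bagM_eq_cons _ _ _ (t := .H) (by simp)]; exact Multiset.mem_cons_self _ _
    have h1 := hP _ (hmem _ hH)
    have hmv : e.target.isSome = true := h1.1
    obtain ⟨t, ht⟩ := Option.isSome_iff_exists.1 hmv
    by_cases hX : t = .X
    · subst hX
      have hXm : ((BK.X, b) : BK × Λ) ∈ bagM s.c (hmark s.st s.lk) o := mem_bagM.2 (Or.inr rfl)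
      exact (hP _ (hmem _ hXm)).2.1 ht rfl
    · have hT : lt s.c (hmark s.st s.lk) o t ∈ bagM s.c (hmark s.st s.lk) o := by
        rw [bagM_eq_cons _ _ _ hX]; exact Multiset.mem_cons_self _ _
      refine (hP _ (hmem _ hT)).2.2 ?_ ?_
      · rw [ht]; simpa using hX
      · rw [lt_ty, ht]
  · refine ⟨w, a, e, b, o, P, U, x0, ?_, ?_, hO, ?_, hP⟩
    · have : bword w a P e b (U.concat x0) = bword w a P e b U ++ [bg true x0] := by
        simp [bword]
      rw [this] at hB
      exact (List.append_inj' hB rfl).1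
    · have : bword w a P e b (U.concat x0) = bword w a P e b U ++ [bg true x0] := by
        simp [bword]
      rw [this] at hB
      simpa using (List.append_inj' hB rfl).2
    · simpa using hM

omit [DecidableEq Λ] [LabelSys Λ] [Fintype Λ] in
theorem get_set_self (c : Cont Λ) (t : TT) (a : Λ) : (c.set t a).get t = a := by
  rcases t with _ | _ | ⟨_ | _⟩ <;> rfl

omit [DecidableEq Λ] [LabelSys Λ] [Fintype Λ] in
theorem set_set (c : Cont Λ) (t : TT) (a b : Λ) : (c.set t a).set t b = c.set t b := by
  rcases t with _ | _ | ⟨_ | _⟩ <;> rfl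

omit [DecidableEq Λ] [LabelSys Λ] [Fintype Λ] in
theorem get_set_ne (c : Cont Λ) {t t' : TT} (a : Λ) (h : t ≠ t') (hX : t ≠ .X) (hX' : t' ≠ .X) :
    (c.set t a).get t' = c.get t' := by
  rcases t with _ | _ | ⟨_ | _⟩ <;> rcases t' with _ | _ | ⟨_ | _⟩ <;> simp_all [Cont.set, Cont.get]

theorem tz_ne_X (φ : Ph) : tz φ ≠ .X := by
  unfold tz; split_ifs <;> simp

/-- the letters of another type do not see a change of the content (and of the mark, if it does not
change) -/
theorem lt_set {c : Cont Λ} {m m' : HM} {o : Option TT} {t t' : TT} (a : Λ) (ht : t ≠ .X)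
    (ht' : t' ≠ .X) (hne : t' ≠ t) (hm : t' = .H → m' = m) :
    lt (c.set t a) m' o t' = lt c m o t' := by
  rcases t' with _ | _ | j
  · exact absurd rfl ht'
  · simp only [lt, letH]
    rw [hm rfl]
    have : (c.set t a).h = c.h := by
      have := get_set_ne c (t := t) (t' := .H) a (Ne.symm hne) ht (by simp)
      simpa [Cont.get] using this
    rw [this]
  · simp only [lt, letY]
    rw [get_set_ne c a (Ne.symm hne) ht (by simp)]

/-- the left block after / before a contact -/
theorem conf_left {s : BSt Λ} {w : WK} {a : Λ} {e : EK} {b : Λ} {o : Option TT}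
    {P U : List (BK × Λ)} {x0 x1 : BK × Λ} {t : TT} {l : Λ} {lk' : Bool}
    (hO : Own s.c s.st s.lk w a e b o)
    (hM : ((P ++ (U ++ [x0]) : List (BK × Λ)) : Multiset (BK × Λ)) = bagM s.c (hmark s.st s.lk) o)
    (hP : ∀ y ∈ P, Passable e b y) (hs : s.st = none) (ho : o = none) (ht : t ≠ .X)
    (hx0 : x0.1.ty = t) (hx1 : x1 = lt (s.c.set t l) (hmark none lk') none t)
    (hlk : t ≠ .H → lk' = s.lk) :
    Conf ⟨s.c.set t l, none, lk'⟩ (bword w a P e b U ++ [bg true x1]) := by
  subst ho
  refine ⟨w, a, e, b, none, P, U ++ [x1], by simp [bword], own_relabel hO hs rfl _ _, ?_, hP⟩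
  have hM' : (((P ++ U) ++ x0 :: [] : List (BK × Λ)) : Multiset (BK × Λ)) =
      bagM s.c (hmark s.st s.lk) none := by
    rw [← hM, List.append_assoc]
  have := bag_repl (c' := s.c.set t l) (m' := hmark none lk') (o' := none) ht hM' hx0 hx1
    (fun t' h1 h2 => lt_set l ht h1 h2 (fun h3 => by
      subst h3
      rw [hs, hlk (Ne.symm h2)]))
  rw [← List.append_assoc]
  exact this

/-- the right block after / before a contact -/
theorem conf_right {c c' : Cont Λ} {st st' : Option (Ph × Data)} {w' : WK} {t : TT}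
    {φ : Ph} {l : Λ} {U : List (BK × Λ)} (ht : t = tz φ) (hc : c' = c.set t l)
    (hM : ((U : List (BK × Λ)) : Multiset (BK × Λ)) = bagM c (hmark st false) (some t))
    (hm : t ≠ .H → hmark st' false = hmark st false)
    (hO : Own c' st' false w' l (.N φ) z (some t)) :
    Conf ⟨c', st', false⟩ (bword w' l [] (.N φ) z U) := by
  refine ⟨w', l, .N φ, z, some t, [], U, rfl, hO, ?_, by simp⟩
  rw [List.nil_append, hM]
  have htX : t ≠ .X := by rw [ht]; exact tz_ne_X φ
  refine bagM_congr fun t' ht' => ?_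
  by_cases htt : t' = t
  · subst htt
    rcases t' with _ | _ | j
    · exact absurd rfl ht'
    · simp [lt, letH]
    · simp [lt, letY]
  · subst hc
    refine (lt_set l htX ht' htt (fun h3 => ?_)).symm
    subst h3
    exact hm (Ne.symm htt)

end Crest.Agent.R176.Machine.Snd
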