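import Crest.Agent.R176.Machine.Snd804D

/-!
# Row 176, part A, block (5B): the boundary of two blocks, forward and backward (helper804)
-/

set_option autoImplicit false

namespace Crest.Agent.R176.Machine.Snd

open Crest.Agent.R176.Machine

variable {Λ : Type} [DecidableEq Λ] [LabelSys Λ] [Fintype Λ]

/-- one move at the boundary of two blocks, forward -/
theorem bnd_fwd {s s' : BSt Λ} {p q : List (Let Λ)} {x y : Let Λ}
    (h : Conf s (p ++ [x])) (h' : Conf s' (y :: q)) (hl : s.lk = s'.st.isSome) :
    step x y = some (x, y) ∨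
    ∃ φ d, s.st = none ∧ s.lk = decide (φ ≠ 0) ∧ s'.st = cur φ d ∧ s'.lk = false ∧
      ((cstep φ d s.c s'.c = none ∧ step x y = none) ∨
       ∃ d' c c' x' y', cstep φ d s.c s'.c = some (d', c, c') ∧ step x y = some (x', y') ∧
         Conf ⟨c, none, decide (φ ≠ 10)⟩ (p ++ [x']) ∧ Conf ⟨c', nxt φ d', false⟩ (y' :: q)) := by
  obtain ⟨w, a, e, b, o, P, U, x0, rfl, rfl, hO, hM, hP⟩ := conf_last h
  obtain ⟨w', a', e', b', o', P', U', hB', hO', hM', hP'⟩ := h'
  simp only [bword, List.cons.injEq] at hB'
  obtain ⟨rfl, rfl⟩ := hB'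
  obtain ⟨k, l⟩ := x0
  have hx0 : (k, l) ∈ bagM s.c (hmark s.st s.lk) o := by rw [← hM]; simp
  have hlw : locked w' = s.lk := by rw [own_lockd hO', hl]
  have hbw : bwOK k w' := by
    rintro m rfl
    have h1 := eq_lt_of_mem hx0 (t := .H) (by simp) rfl
    have h2 := (own_mark hO h1).1
    rw [hlw]; exact h2
  show step (.bag true k, l) (.W w', a') = _ ∨ _
  have hstep := step_bag_W true k w' l a'
  rw [if_pos ⟨rfl, hbw⟩] at hstep
  cases hc : ctc k w' with
  | none => rw [hc] at hstep; exact Or.inl hstep
  | some pr =>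
    right
    obtain ⟨φ, d⟩ := pr
    rw [hc] at hstep
    simp only at hstep
    obtain ⟨hw', hk⟩ := ctc_some hc
    simp only at hw' hk
    obtain ⟨hst', hlk', ha', he', hb', ho'⟩ := own_C hO' hw'
    subst he' hb' ho' ha' hw'
    have hP'0 : P' = [] := by
      cases P' with
      | nil => rfl
      | cons y P' => exact absurd (hP' y (by simp)).1 (by simp [EK.moving, EK.target])
    subst hP'0
    -- the left block
    have hleft : s.st = none ∧ o = none ∧ s.lk = decide (φ ≠ 0) ∧ k.ty = tz φ ∧
        l = s.c.get (tz φ) := by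
      rcases hk with ⟨m, rfl, hz, hm⟩ | ⟨j, rfl, hz⟩
      · have h1 := eq_lt_of_mem hx0 (t := .H) (by simp) rfl
        have h2 := own_mark hO h1
        have h3 : s.st = none ∧ o = none ∧ s.lk = decide (φ ≠ 0) := by
          rcases hm with rfl | ⟨rfl, rfl⟩
          · have h4 := h2.1.1 rfl
            refine ⟨(own_lk hO h4).1, (own_lk hO h4).2, ?_⟩
            rw [← hlw]; rfl
          · obtain ⟨h4, h5, h6⟩ := h2.2 rfl
            exact ⟨h4, h5, by rw [h6]; rfl⟩
        refine ⟨h3.1, h3.2.1, h3.2.2, hz.symm, ?_⟩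
        rw [h3.2.1] at h1
        simp only [lt, letH, reduceCtorEq, if_false, Prod.mk.injEq] at h1
        rw [h1.2, hz]; rfl
      · have h0 : φ ≠ 0 := by rintro rfl; exact absurd hz (by simp [tz])
        have h4 : s.lk = true := by rw [← hlw]; simp [locked, h0]
        refine ⟨(own_lk hO h4).1, (own_lk hO h4).2, by rw [h4]; simp [h0], hz.symm, ?_⟩
        have h1 := eq_lt_of_mem hx0 (t := .Y j) (by simp) rfl
        rw [(own_lk hO h4).2] at h1
        simp only [lt, letY, reduceCtorEq, if_false, Prod.mk.injEq] at h1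
        rw [h1.2, hz]
    obtain ⟨hs, ho, hlk, hty, hl0⟩ := hleft
    refine ⟨φ, d, hs, hlk, hst', hlk', ?_⟩
    have hcs := cstep_eq φ d s.c s'.c
    rw [← hl0] at hcs
    cases hop : opstep φ d l (s'.c.get (tz φ)) with
    | none =>
      left
      rw [hop] at hcs hstep
      exact ⟨hcs, hstep⟩
    | some r =>
      right
      obtain ⟨d', q1, q2⟩ := r
      rw [hop] at hcs hstep
      simp only [Option.map_some] at hcs hstep
      refine ⟨d', _, _, _, _, hcs, hstep, ?_, ?_⟩
      · refine conf_left (x1 := (aft φ k, q1)) hO hM hP hs ho (tz_ne_X φ) hty ?_ ?_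
        · rcases hk with ⟨m, rfl, hz, hm⟩ | ⟨j, rfl, hz⟩
          · rw [hz]
            simp only [lt, letH, aft, Cont.set, hmark]
            by_cases h10 : φ = 10 <;> simp [h10]
          · rw [hz]
            simp only [lt, letY, aft, get_set_self]
            simp
        · intro hne
          rcases hk with ⟨m, rfl, hz, hm⟩ | ⟨j, rfl, hz⟩
          · exact absurd hz hne
          · have h0 : φ ≠ 0 := by rintro rfl; exact absurd hz (by simp [tz])
            have h10 : φ ≠ 10 := by rintro rfl; exact absurd hz (by simp [tz])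
            rw [hlk]; simp [h0, h10]
      · rw [hlk'] at hM'
        have := conf_right (c := s'.c) (c' := s'.c.set (tz φ) q2) (st := s'.st)
          (st' := nxt φ d') (w' := .D φ d') (φ := φ) (l := q2) (U := U') rfl rfl
          (by simpa using hM') ?_ ?_
        · simpa [bword] using this
        · intro hne
          rw [hst']
          have h0 : φ ≠ 0 := by rintro rfl; exact hne (by decide)
          have h10 : φ ≠ 10 := by rintro rfl; exact hne (by decide)
          simp [cur, nxt, h0, h10, hmark]
        · have := Own.D (c := s'.c.set (tz φ) q2) φ d'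
          rwa [get_set_self] at this

/-- one move at the boundary of two blocks, backward -/
theorem bnd_bwd {s s' : BSt Λ} {p q : List (Let Λ)} {x y x' y' : Let Λ}
    (h : Conf s (p ++ [x'])) (h' : Conf s' (y' :: q)) (hl : s.lk = s'.st.isSome)
    (hs : step x y = some (x', y')) :
    (x = x' ∧ y = y') ∨
    ∃ φ d d' c c', s.st = none ∧ s.lk = decide (φ ≠ 10) ∧ s'.st = nxt φ d' ∧ s'.lk = false ∧
      cstep φ d c c' = some (d', s.c, s'.c) ∧ Conf ⟨c, none, decide (φ ≠ 0)⟩ (p ++ [x]) ∧
        Conf ⟨c', cur φ d, false⟩ (y :: q) := by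
  obtain ⟨w, a, e, b, o, P, U, x0, rfl, rfl, hO, hM, hP⟩ := conf_last h
  obtain ⟨w', a', e', b', o', P', U', hB', hO', hM', hP'⟩ := h'
  simp only [bword, List.cons.injEq] at hB'
  obtain ⟨rfl, rfl⟩ := hB'
  obtain ⟨k', l'⟩ := x0
  have hx0 : (k', l') ∈ bagM s.c (hmark s.st s.lk) o := by rw [← hM]; simp
  have hlw : locked w' = s.lk := by rw [own_lockd hO', hl]
  obtain ⟨-, h1 | ⟨k, φ, d, d', l, b0, hw', hk', hx, hy, hc, hbw, hop⟩⟩ := inv_BW (s := true) hs
  · exact Or.inl h1
  · right
    obtain ⟨-, hk⟩ := ctc_some hc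
    simp only at hk
    obtain ⟨hst', hlk', ha', he', hb', ho'⟩ := own_D hO' hw'
    subst he' hb' ho' ha' hw' hx hy
    have hP'0 : P' = [] := by
      cases P' with
      | nil => rfl
      | cons y P' => exact absurd (hP' y (by simp)).1 (by simp [EK.moving, EK.target])
    subst hP'0
    have hlw' : s.lk = decide (φ ≠ 10) := by rw [← hlw]; rfl
    have hleft : s.st = none ∧ o = none ∧ k'.ty = tz φ ∧ l' = s.c.get (tz φ) := by
      rcases hk with ⟨m, rfl, hz, hm⟩ | ⟨j, rfl, hz⟩
      · subst hk'
        have h1 := eq_lt_of_mem hx0 (t := .H) (by simp) rfl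
        have h2 := own_mark hO h1
        have h3 : s.st = none ∧ o = none := by
          by_cases h10 : φ = 10
          · obtain ⟨h4, h5, h6⟩ := h2.2 (by simp [h10])
            exact ⟨h4, h5⟩
          · have h4 := h2.1.1 (by simp [h10])
            exact own_lk hO h4
        refine ⟨h3.1, h3.2, hz.symm, ?_⟩
        rw [h3.2] at h1
        simp only [aft, lt, letH, reduceCtorEq, if_false, Prod.mk.injEq] at h1
        rw [h1.2, hz]; rfl
      · subst hk'
        have h10 : φ ≠ 10 := by rintro rfl; exact absurd hz (by simp [tz])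
        have h4 : s.lk = true := by rw [hlw']; simp [h10]
        refine ⟨(own_lk hO h4).1, (own_lk hO h4).2, hz.symm, ?_⟩
        have h1 := eq_lt_of_mem hx0 (t := .Y j) (by simp) rfl
        rw [(own_lk hO h4).2] at h1
        simp only [aft, lt, letY, reduceCtorEq, if_false, Prod.mk.injEq] at h1
        rw [h1.2, hz]
    obtain ⟨hst, ho, hty, hl0⟩ := hleft
    refine ⟨φ, d, d', s.c.set (tz φ) l, s'.c.set (tz φ) b0, hst, hlw', hst', hlk', ?_, ?_, ?_⟩
    · rw [cstep_eq, get_set_self, get_set_self, hop]
      simp only [Option.map_some, set_set]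
      rw [hl0, set_get, set_get]
    · refine conf_left (x1 := (k, l)) hO hM hP hst ho (tz_ne_X φ) hty ?_ ?_
      · rcases hk with ⟨m, rfl, hz, hm⟩ | ⟨j, rfl, hz⟩
        · rw [hz]
          simp only [lt, letH, Cont.set, hmark]
          by_cases h0 : φ = 0
          · have : m = .f := by
              rcases hm with rfl | ⟨-, rfl⟩
              · have := (hbw _ rfl).1 rfl
                simp [locked, h0] at this
              · rfl
            simp [h0, this]
          · have : m = .l := (hbw _ rfl).2 (by simp [locked, h0])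
            simp [h0, this]
        · rw [hz]
          simp only [lt, letY, get_set_self]
          simp
      · intro hne
        rcases hk with ⟨m, rfl, hz, hm⟩ | ⟨j, rfl, hz⟩
        · exact absurd hz hne
        · have h0 : φ ≠ 0 := by rintro rfl; exact absurd hz (by simp [tz])
          have h10 : φ ≠ 10 := by rintro rfl; exact absurd hz (by simp [tz])
          rw [hlw']; simp [h0, h10]
    · rw [hlk'] at hM'
      have := conf_right (c := s'.c) (c' := s'.c.set (tz φ) b0) (st := s'.st)
        (st' := cur φ d) (w' := .C φ d) (φ := φ) (l := b0) (U := U') rfl rfl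
        (by simpa using hM') ?_ ?_
      · simpa [bword] using this
      · intro hne
        rw [hst']
        have h0 : φ ≠ 0 := by rintro rfl; exact hne (by decide)
        have h10 : φ ≠ 10 := by rintro rfl; exact hne (by decide)
        simp [cur, nxt, h0, h10, hmark]
      · have := Own.C (c := s'.c.set (tz φ) b0) φ d
        rwa [get_set_self] at this

end Crest.Agent.R176.Machine.Snd
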