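import Crest.Agent.R176.Machine.Snd804E
import Crest.Agent.R176.Machine.Key309B

/-!
# Row 176, part A, block (5): macro words, effect of a contact (helper804)
-/

set_option autoImplicit false

namespace Crest.Agent.R176.Machine.Snd

open Crest.Agent.R176.Machine
open Crest.Agent.R176.QAlg206 (WEq IsZ Mv)

variable {Λ : Type} [DecidableEq Λ] [LabelSys Λ]

/-! ### runs -/

theorem phFrom_zero : phFrom 0 = allPh := by decide

theorem phFrom_ten : phFrom 10 = [10] := by decide

theorem phFrom_cons (φ : Ph) (h : φ ≠ 10) : phFrom φ = φ :: phFrom (φ + 1) := by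
  revert φ; decide

theorem ph_succ_ne {φ : Ph} (h : φ ≠ 10) : φ + 1 ≠ 0 := by
  revert φ; decide

theorem ten_mem_phFrom (φ : Ph) : (10 : Ph) ∈ phFrom φ := by
  revert φ; decide

theorem runL_phFrom {φ : Ph} (h : φ ≠ 10) (d : Data) (a b : Cont Λ) :
    runL (phFrom φ) d a b =
      (cstep φ d a b).bind fun p => runL (phFrom (φ + 1)) p.1 p.2.1 p.2.2 := by
  rw [phFrom_cons φ h]; rfl

theorem runL_ten (d : Data) (a b : Cont Λ) :
    runL (phFrom 10) d a b = (cstep 10 d a b).map fun p => p.2 := by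
  rw [phFrom_ten]
  simp only [runL]
  cases cstep 10 d a b <;> rfl

theorem cont_inj {x y : Let (Λ × Λ)} (h : cont x = cont y) : x = y := by
  obtain ⟨κ, a, b⟩ := x
  obtain ⟨κ', a', b'⟩ := y
  simp only [cont, Cont.mk.injEq] at h
  obtain ⟨h1, rfl, rfl⟩ := h
  have := congrArg (decode (Λ := Λ)) h1
  rw [LabelSys.decode_code, LabelSys.decode_code] at this
  simp only [Option.some.injEq] at this
  rw [this]

theorem exists_cont {c : Cont Λ} (h : decode c.h ≠ none) : ∃ x : Let (Λ × Λ), cont x = c := by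
  obtain ⟨κ, hκ⟩ := Option.ne_none_iff_exists'.1 h
  refine ⟨(κ, (c.y1, c.y2)), ?_⟩
  rw [cont, ← LabelSys.code_decode _ _ hκ]

/-! ### macro words -/

theorem mac_append {ss ss' : List (BSt Λ)} {v v' : List (Let (Λ × Λ))} (h : Mac ss v)
    (h' : Mac ss' v') : Mac (ss ++ ss') (v ++ v') := by
  induction h with
  | nil => simpa using h'
  | one x ss v h ih => exact Mac.one x _ _ ih
  | two a b φ hφ d x y hr ss v h ih => exact Mac.two a b φ hφ d x y hr _ _ ih

theorem mac_first {s : BSt Λ} {ss : List (BSt Λ)} {v : List (Let (Λ × Λ))}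
    (h : Mac (s :: ss) v) : s.st = none := by
  cases h <;> rfl

theorem mac_adj {ss : List (BSt Λ)} {v : List (Let (Λ × Λ))} (h : Mac ss v) :
    ∀ ss1 s s' ss2, ss = ss1 ++ s :: s' :: ss2 → s.lk = s'.st.isSome := by
  induction h with
  | nil => intro ss1 s s' ss2 h; simp at h
  | one x ss v h ih =>
    intro ss1 s s' ss2 hss
    cases ss1 with
    | nil =>
      simp only [List.nil_append, List.cons.injEq] at hss
      obtain ⟨rfl, rfl⟩ := hss
      rw [mac_first h]; rfl
    | cons t ss1 =>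
      simp only [List.cons_append, List.cons.injEq] at hss
      exact ih _ _ _ _ hss.2
  | two a b φ hφ d x y hr ss v h ih =>
    intro ss1 s s' ss2 hss
    rcases ss1 with _ | ⟨t, _ | ⟨t', ss1⟩⟩
    · simp only [List.nil_append, List.cons.injEq] at hss
      obtain ⟨rfl, rfl, rfl⟩ := hss
      rfl
    · simp only [List.cons_append, List.nil_append, List.cons.injEq] at hss
      obtain ⟨rfl, rfl, rfl⟩ := hss
      rw [mac_first h]; rfl
    · simp only [List.cons_append, List.cons.injEq] at hss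
      exact ih _ _ _ _ hss.2.2

theorem mac_split {ss : List (BSt Λ)} {v : List (Let (Λ × Λ))} (h : Mac ss v) :
    ∀ ss1 s ss2, ss = ss1 ++ s :: ss2 → s.st = none →
      ∃ v1 v2, v = v1 ++ v2 ∧ Mac ss1 v1 ∧ Mac (s :: ss2) v2 := by
  induction h with
  | nil => intro ss1 s ss2 h; simp at h
  | one x ss v h ih =>
    intro ss1 s ss2 hss hs
    cases ss1 with
    | nil =>
      simp only [List.nil_append, List.cons.injEq] at hss
      obtain ⟨rfl, rfl⟩ := hss
      exact ⟨[], _, rfl, Mac.nil, Mac.one x _ _ h⟩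
    | cons t ss1 =>
      simp only [List.cons_append, List.cons.injEq] at hss
      obtain ⟨rfl, hss⟩ := hss
      obtain ⟨v1, v2, rfl, h1, h2⟩ := ih _ _ _ hss hs
      exact ⟨x :: v1, v2, rfl, Mac.one x _ _ h1, h2⟩
  | two a b φ hφ d x y hr ss v h ih =>
    intro ss1 s ss2 hss hs
    rcases ss1 with _ | ⟨t, _ | ⟨t', ss1⟩⟩
    · simp only [List.nil_append, List.cons.injEq] at hss
      obtain ⟨rfl, rfl⟩ := hss
      exact ⟨[], _, rfl, Mac.nil, Mac.two a b φ hφ d x y hr _ _ h⟩
    · simp only [List.cons_append, List.nil_append, List.cons.injEq] at hss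
      obtain ⟨rfl, rfl, rfl⟩ := hss
      exact absurd hs (by simp)
    · simp only [List.cons_append, List.cons.injEq] at hss
      obtain ⟨rfl, rfl, hss⟩ := hss
      obtain ⟨v1, v2, rfl, h1, h2⟩ := ih _ _ _ hss hs
      exact ⟨x :: y :: v1, v2, rfl, Mac.two a b φ hφ d x y hr _ _ h1, h2⟩

/-- two adjacent unengaged blocks -/
theorem mac_oo {s s' : BSt Λ} {ss : List (BSt Λ)} {v : List (Let (Λ × Λ))}
    (h : Mac (s :: s' :: ss) v) (h1 : s.lk = false) (h2 : s'.lk = false) :
    ∃ x y v', s = ⟨cont x, none, false⟩ ∧ s' = ⟨cont y, none, false⟩ ∧ v = x :: y :: v' ∧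
      Mac ss v' := by
  cases h with
  | one x _ v h =>
    cases h with
    | one y _ v h => exact ⟨x, y, v, rfl, rfl, rfl, h⟩
    | two => exact absurd h2 (by simp)
  | two => exact absurd h1 (by simp)

/-- two engaged blocks -/
theorem mac_tt {s s' : BSt Λ} {ss : List (BSt Λ)} {v : List (Let (Λ × Λ))}
    (h : Mac (s :: s' :: ss) v) (h1 : s.lk = true) :
    ∃ φ d x y v', φ ≠ 0 ∧ s.st = none ∧ s'.st = some (φ, d) ∧ s'.lk = false ∧
      runL (phFrom φ) d s.c s'.c = some (cont x, cont y) ∧ v = x :: y :: v' ∧ Mac ss v' := by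
  cases h with
  | one x _ v h => exact absurd h1 (by simp)
  | two a b φ hφ d x y hr _ v h => exact ⟨φ, d, x, y, v, hφ, rfl, rfl, rfl, hr, rfl, h⟩

theorem mac_one' {s : BSt Λ} {x : Let (Λ × Λ)} {ss : List (BSt Λ)} {v : List (Let (Λ × Λ))}
    (hc : s.c = cont x) (hs : s.st = none) (hl : s.lk = false) (h : Mac ss v) :
    Mac (s :: ss) (x :: v) := by
  obtain ⟨c, st, lk⟩ := s
  simp only at hc hs hl
  subst hc hs hl
  exact Mac.one x _ _ h

theorem not_isZ_append {v1 v2 : List (Let (Λ × Λ))} (h : ¬ IsZ step (v1 ++ v2)) :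
    ¬ IsZ step v2 := by
  intro h2
  have := QAlg206.IsZ.context v1 [] h2
  rw [List.append_nil] at this
  exact h this

/-- effect of a forward contact on macro words -/
theorem mac_fwd {s s' : BSt Λ} {ss : List (BSt Λ)} {v : List (Let (Λ × Λ))}
    (h : Mac (s :: s' :: ss) v) (hv : ¬ IsZ step v) {φ : Ph} {d : Data}
    (hl : s.lk = decide (φ ≠ 0)) (hs' : s'.st = cur φ d) (hl' : s'.lk = false) :
    cstep φ d s.c s'.c ≠ none ∧
    ∀ d' c c', cstep φ d s.c s'.c = some (d', c, c') →
      ∃ v', Mac (⟨c, none, decide (φ ≠ 10)⟩ :: ⟨c', nxt φ d', false⟩ :: ss) v' ∧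
        WEq step (some v) (some v') := by
  by_cases h0 : φ = 0
  · subst h0
    obtain ⟨x, y, v', rfl, rfl, rfl, h3⟩ := mac_oo h (by simpa using hl) hl'
    cases hxy : step x y with
    | none => exact absurd (WEq.of_zero [] v' hxy) hv
    | some p =>
      obtain ⟨x', y'⟩ := p
      have hrun := run_eq x y d
      rw [hxy, ← phFrom_zero, runL_phFrom (by decide)] at hrun
      simp only [Option.map_some] at hrun
      refine ⟨fun h4 => by simp only at h4; rw [h4] at hrun; simp at hrun, ?_⟩
      intro d' c c' hcs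
      simp only at hcs
      rw [hcs] at hrun
      simp only [Option.bind_some] at hrun
      refine ⟨x' :: y' :: v', ?_, WEq.of_move [] v' hxy⟩
      exact Mac.two c c' 1 (by decide) d' x' y' hrun ss v' h3
  · obtain ⟨φ', d0, x, y, v', hφ', hs, hs2, hl2, hr, rfl, h3⟩ := mac_tt h (by rw [hl]; simpa using h0)
    rw [hs2] at hs'
    simp only [cur, h0, if_false, Option.some.injEq, Prod.mk.injEq] at hs'
    obtain ⟨rfl, rfl⟩ := hs'
    by_cases h10 : φ' = 10
    · subst h10
      rw [runL_ten] at hr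
      refine ⟨fun h4 => by rw [h4] at hr; simp at hr, ?_⟩
      intro d' c c' hcs
      rw [hcs] at hr
      simp only [Option.map_some, Option.some.injEq, Prod.mk.injEq] at hr
      obtain ⟨rfl, rfl⟩ := hr
      exact ⟨x :: y :: v', Mac.one x _ _ (Mac.one y _ _ h3), WEq.refl _⟩
    · rw [runL_phFrom h10] at hr
      refine ⟨fun h4 => by rw [h4] at hr; simp at hr, ?_⟩
      intro d' c c' hcs
      rw [hcs] at hr
      simp only [Option.bind_some] at hr
      have hne : φ' + 1 ≠ 0 := ph_succ_ne h10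
      refine ⟨x :: y :: v', ?_, WEq.refl _⟩
      have := Mac.two c c' (φ' + 1) hne d' x y hr ss v' h3
      simpa [nxt, h10] using this

/-- effect of a backward contact on macro words -/
theorem mac_bwd [Fintype Λ] {s s' : BSt Λ} {ss : List (BSt Λ)} {v : List (Let (Λ × Λ))}
    (h : Mac (s :: s' :: ss) v) {φ : Ph} {d d' : Data} {c c' : Cont Λ}
    (hl : s.lk = decide (φ ≠ 10)) (hs' : s'.st = nxt φ d') (hl' : s'.lk = false)
    (hcs : cstep φ d c c' = some (d', s.c, s'.c)) :
    ∃ v', Mac (⟨c, none, decide (φ ≠ 0)⟩ :: ⟨c', cur φ d, false⟩ :: ss) v' ∧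
        WEq step (some v') (some v) := by
  by_cases h10 : φ = 10
  · subst h10
    obtain ⟨x, y, v', rfl, rfl, rfl, h3⟩ := mac_oo h (by simpa using hl) hl'
    refine ⟨x :: y :: v', ?_, WEq.refl _⟩
    have hr : runL (phFrom 10) d c c' = some (cont x, cont y) := by
      rw [runL_ten, hcs]; rfl
    exact Mac.two c c' 10 (by decide) d x y hr ss v' h3
  · obtain ⟨φ', d0, x, y, v', hφ', hs, hs2, hl2, hr, rfl, h3⟩ := mac_tt h (by rw [hl]; simpa using h10)
    rw [hs2] at hs'
    simp only [nxt, h10, if_false, Option.some.injEq, Prod.mk.injEq] at hs'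
    obtain ⟨rfl, rfl⟩ := hs'
    have hr' : runL (phFrom φ) d c c' = some (cont x, cont y) := by
      rw [runL_phFrom h10, hcs]; exact hr
    by_cases h0 : φ = 0
    · subst h0
      have hd1 : decode c.h ≠ none := by
        intro hd
        rw [Key309.runL_none _ (ten_mem_phFrom 0) d c c' (Or.inr hd)] at hr'
        simp at hr'
      have hd2 : decode c'.h ≠ none := by
        intro hd
        rw [Key309.runL_none _ (ten_mem_phFrom 0) d c c' (Or.inl hd)] at hr'
        simp at hr'
      obtain ⟨x0, rfl⟩ := exists_cont hd1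
      obtain ⟨y0, rfl⟩ := exists_cont hd2
      rw [phFrom_zero, run_eq] at hr'
      cases hxy : step x0 y0 with
      | none => rw [hxy] at hr'; simp at hr'
      | some p =>
        rw [hxy] at hr'
        simp only [Option.map_some, Option.some.injEq, Prod.mk.injEq] at hr'
        have e1 := cont_inj hr'.1
        have e2 := cont_inj hr'.2
        refine ⟨x0 :: y0 :: v', Mac.one x0 _ _ (Mac.one y0 _ _ h3), ?_⟩
        have hxy' : step x0 y0 = some (x, y) := by rw [hxy, ← e1, ← e2]
        exact WEq.of_move [] v' hxy'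
    · refine ⟨x :: y :: v', ?_, WEq.refl _⟩
      have := Mac.two c c' φ h0 d x y hr' ss v' h3
      simpa [cur, h0] using this

end Crest.Agent.R176.Machine.Snd
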