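import Crest.Agent.R176.Machine.Snd804F
import Crest.Agent.R176.Machine.ConfIn291
import Crest.Agent.R176.Machine.Sim291C

/-!
# Row 176, part A, block (5): nonvanishing (helper804)

`Cfg ss w` : `w` is a concatenation of full blocks in the abstract states `ss`.
`not_isZ_cfg` : `Cfg ss w`, `Mac ss v`, `v` nonzero imply that `w` is nonzero.
`exists_nonzero` : nonzero words of unbounded length.
-/

set_option autoImplicit false

namespace Crest.Agent.R176.Machine.Snd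

open Crest.Agent.R176.Machine
open Crest.Agent.R176.QAlg206 (WEq IsZ Mv)

variable {Λ : Type} [DecidableEq Λ] [LabelSys Λ] [Fintype Λ]

/-- a concatenation of full blocks -/
inductive Cfg : List (BSt Λ) → List (Let Λ) → Prop
  | nil : Cfg [] []
  | cons (s : BSt Λ) (B : List (Let Λ)) (ss : List (BSt Λ)) (W : List (Let Λ)) (hB : Conf s B)
      (h : Cfg ss W) : Cfg (s :: ss) (B ++ W)

theorem cfg_append {ss ss' : List (BSt Λ)} {W W' : List (Let Λ)} (h : Cfg ss W)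
    (h' : Cfg ss' W') : Cfg (ss ++ ss') (W ++ W') := by
  induction h with
  | nil => simpa using h'
  | cons s B ss W hB h ih =>
    rw [List.cons_append, List.append_assoc]
    exact Cfg.cons s B _ _ hB ih

theorem conf_cons {s : BSt Λ} {B : List (Let Λ)} (h : Conf s B) : ∃ x B', B = x :: B' := by
  obtain ⟨w, a, e, b, o, P, U, rfl, -⟩ := h
  exact ⟨_, _, rfl⟩

theorem cfg_cons {ss : List (BSt Λ)} {W : List (Let Λ)} (h : Cfg ss W) {y : Let Λ}
    {q : List (Let Λ)} (hW : W = y :: q) :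
    ∃ s ss2 q' W2, ss = s :: ss2 ∧ Conf s (y :: q') ∧ Cfg ss2 W2 ∧ q = q' ++ W2 := by
  cases h with
  | nil => simp at hW
  | cons s B ss W hB h =>
    obtain ⟨x, B', rfl⟩ := conf_cons hB
    simp only [List.cons_append, List.cons.injEq] at hW
    obtain ⟨rfl, rfl⟩ := hW
    exact ⟨s, ss, B', W, rfl, hB, h, rfl⟩

theorem cfg_split {ss : List (BSt Λ)} {W : List (Let Λ)} (h : Cfg ss W) :
    ∀ p x y q, W = p ++ x :: y :: q →
    (∃ ss1 s ss2 W1 p' q' W2, ss = ss1 ++ s :: ss2 ∧ Cfg ss1 W1 ∧ Cfg ss2 W2 ∧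
      Conf s (p' ++ x :: y :: q') ∧ p = W1 ++ p' ∧ q = q' ++ W2) ∨
    (∃ ss1 s s' ss2 W1 p' q' W2, ss = ss1 ++ s :: s' :: ss2 ∧ Cfg ss1 W1 ∧ Cfg ss2 W2 ∧
      Conf s (p' ++ [x]) ∧ Conf s' (y :: q') ∧ p = W1 ++ p' ∧ q = q' ++ W2) := by
  induction h with
  | nil => intro p x y q h; simp at h
  | cons s B ss W hB h ih =>
    intro p x y q heq
    have key : ∀ a', p = B ++ a' → W = a' ++ x :: y :: q →
        (∃ ss1 s' ss2 W1 p' q' W2, s :: ss = ss1 ++ s' :: ss2 ∧ Cfg ss1 W1 ∧ Cfg ss2 W2 ∧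
          Conf s' (p' ++ x :: y :: q') ∧ p = W1 ++ p' ∧ q = q' ++ W2) ∨
        (∃ ss1 s1 s' ss2 W1 p' q' W2, s :: ss = ss1 ++ s1 :: s' :: ss2 ∧ Cfg ss1 W1 ∧ Cfg ss2 W2 ∧
          Conf s1 (p' ++ [x]) ∧ Conf s' (y :: q') ∧ p = W1 ++ p' ∧ q = q' ++ W2) := by
      intro a' hp hW
      rcases ih a' x y q hW with ⟨ss1, s1, ss2, W1, p', q', W2, h1, h2, h3, h4, h5, h6⟩ |
        ⟨ss1, s1, s2, ss2, W1, p', q', W2, h1, h2, h3, h4, h5, h6, h7⟩
      · exact Or.inl ⟨s :: ss1, s1, ss2, B ++ W1, p', q', W2, by rw [h1]; rfl,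
          Cfg.cons s B _ _ hB h2, h3, h4, by rw [hp, h5, List.append_assoc], h6⟩
      · exact Or.inr ⟨s :: ss1, s1, s2, ss2, B ++ W1, p', q', W2, by rw [h1]; rfl,
          Cfg.cons s B _ _ hB h2, h3, h4, h5, by rw [hp, h6, List.append_assoc], h7⟩
    rcases List.append_eq_append_iff.1 heq with ⟨a', hp, hW⟩ | ⟨c', hB', hc⟩
    · exact key a' hp hW
    · rcases c' with _ | ⟨x1, _ | ⟨y1, c'⟩⟩
      · exact key [] (by simpa using hB'.symm) (by simpa using hc.symm)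
      · simp only [List.cons_append, List.nil_append, List.cons.injEq] at hc
        obtain ⟨rfl, rfl⟩ := hc
        right
        obtain ⟨s2, ss2, q', W2, rfl, h2, h3, rfl⟩ := cfg_cons h rfl
        subst hB'
        exact ⟨[], s, s2, ss2, [], p, q', W2, rfl, Cfg.nil, h3, hB, h2, rfl, rfl⟩
      · simp only [List.cons_append, List.cons.injEq] at hc
        obtain ⟨rfl, rfl, rfl⟩ := hc
        left
        subst hB'
        exact ⟨[], s, ss, [], p, c', W, rfl, Cfg.nil, h, hB, rfl, rfl⟩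

theorem cfg_mk {ss1 ss2 : List (BSt Λ)} {s : BSt Λ} {W1 W2 B : List (Let Λ)} (h1 : Cfg ss1 W1)
    (hB : Conf s B) (h2 : Cfg ss2 W2) : Cfg (ss1 ++ s :: ss2) (W1 ++ (B ++ W2)) :=
  cfg_append h1 (Cfg.cons s B _ _ hB h2)

theorem cfg_mk2 {ss1 ss2 : List (BSt Λ)} {s s' : BSt Λ} {W1 W2 B B' : List (Let Λ)}
    (h1 : Cfg ss1 W1) (hB : Conf s B) (hB' : Conf s' B') (h2 : Cfg ss2 W2) :
    Cfg (ss1 ++ s :: s' :: ss2) (W1 ++ (B ++ (B' ++ W2))) :=
  cfg_append h1 (Cfg.cons s B _ _ hB (Cfg.cons s' B' _ _ hB' h2))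

/-- the closed predicate: `w` represents the nonzero macro word `v` -/
def Rep (w : List (Let Λ)) : Prop :=
  ∃ (ss : List (BSt Λ)) (v : List (Let (Λ × Λ))), Cfg ss w ∧ Mac ss v ∧ ¬ IsZ step v

theorem not_isZ_of_WEq {v v' : List (Let (Λ × Λ))} (h : WEq step (some v) (some v'))
    (hv : ¬ IsZ step v) : ¬ IsZ step v' := fun h' => hv (WEq.trans h h')

theorem rep_fwd {p s : List (Let Λ)} {a b a' b' : Let Λ} (hst : step a b = some (a', b'))
    (h : Rep (p ++ a :: b :: s)) : Rep (p ++ a' :: b' :: s) := by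
  obtain ⟨ss, v, hc, hm, hv⟩ := h
  rcases cfg_split hc p a b s rfl with ⟨ss1, t, ss2, W1, p', q', W2, rfl, h1, h2, h3, rfl, rfl⟩ |
    ⟨ss1, t, t', ss2, W1, p', q', W2, rfl, h1, h2, h3, h4, rfl, rfl⟩
  · refine ⟨_, v, ?_, hm, hv⟩
    have := cfg_mk h1 (conf_forward h3 hst) h2
    simpa using this
  · have hl := mac_adj hm ss1 t t' ss2 rfl
    rcases bnd_fwd h3 h4 hl with h5 | ⟨φ, d, e1, e2, e3, e4, ⟨-, h5⟩ |
        ⟨d', c, c', x', y', h5, h6, h7, h8⟩⟩
    · rw [h5] at hst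
      simp only [Option.some.injEq, Prod.mk.injEq] at hst
      obtain ⟨rfl, rfl⟩ := hst
      exact ⟨_, v, hc, hm, hv⟩
    · rw [h5] at hst; exact absurd hst (by simp)
    · rw [h6] at hst
      simp only [Option.some.injEq, Prod.mk.injEq] at hst
      obtain ⟨rfl, rfl⟩ := hst
      obtain ⟨v1, v2, rfl, hm1, hm2⟩ := mac_split hm ss1 t (t' :: ss2) rfl e1
      obtain ⟨-, h9⟩ := mac_fwd hm2 (not_isZ_append hv) e2 e3 e4
      obtain ⟨v', h10, h11⟩ := h9 d' c c' h5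
      refine ⟨_, v1 ++ v', ?_, mac_append hm1 h10, ?_⟩
      · have := cfg_mk2 h1 h7 h8 h2
        simpa using this
      · refine not_isZ_of_WEq ?_ hv
        exact WEq.append (WEq.refl _) h11

theorem rep_bwd {p s : List (Let Λ)} {a b a' b' : Let Λ} (hst : step a b = some (a', b'))
    (h : Rep (p ++ a' :: b' :: s)) : Rep (p ++ a :: b :: s) := by
  obtain ⟨ss, v, hc, hm, hv⟩ := h
  rcases cfg_split hc p a' b' s rfl with ⟨ss1, t, ss2, W1, p', q', W2, rfl, h1, h2, h3, rfl, rfl⟩ |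
    ⟨ss1, t, t', ss2, W1, p', q', W2, rfl, h1, h2, h3, h4, rfl, rfl⟩
  · refine ⟨_, v, ?_, hm, hv⟩
    have := cfg_mk h1 (conf_backward h3 hst) h2
    simpa using this
  · have hl := mac_adj hm ss1 t t' ss2 rfl
    rcases bnd_bwd h3 h4 hl hst with ⟨rfl, rfl⟩ | ⟨φ, d, d', c, c', e1, e2, e3, e4, h5, h6, h7⟩
    · exact ⟨_, v, hc, hm, hv⟩
    · obtain ⟨v1, v2, rfl, hm1, hm2⟩ := mac_split hm ss1 t (t' :: ss2) rfl e1
      obtain ⟨v', h10, h11⟩ := mac_bwd hm2 e2 e3 e4 h5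
      refine ⟨_, v1 ++ v', ?_, mac_append hm1 h10, ?_⟩
      · have := cfg_mk2 h1 h6 h7 h2
        simpa using this
      · refine not_isZ_of_WEq ?_ hv
        exact WEq.append (WEq.refl _) h11.symm

theorem rep_ne {p s : List (Let Λ)} {a b : Let Λ} (hst : step a b = none) :
    ¬ Rep (p ++ a :: b :: s) := by
  rintro ⟨ss, v, hc, hm, hv⟩
  rcases cfg_split hc p a b s rfl with ⟨ss1, t, ss2, W1, p', q', W2, rfl, h1, h2, h3, rfl, rfl⟩ |
    ⟨ss1, t, t', ss2, W1, p', q', W2, rfl, h1, h2, h3, h4, rfl, rfl⟩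
  · exact conf_step_ne_none h3 hst
  · have hl := mac_adj hm ss1 t t' ss2 rfl
    rcases bnd_fwd h3 h4 hl with h5 | ⟨φ, d, e1, e2, e3, e4, ⟨h6, h5⟩ |
        ⟨d', c, c', x', y', h5, h6, h7, h8⟩⟩
    · rw [h5] at hst; exact absurd hst (by simp)
    · obtain ⟨v1, v2, rfl, hm1, hm2⟩ := mac_split hm ss1 t (t' :: ss2) rfl e1
      exact (mac_fwd hm2 (not_isZ_append hv) e2 e3 e4).1 h6
    · rw [h6] at hst; exact absurd hst (by simp)

/-- **soundness**: a word which represents a nonzero macro word is nonzero -/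
theorem not_isZ_rep {w : List (Let Λ)} (h : Rep w) : ¬ IsZ step w :=
  not_isZ_of_closed Rep (fun _ _ _ _ _ _ hst => ⟨rep_fwd hst, rep_bwd hst⟩)
    (fun _ _ _ _ hst => rep_ne hst) h

theorem conf_PhiL (x : Let (Λ × Λ)) : Conf ⟨cont x, none, false⟩ (Sim.PhiL x) := by
  refine ⟨.w0, z, .home, z, none, [], Sim.bagL .f (cont x), rfl, Own.rest false, ?_, by simp⟩
  simp only [List.nil_append, bagM, Sim.bagL, Sim.xsL]
  rw [← Multiset.cons_coe, ← Multiset.cons_coe, ← Multiset.cons_coe]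
  simp only [letH, letY, hmark, Cont.get, reduceCtorEq, if_false, Bool.false_eq_true]
  rw [← Multiset.map_coe, Finset.coe_toList]

theorem cfg_Phi (v : List (Let (Λ × Λ))) :
    ∃ ss : List (BSt Λ), Cfg ss (Sim.Phi v) ∧ Mac ss v := by
  induction v with
  | nil => exact ⟨[], Cfg.nil, Mac.nil⟩
  | cons x v ih =>
    obtain ⟨ss, h1, h2⟩ := ih
    refine ⟨⟨cont x, none, false⟩ :: ss, ?_, Mac.one x _ _ h2⟩
    have : Sim.Phi (x :: v) = Sim.PhiL x ++ Sim.Phi v := by simp [Sim.Phi]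
    rw [this]
    exact Cfg.cons _ _ _ _ (conf_PhiL x) h1

/-- the simulation map does not kill nonzero words -/
theorem not_isZ_Phi {v : List (Let (Λ × Λ))} (hv : ¬ IsZ step v) : ¬ IsZ step (Sim.Phi v) := by
  obtain ⟨ss, h1, h2⟩ := cfg_Phi v
  exact not_isZ_rep ⟨ss, v, h1, h2, hv⟩

theorem length_Phi (v : List (Let (Λ × Λ))) :
    (Sim.Phi v).length = v.length * (Fintype.card Λ + 5) := by
  induction v with
  | nil => simp [Sim.Phi]
  | cons x v ih =>
    have : Sim.Phi (x :: v) = Sim.PhiL x ++ Sim.Phi v := by simp [Sim.Phi]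
    rw [this, List.length_append, ih, Sim.length_PhiL, List.length_cons]
    ring

/-- a letter is nonzero -/
theorem not_isZ_single {L : Type} (st : L → L → Option (L × L)) (x : L) : ¬ IsZ st [x] := by
  refine not_isZ_of_closed (fun w => w = [x]) ?_ ?_ rfl
  · intro p s a b a' b' _
    constructor <;> intro h <;> have := congrArg List.length h <;> simp at this <;> omega
  · intro p s a b _ h
    have := congrArg List.length h
    simp at this
    omega

/-- **nonzero words of unbounded length** -/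
theorem exists_nonzero (n : ℕ) : ∀ (Λ : Type) [DecidableEq Λ] [LabelSys Λ] [Fintype Λ],
    ∃ w : List (Let Λ), n ≤ w.length ∧ ¬ IsZ step w := by
  induction n with
  | zero =>
    intro Λ _ _ _
    exact ⟨[(.W .w0, z)], by simp, not_isZ_single _ _⟩
  | succ n ih =>
    intro Λ _ _ _
    obtain ⟨v, h1, h2⟩ := ih (Λ × Λ)
    by_cases hn : v = []
    · refine ⟨[(.W .w0, z)], ?_, not_isZ_single _ _⟩
      rw [hn] at h1
      simp only [List.length_nil] at h1
      simp; omega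
    · refine ⟨Sim.Phi v, ?_, not_isZ_Phi h2⟩
      rw [length_Phi]
      have : 0 < v.length := List.length_pos_iff.2 hn
      nlinarith

end Crest.Agent.R176.Machine.Snd
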