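import Crest.Agent.R176.Gen.Basic
import Crest.Agent.R176.Machine.Run

/-!
# Row 176, part A: soundness by a transducer model (helper655), part A

Values of contents in a model of the next level, the run on contents without code.
-/

set_option autoImplicit false

namespace Crest.Agent.R176.Machine.Trans

open Crest.Agent.R176 Crest.Agent.R176.Machine

variable {Λ : Type} [DecidableEq Λ] [LabelSys Λ]

theorem ph_cases (φ : Ph) (h : φ ≠ 10) :
    φ.val < 6 ∨ φ = 6 ∨ φ = 7 ∨ φ = 8 ∨ φ = 9 := by
  revert φ; decide

theorem cstep_h {φ : Ph} (hφ : φ ≠ 10) {d d' : Data} {a b a' b' : Cont Λ}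
    (h : cstep φ d a b = some (d', a', b')) : a'.h = a.h ∧ b'.h = b.h := by
  rcases ph_cases φ hφ with h6 | rfl | rfl | rfl | rfl
  · rw [cstep_lt6 h6] at h
    simp only [Option.some.injEq, Prod.mk.injEq] at h
    obtain ⟨_, rfl, rfl⟩ := h
    exact ⟨rfl, rfl⟩
  · rw [cstep_6] at h
    simp only [Option.some.injEq, Prod.mk.injEq] at h
    obtain ⟨_, rfl, rfl⟩ := h
    exact ⟨rfl, rfl⟩
  · rw [cstep_7] at h
    simp only [Option.some.injEq, Prod.mk.injEq] at h
    obtain ⟨_, rfl, rfl⟩ := h
    exact ⟨rfl, rfl⟩
  · rw [cstep_8] at h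
    simp only [Option.map_eq_some_iff, Prod.mk.injEq] at h
    obtain ⟨q, _, _, rfl, rfl⟩ := h
    exact ⟨rfl, rfl⟩
  · rw [cstep_9] at h
    by_cases hb : bit d = true
    · rw [if_pos hb] at h
      simp only [Option.some.injEq, Prod.mk.injEq] at h
      obtain ⟨_, rfl, rfl⟩ := h
      exact ⟨rfl, rfl⟩
    · rw [if_neg hb] at h
      cases hi : (instr d).2 with
      | APP j =>
        rw [hi] at h
        by_cases h2 : a.y2 ≠ z ∨ b.y2 ≠ z
        · simp only [h2, if_true] at h
          exact absurd h (by simp)
        · simp only [h2, if_false] at h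
          simp only [Option.some.injEq, Prod.mk.injEq] at h
          obtain ⟨_, rfl, rfl⟩ := h
          exact ⟨rfl, rfl⟩
      | ID =>
        rw [hi] at h
        simp only [Option.map_eq_some_iff, Prod.mk.injEq] at h
        obtain ⟨q, _, _, rfl, rfl⟩ := h
        exact ⟨rfl, rfl⟩
      | SW =>
        rw [hi] at h
        simp only [Option.map_eq_some_iff, Prod.mk.injEq] at h
        obtain ⟨q, _, _, rfl, rfl⟩ := h
        exact ⟨rfl, rfl⟩
      | ER =>
        rw [hi] at h
        simp only [Option.map_eq_some_iff, Prod.mk.injEq] at h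
        obtain ⟨q, _, _, rfl, rfl⟩ := h
        exact ⟨rfl, rfl⟩

theorem cstep_10_none {d : Data} {a b : Cont Λ} (h : decode a.h = none ∨ decode b.h = none) :
    cstep 10 d a b = none := by
  rw [cstep_10]
  simp only [AC.eval]
  rcases h with h | h
  · rw [h]; rfl
  · rw [h]; cases decode a.h <;> rfl

theorem runL_none (l : List Ph) (hl : ∀ φ ∈ l, φ ≠ 10) (d : Data) (a b : Cont Λ)
    (h : decode a.h = none ∨ decode b.h = none) : runL (l ++ [10]) d a b = none := by
  induction l generalizing d a b with
  | nil =>
    simp only [List.nil_append, runL]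
    rw [cstep_10_none h]; rfl
  | cons φ l ih =>
    simp only [List.cons_append, runL]
    cases hc : cstep φ d a b with
    | none => rfl
    | some p =>
      obtain ⟨d', a', b'⟩ := p
      simp only [Option.bind_some]
      have := cstep_h (hl φ (by simp)) hc
      apply ih (fun ψ hψ => hl ψ (by simp [hψ]))
      rw [this.1, this.2]
      exact h

/-- a block whose `H` label is not a code cannot take part in a complete run -/
theorem run_none (d : Data) (a b : Cont Λ)
    (h : decode a.h = none ∨ decode b.h = none) : runL allPh d a b = none := by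
  have : allPh = [0, 1, 2, 3, 4, 5, 6, 7, 8, 9] ++ [10] := rfl
  rw [this]
  exact runL_none _ (by decide) d a b h

section val
variable {S' : Type*} [MonoidWithZero S'] (m' : Gen.Model (step (Λ := Λ × Λ)) S')

/-- value of a content -/
def lt (c : Cont Λ) : S' :=
  match decode c.h with
  | some κ => m'.f (κ, (c.y1, c.y2))
  | none => 0

/-- value of an optional pair of contents -/
def lts (o : Option (Cont Λ × Cont Λ)) : S' :=
  match o with
  | some p => lt m' p.1 * lt m' p.2
  | none => 0

@[simp] theorem lts_none : lts m' none = 0 := rfl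
@[simp] theorem lts_some (p : Cont Λ × Cont Λ) : lts m' (some p) = lt m' p.1 * lt m' p.2 := rfl

theorem lt_cont (x : Let (Λ × Λ)) : lt m' (cont x) = m'.f x := by
  obtain ⟨κ, a, b⟩ := x
  simp [lt, cont, LabelSys.decode_code]

/-- the whole run does not change the value -/
theorem lts_run (d : Data) (a b : Cont Λ) : lts m' (runL allPh d a b) = lt m' a * lt m' b := by
  cases ha : decode a.h with
  | none =>
    rw [run_none d a b (Or.inl ha)]
    simp [lt, ha]
  | some κ =>
    cases hb : decode b.h with
    | none =>
      rw [run_none d a b (Or.inr hb)]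
      simp [lt, hb]
    | some κ' =>
      have h1 : a = cont (κ, (a.y1, a.y2)) := by
        ext
        · exact LabelSys.code_decode _ _ ha
        · rfl
        · rfl
      have h2 : b = cont (κ', (b.y1, b.y2)) := by
        ext
        · exact LabelSys.code_decode _ _ hb
        · rfl
        · rfl
      rw [h1, h2, run_eq, lt_cont, lt_cont, m'.rel]
      cases step (κ, a.y1, a.y2) (κ', b.y1, b.y2) with
      | none => rfl
      | some p => simp [lt_cont]

end val

end Crest.Agent.R176.Machine.Trans
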