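import Crest.Agent.R176.Machine.Trans655A

/-!
# Row 176, part A: soundness by a transducer model (helper655), part B: states and transitions
-/

set_option autoImplicit false
set_option linter.unusedSectionVars false

namespace Crest.Agent.R176.Machine.Trans

open Crest.Agent.R176 Crest.Agent.R176.Machine

/-- partial maps with Kleisli composition (first factor first) -/
def Act (Ω : Type*) := Ω → Option Ω

instance (Ω : Type*) : MonoidWithZero (Act Ω) where
  mul f g := fun ω => (f ω).bind g
  one := some
  zero := fun _ => none
  mul_assoc f g h := by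
    funext ω
    show ((f ω).bind g).bind h = (f ω).bind fun x => (g x).bind h
    exact Option.bind_assoc _ _ _
  one_mul f := by funext ω; rfl
  mul_one f := by
    funext ω
    show (f ω).bind some = f ω
    cases f ω <;> rfl
  zero_mul f := by funext ω; rfl
  mul_zero f := by
    funext ω
    show (f ω).bind (fun _ => none) = none
    cases f ω <;> rfl

theorem Act.mul_apply {Ω : Type*} (f g : Act Ω) (ω : Ω) : (f * g) ω = (f ω).bind g := rfl
theorem Act.one_apply {Ω : Type*} (ω : Ω) : (1 : Act Ω) ω = some ω := rfl
theorem Act.zero_apply {Ω : Type*} (ω : Ω) : (0 : Act Ω) ω = none := rfl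

/-- states of a block after its head has been read (without the record of the letters read) -/
inductive Af (Λ : Type) (S' : Type*)
  | idl (v : S') (c : Cont Λ)
  | lk (v : S') (c : Cont Λ)
  | fr (F : Cont Λ → S')
  | out (φ : Ph) (F : Cont Λ → S')

/-- the same with the record of the letters read -/
@[ext] structure Afs (Λ : Type) (S' : Type*) where
  σ : Af Λ S'
  sx : Finset Λ
  sh : Bool
  s0 : Bool
  s1 : Bool

/-- state after a complete block -/
inductive Prev (Λ : Type) (S' : Type*)
  | full (v : S')
  | lk (v : S') (a : Cont Λ)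

/-- the states of the reader -/
inductive State (Λ : Type) (S' : Type*)
  | wl (p : Prev Λ S') (w : WK) (r : Λ) (P : Multiset (BK × Λ))
  | pn (φ : Ph) (F : Cont Λ → S')
  | af (a : Afs Λ S')

variable {Λ : Type} {S' : Type*}

/-- is the last block locked -/
def Prev.isLk : Prev Λ S' → Bool
  | .full _ => false
  | .lk _ _ => true

/-- the value before -/
def Prev.v : Prev Λ S' → S'
  | .full v => v
  | .lk v _ => v

/-- slots -/
inductive Slot (Λ : Type)
  | X (a : Λ)
  | H
  | Y (j : Bool)

/-- slot of a bag letter -/
def slot : BK × Λ → Slot Λ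
  | (.X, a) => .X a
  | (.H _, _) => .H
  | (.Y j _, _) => .Y j

/-- passed letters may follow this wall -/
def pas : WK → Bool
  | .w0 => false
  | .C _ _ => false
  | .D _ _ => false
  | _ => true

/-- the head `(e, a)` passes the letter `x` -/
def passes [DecidableEq Λ] (e : EK) (a : Λ) (x : BK × Λ) : Bool :=
  e.moving && cons e x.1 &&
    (if e.target = some x.1.ty then (decide (x.1 = .X) && decide (a ≠ x.2)) else true)

/-- start record -/
def start (σ : Af Λ S') : Afs Λ S' := ⟨σ, ∅, false, false, false⟩

variable [DecidableEq Λ] [LabelSys Λ] [MonoidWithZero S'] (m' : Gen.Model (step (Λ := Λ × Λ)) S')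

/-- dead states -/
def Af.dead : Af Λ S' → Prop
  | .idl v _ => v = 0
  | .lk v _ => v = 0
  | .fr F => ∀ c, F c = 0
  | .out _ F => ∀ c, F c = 0

/-- dead states -/
def State.dead : State Λ S' → Prop
  | .wl p _ _ _ => p.v = 0
  | .pn _ F => ∀ c, F c = 0
  | .af a => a.σ.dead

/-- reading the letter `H` -/
def rdH (s0 s1 : Bool) (σ : Af Λ S') (m : HM) (b : Λ) : Option (Af Λ S') :=
  match σ, m with
  | .idl v c, .f => some (.fr fun c' => v * lt m' ⟨b, if s0 then c.y1 else c'.y1,
      if s1 then c.y2 else c'.y2⟩)
  | .idl v c, .l => some (.lk v (c.set .H b))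
  | .fr F, .b => some (.fr fun c => F (c.set .H b))
  | .out φ F, .o => if tz φ = .H ∧ b = z then some (.fr F) else none
  | .out φ F, .b => if tz φ = .H then none else some (.out φ fun c => F (c.set .H b))
  | _, _ => none

/-- reading a letter `Y j` -/
def rdY (σ : Af Λ S') (j o : Bool) (b : Λ) : Option (Af Λ S') :=
  match σ, o with
  | .idl v c, false => some (.idl v (c.set (.Y j) b))
  | .lk v c, false => some (.lk v (c.set (.Y j) b))
  | .fr F, false => some (.fr fun c => F (c.set (.Y j) b))
  | .out φ F, true => if tz φ = .Y j ∧ b = z then some (.fr F) else none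
  | .out φ F, false => if tz φ = .Y j then none else some (.out φ fun c => F (c.set (.Y j) b))
  | _, _ => none

/-- reading an unpassed bag letter -/
def rd (a : Afs Λ S') (x : BK × Λ) : Option (Afs Λ S') :=
  match x with
  | (.X, t) => if t ∈ a.sx then none else some { a with sx := insert t a.sx }
  | (.H m, b) => if a.sh then none else
      (rdH m' a.s0 a.s1 a.σ m b).map fun σ' => { a with σ := σ', sh := true }
  | (.Y false o, b) => if a.s0 then none else
      (rdY a.σ false o b).map fun σ' => { a with σ := σ', s0 := true }
  | (.Y true o, b) => if a.s1 then none else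
      (rdY a.σ true o b).map fun σ' => { a with σ := σ', s1 := true }

theorem set_H_Y (c : Cont Λ) (j : Bool) (b b' : Λ) :
    (c.set .H b).set (.Y j) b' = (c.set (.Y j) b').set .H b := by
  cases j <;> rfl

theorem set_Y_Y (c : Cont Λ) (b b' : Λ) :
    (c.set (.Y false) b).set (.Y true) b' = (c.set (.Y true) b').set (.Y false) b := rfl

theorem tz_ne_X (φ : Ph) : tz φ ≠ .X := by revert φ; decide

theorem rdYY (σ : Af Λ S') (o : Bool) (b : Λ) (o' : Bool) (b' : Λ) :
    (rdY σ false o b).bind (fun σ => rdY σ true o' b') =
      (rdY σ true o' b').bind (fun σ => rdY σ false o b) := by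
  cases σ with
  | idl v c => cases o <;> cases o' <;> rfl
  | lk v c => cases o <;> cases o' <;> rfl
  | fr F => cases o <;> cases o' <;> rfl
  | out φ F =>
    rcases h : tz φ with _ | _ | j
    · exact absurd h (tz_ne_X φ)
    · cases o <;> cases o' <;> simp [rdY, h, set_Y_Y]
    · cases j <;> cases o <;> cases o' <;> simp [rdY, h] <;> split_ifs <;> simp [rdY, h, *]

theorem rdHY0 (s1 : Bool) (σ : Af Λ S') (m : HM) (b : Λ) (o : Bool) (b' : Λ) :
    (rdH m' false s1 σ m b).bind (fun σ => rdY σ false o b') =
      (rdY σ false o b').bind (fun σ => rdH m' true s1 σ m b) := by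
  cases σ with
  | idl v c => cases o <;> cases m <;> rfl
  | lk v c => cases o <;> cases m <;> rfl
  | fr F => cases o <;> cases m <;> rfl
  | out φ F =>
    rcases h : tz φ with _ | _ | j
    · exact absurd h (tz_ne_X φ)
    · cases o <;> cases m <;> simp [rdY, rdH, h] <;> split_ifs <;> simp [rdY, rdH, h, *]
    · cases j <;> cases o <;> cases m <;> simp [rdY, rdH, h, set_H_Y] <;>
        (try split_ifs) <;> (try simp [rdY, rdH, h, *])

theorem rdHY1 (s0 : Bool) (σ : Af Λ S') (m : HM) (b : Λ) (o : Bool) (b' : Λ) :
    (rdH m' s0 false σ m b).bind (fun σ => rdY σ true o b') =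
      (rdY σ true o b').bind (fun σ => rdH m' s0 true σ m b) := by
  cases σ with
  | idl v c => cases o <;> cases m <;> rfl
  | lk v c => cases o <;> cases m <;> rfl
  | fr F => cases o <;> cases m <;> rfl
  | out φ F =>
    rcases h : tz φ with _ | _ | j
    · exact absurd h (tz_ne_X φ)
    · cases o <;> cases m <;> simp [rdY, rdH, h] <;> split_ifs <;> simp [rdY, rdH, h, *]
    · cases j <;> cases o <;> cases m <;> simp [rdY, rdH, h, set_H_Y] <;>
        (try split_ifs) <;> (try simp [rdY, rdH, h, *])

/-- slots which are full -/
def Afs.has (a : Afs Λ S') : Slot Λ → Prop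
  | .X t => t ∈ a.sx
  | .H => a.sh = true
  | .Y false => a.s0 = true
  | .Y true => a.s1 = true

theorem rd_has {a a' : Afs Λ S'} {x : BK × Λ} (h : rd m' a x = some a') :
    ¬ a.has (slot x) ∧ a'.has (slot x) ∧ ∀ s, a'.has s → a.has s ∨ s = slot x := by
  obtain ⟨k, b⟩ := x
  cases k with
  | X =>
    simp only [rd] at h
    split_ifs at h with h1
    simp only [Option.some.injEq] at h
    subst h
    refine ⟨h1, by simp [Afs.has, slot], ?_⟩
    rintro (t | _ | j) hs
    · simp only [Afs.has, Finset.mem_insert] at hs
      rcases hs with rfl | hs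
      · right; rfl
      · left; exact hs
    · left; exact hs
    · left; cases j <;> exact hs
  | H m =>
    simp only [rd] at h
    split_ifs at h with h1
    simp only [Option.map_eq_some_iff] at h
    obtain ⟨σ', _, rfl⟩ := h
    refine ⟨by simpa [slot, Afs.has] using h1, rfl, ?_⟩
    rintro (t | _ | j) hs
    · left; exact hs
    · right; rfl
    · left; cases j <;> exact hs
  | Y j o =>
    cases j with
    | false =>
      simp only [rd] at h
      split_ifs at h with h1
      simp only [Option.map_eq_some_iff] at h
      obtain ⟨σ', _, rfl⟩ := h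
      refine ⟨by simpa [slot, Afs.has] using h1, rfl, ?_⟩
      rintro (t | _ | j) hs
      · left; exact hs
      · left; exact hs
      · cases j
        · right; rfl
        · left; exact hs
    | true =>
      simp only [rd] at h
      split_ifs at h with h1
      simp only [Option.map_eq_some_iff] at h
      obtain ⟨σ', _, rfl⟩ := h
      refine ⟨by simpa [slot, Afs.has] using h1, rfl, ?_⟩
      rintro (t | _ | j) hs
      · left; exact hs
      · left; exact hs
      · cases j
        · left; exact hs
        · right; rfl

theorem rd_mono {a a' : Afs Λ S'} {x : BK × Λ} (h : rd m' a x = some a') (s : Slot Λ)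
    (hs : a.has s) : a'.has s := by
  obtain ⟨k, b⟩ := x
  cases k with
  | X =>
    simp only [rd] at h
    split_ifs at h with h1
    simp only [Option.some.injEq] at h
    subst h
    cases s with
    | X t => simp only [Afs.has, Finset.mem_insert] at *; right; exact hs
    | H => exact hs
    | Y j => cases j <;> exact hs
  | H m =>
    simp only [rd] at h
    split_ifs at h with h1
    simp only [Option.map_eq_some_iff] at h
    obtain ⟨σ', _, rfl⟩ := h
    cases s with
    | X t => exact hs
    | H => rfl
    | Y j => cases j <;> exact hs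
  | Y j o =>
    cases j with
    | false =>
      simp only [rd] at h
      split_ifs at h with h1
      simp only [Option.map_eq_some_iff] at h
      obtain ⟨σ', _, rfl⟩ := h
      cases s with
      | X t => exact hs
      | H => exact hs
      | Y j => cases j with
        | false => rfl
        | true => exact hs
    | true =>
      simp only [rd] at h
      split_ifs at h with h1
      simp only [Option.map_eq_some_iff] at h
      obtain ⟨σ', _, rfl⟩ := h
      cases s with
      | X t => exact hs
      | H => exact hs
      | Y j => cases j with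
        | false => exact hs
        | true => rfl

/-- the same slot cannot be read twice -/
theorem rd_same (a : Afs Λ S') {x y : BK × Λ} (h : slot x = slot y) :
    (rd m' a x).bind (fun a => rd m' a y) = none := by
  cases h1 : rd m' a x with
  | none => rfl
  | some a' =>
    simp only [Option.bind_some]
    cases h2 : rd m' a' y with
    | none => rfl
    | some a'' => exact absurd (h ▸ (rd_has m' h1).2.1) (rd_has m' h2).1

theorem rd_comm_HY0 (a : Afs Λ S') (m : HM) (b : Λ) (o : Bool) (b' : Λ) :
    (rd m' a (.H m, b)).bind (fun a => rd m' a (.Y false o, b')) =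
      (rd m' a (.Y false o, b')).bind (fun a => rd m' a (.H m, b)) := by
  obtain ⟨σ, sx, sh, s0, s1⟩ := a
  cases sh with
  | true => rcases h : rdY σ false o b' with _ | σ' <;> cases s0 <;> simp [rd, h]
  | false =>
    cases s0 with
    | true => rcases h : rdH m' true s1 σ m b with _ | σ' <;> simp [rd, h]
    | false =>
      have e1 : (rd m' ⟨σ, sx, false, false, s1⟩ (.H m, b)).bind
          (fun a => rd m' a (.Y false o, b')) =
          ((rdH m' false s1 σ m b).bind (fun σ => rdY σ false o b')).map
            fun σ' => (⟨σ', sx, true, true, s1⟩ : Afs Λ S') := by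
        rcases h : rdH m' false s1 σ m b with _ | σ' <;> simp [rd, h]
      have e2 : (rd m' ⟨σ, sx, false, false, s1⟩ (.Y false o, b')).bind
          (fun a => rd m' a (.H m, b)) =
          ((rdY σ false o b').bind (fun σ => rdH m' true s1 σ m b)).map
            fun σ' => (⟨σ', sx, true, true, s1⟩ : Afs Λ S') := by
        rcases h : rdY σ false o b' with _ | σ' <;> simp [rd, h]
      rw [e1, e2, rdHY0]

theorem rd_comm_HY1 (a : Afs Λ S') (m : HM) (b : Λ) (o : Bool) (b' : Λ) :
    (rd m' a (.H m, b)).bind (fun a => rd m' a (.Y true o, b')) =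
      (rd m' a (.Y true o, b')).bind (fun a => rd m' a (.H m, b)) := by
  obtain ⟨σ, sx, sh, s0, s1⟩ := a
  cases sh with
  | true => rcases h : rdY σ true o b' with _ | σ' <;> cases s1 <;> simp [rd, h]
  | false =>
    cases s1 with
    | true => rcases h : rdH m' s0 true σ m b with _ | σ' <;> simp [rd, h]
    | false =>
      have e1 : (rd m' ⟨σ, sx, false, s0, false⟩ (.H m, b)).bind
          (fun a => rd m' a (.Y true o, b')) =
          ((rdH m' s0 false σ m b).bind (fun σ => rdY σ true o b')).map
            fun σ' => (⟨σ', sx, true, s0, true⟩ : Afs Λ S') := by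
        rcases h : rdH m' s0 false σ m b with _ | σ' <;> simp [rd, h]
      have e2 : (rd m' ⟨σ, sx, false, s0, false⟩ (.Y true o, b')).bind
          (fun a => rd m' a (.H m, b)) =
          ((rdY σ true o b').bind (fun σ => rdH m' s0 true σ m b)).map
            fun σ' => (⟨σ', sx, true, s0, true⟩ : Afs Λ S') := by
        rcases h : rdY σ true o b' with _ | σ' <;> simp [rd, h]
      rw [e1, e2, rdHY1]

theorem rd_comm_YY (a : Afs Λ S') (o : Bool) (b : Λ) (o' : Bool) (b' : Λ) :
    (rd m' a (.Y false o, b)).bind (fun a => rd m' a (.Y true o', b')) =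
      (rd m' a (.Y true o', b')).bind (fun a => rd m' a (.Y false o, b)) := by
  obtain ⟨σ, sx, sh, s0, s1⟩ := a
  cases s0 with
  | true => rcases h : rdY σ true o' b' with _ | σ' <;> cases s1 <;> simp [rd, h]
  | false =>
    cases s1 with
    | true => rcases h : rdY σ false o b with _ | σ' <;> simp [rd, h]
    | false =>
      have e1 : (rd m' ⟨σ, sx, sh, false, false⟩ (.Y false o, b)).bind
          (fun a => rd m' a (.Y true o', b')) =
          ((rdY σ false o b).bind (fun σ => rdY σ true o' b')).map
            fun σ' => (⟨σ', sx, sh, true, true⟩ : Afs Λ S') := by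
        rcases h : rdY σ false o b with _ | σ' <;> simp [rd, h]
      have e2 : (rd m' ⟨σ, sx, sh, false, false⟩ (.Y true o', b')).bind
          (fun a => rd m' a (.Y false o, b)) =
          ((rdY σ true o' b').bind (fun σ => rdY σ false o b)).map
            fun σ' => (⟨σ', sx, sh, true, true⟩ : Afs Λ S') := by
        rcases h : rdY σ true o' b' with _ | σ' <;> simp [rd, h]
      rw [e1, e2, rdYY]

theorem rd_comm_X (a : Afs Λ S') (t : Λ) (y : BK × Λ) :
    (rd m' a (.X, t)).bind (fun a => rd m' a y) = (rd m' a y).bind (fun a => rd m' a (.X, t)) := by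
  obtain ⟨σ, sx, sh, s0, s1⟩ := a
  obtain ⟨k', b'⟩ := y
  cases k' with
  | X =>
    simp only [rd]
    by_cases h1 : t ∈ sx <;> by_cases h2 : b' ∈ sx <;> simp [h1, h2]
    by_cases h3 : t = b'
    · subst h3; rfl
    · rw [if_neg (fun h => h3 h.symm), if_neg h3, Finset.insert_comm]
  | H m =>
    simp only [rd]
    by_cases h1 : t ∈ sx <;> cases sh <;> simp [h1] <;> cases rdH m' s0 s1 σ m b' <;> simp [h1]
  | Y j o =>
    simp only [rd]
    cases j <;> cases s0 <;> cases s1 <;> by_cases h1 : t ∈ sx <;> simp [h1] <;>
      cases rdY σ _ o b' <;> simp [h1]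

/-- reading two letters in the other order -/
theorem rd_comm (a : Afs Λ S') (x y : BK × Λ) :
    (rd m' a x).bind (fun a => rd m' a y) = (rd m' a y).bind (fun a => rd m' a x) := by
  by_cases hxy : slot x = slot y
  · rw [rd_same m' a hxy, rd_same m' a hxy.symm]
  obtain ⟨k, b⟩ := x
  obtain ⟨k', b'⟩ := y
  cases k with
  | X => exact rd_comm_X m' a b _
  | H m =>
    cases k' with
    | X => exact (rd_comm_X m' a b' _).symm
    | H m' => exact absurd rfl hxy
    | Y j o =>
      cases j with
      | false => exact rd_comm_HY0 m' a m b o b'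
      | true => exact rd_comm_HY1 m' a m b o b'
  | Y j o =>
    cases k' with
    | X => exact (rd_comm_X m' a b' _).symm
    | H m =>
      cases j with
      | false => exact (rd_comm_HY0 m' a m b' o b).symm
      | true => exact (rd_comm_HY1 m' a m b' o b).symm
    | Y j' o' =>
      cases j <;> cases j'
      · exact absurd rfl hxy
      · exact rd_comm_YY m' a o b o' b'
      · exact (rd_comm_YY m' a o' b' o b).symm
      · exact absurd rfl hxy

end Crest.Agent.R176.Machine.Trans
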