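import Crest.Agent.R176.Machine.Trans655B

/-!
# Row 176, part A: soundness by a transducer model (helper655), part C: steps and transitions
-/

set_option autoImplicit false
set_option linter.unusedSectionVars false

namespace Crest.Agent.R176.Machine.Trans

open Crest.Agent.R176 Crest.Agent.R176.Machine

variable {Λ : Type} {S' : Type*}

variable [DecidableEq Λ] [LabelSys Λ] [MonoidWithZero S'] (m' : Gen.Model (step (Λ := Λ × Λ)) S')

/-! ### one step, family by family -/

theorem step_BB_ne {s t : Bool} (h : s ≠ t) (x y : BK) (a b : Λ) :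
    step (.bag s x, a) (.bag t y, b) = none := by
  simp [step, rule, ruleBB, h, Rule.zero, RD.eval]

theorem step_BB_same (s : Bool) {x y : BK} {a b : Λ} (h : slot (x, a) = slot (y, b)) :
    step (.bag s x, a) (.bag s y, b) = none := by
  cases x <;> cases y <;> simp_all [slot, step, rule, ruleBB, Rule.zero, RD.eval, BK.ty]

theorem step_BB_diff (s : Bool) {x y : BK} {a b : Λ} (h : slot (x, a) ≠ slot (y, b)) :
    step (.bag s x, a) (.bag s y, b) = some ((.bag s y, b), (.bag s x, a)) := by
  cases x <;> cases y <;> simp_all [slot, step, rule, ruleBB, Rule.zero, RD.eval, BK.ty, AC.eval]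

theorem step_BE_true (x : BK) (e : EK) (a b : Λ) :
    step (.bag true x, a) (.E e, b) = none := by
  simp [step, rule, ruleBE, Rule.zero, RD.eval]

theorem step_BE (x : BK) (e : EK) (a b : Λ) :
    step (.bag false x, a) (.E e, b) =
      if passes e b (x, a) = true then some ((.bag false x, a), (.E e, b)) else none := by
  by_cases h1 : e.moving = true
  · by_cases h2 : cons e x = true
    · by_cases h3 : x = .X
      · subst h3
        by_cases h4 : e.target = some .X
        · by_cases h5 : a = b
          · simp [step, rule, ruleBE, passes, h1, h2, h4, h5, Rule.zero, RD.eval, BK.ty]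
          · simp [step, rule, ruleBE, passes, h1, h2, h4, h5, Rule.zero, RD.eval, BK.ty, AC.eval,
              Ne.symm h5]
        · simp [step, rule, ruleBE, passes, h1, h2, h4, Rule.zero, RD.eval, BK.ty, AC.eval,
            Rule.stay]
      · by_cases h4 : e.target = some x.ty
        · simp [step, rule, ruleBE, passes, h1, h2, h3, h4, Rule.zero, RD.eval]
        · simp [step, rule, ruleBE, passes, h1, h2, h3, h4, Rule.zero, RD.eval, AC.eval, Rule.stay]
    · simp [step, rule, ruleBE, passes, h1, h2, Rule.zero, RD.eval]
  · simp [step, rule, ruleBE, passes, h1, Rule.zero, RD.eval]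

theorem step_EB_false (e : EK) (x : BK) (a b : Λ) :
    step (.E e, a) (.bag false x, b) = none := by
  simp [step, rule, ruleEB, Rule.zero, RD.eval]

theorem step_EB_cons {e : EK} {x : BK} (h : cons e x = false) (a b : Λ) :
    step (.E e, a) (.bag true x, b) = none := by
  simp [step, rule, ruleEB, h, Rule.zero, RD.eval]

theorem step_EB_pass {e : EK} {x : BK} {a b : Λ} (h : passes e a (x, b) = true) :
    step (.E e, a) (.bag true x, b) = some ((.bag false x, b), (.E e, a)) := by
  simp only [passes, Bool.and_eq_true] at h
  obtain ⟨⟨h1, h2⟩, h3⟩ := h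
  by_cases h4 : e.target = some x.ty
  · rw [if_pos h4] at h3
    simp only [Bool.and_eq_true, decide_eq_true_eq] at h3
    obtain ⟨rfl, h5⟩ := h3
    simp only [BK.ty] at h4
    simp [step, rule, ruleEB, h1, h2, h4, h5, RD.eval, AC.eval]
  · by_cases h5 : x = .X
    · subst h5
      simp only [BK.ty] at h4
      simp [step, rule, ruleEB, h1, h2, h4, RD.eval, AC.eval, BK.ty]
    · simp [step, rule, ruleEB, h1, h2, h4, h5, RD.eval, AC.eval]

/-- `x` is the target of the head -/
def isTgt (e : EK) (a : Λ) (x : BK × Λ) : Prop :=
  e.target = some x.1.ty ∧ (x.1 = .X → a = x.2)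

theorem step_EB_tgt {e : EK} {x : BK} {a b : Λ} (hc : cons e x = true) (h : isTgt e a (x, b))
    (hX : x ≠ .X) :
    step (.E e, a) (.bag true x, b) =
      if (ruleTgt e x).rd.eval a b then (ruleTgt e x).g1.map fun p => ((p.1, a), (p.2, b))
      else (ruleTgt e x).g0.bind fun p =>
        ((ruleTgt e x).ac.eval a b).map fun q => ((p.1, q.1), (p.2, q.2)) := by
  have hm : e.moving = true := by simp [EK.moving, h.1]
  have h1 : e.target = some x.ty := h.1
  have hr : rule (.E e) (.bag true x) = ruleTgt e x := by
    simp [rule, ruleEB, hm, hc, hX, h1]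
  simp only [step, hr]

theorem step_EB_tgtX {e : EK} {a b : Λ} (h : isTgt e a (.X, b)) :
    step (.E e, a) (.bag true .X, b) = some ((.E e, a), (.bag true .X, b)) := by
  have hm : e.moving = true := by simp [EK.moving, h.1]
  have h1 : e.target = some .X := h.1
  have h2 : a = b := h.2 rfl
  subst h2
  simp [step, rule, ruleEB, hm, h1, cons, RD.eval]

theorem step_EB_nm {e : EK} {x : BK} (hc : cons e x = true) (h : e.moving = false) (a b : Λ) :
    step (.E e, a) (.bag true x, b) = some ((.E e, a), (.bag true x, b)) := by
  simp [step, rule, ruleEB, hc, h, RD.eval, Rule.stay, AC.eval]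

theorem step_WB_true (w : WK) (x : BK) (a b : Λ) :
    step (.W w, a) (.bag true x, b) = none := by
  simp [step, rule, ruleWB, Rule.zero, RD.eval]

theorem step_WB (w : WK) (x : BK) (a b : Λ) :
    step (.W w, a) (.bag false x, b) =
      if pas w = true then some ((.W w, a), (.bag false x, b)) else none := by
  cases w <;> simp [step, rule, ruleWB, Rule.zero, RD.eval, pas, Rule.stay, AC.eval]

theorem step_BW_false (x : BK) (w : WK) (a b : Λ) :
    step (.bag false x, a) (.W w, b) = none := by
  simp [step, rule, ruleBW, Rule.zero, RD.eval]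

theorem step_EE (e e' : EK) (a b : Λ) : step (.E e, a) (.E e', b) = none := by
  simp [step, rule, Rule.zero, RD.eval]

theorem step_EW (e : EK) (w : WK) (a b : Λ) : step (.E e, a) (.W w, b) = none := by
  simp [step, rule, Rule.zero, RD.eval]

theorem step_WW (w w' : WK) (a b : Λ) : step (.W w, a) (.W w', b) = none := by
  simp [step, rule, Rule.zero, RD.eval]

/-! ### reading a multiset of letters -/

instance rdR : RightCommutative
    (fun (o : Option (Afs Λ S')) (x : BK × Λ) => o.bind fun a => rd m' a x) :=
  ⟨by
    intro o x y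
    cases o with
    | none => rfl
    | some a => exact rd_comm m' a x y⟩

/-- reading a multiset of letters -/
def rdM (o : Option (Afs Λ S')) (P : Multiset (BK × Λ)) : Option (Afs Λ S') :=
  P.foldl (fun o x => o.bind fun a => rd m' a x) o

theorem rdM_zero (o : Option (Afs Λ S')) : rdM m' o 0 = o := rfl

theorem rdM_cons (o : Option (Afs Λ S')) (x : BK × Λ) (P : Multiset (BK × Λ)) :
    rdM m' o (x ::ₘ P) = rdM m' (o.bind fun a => rd m' a x) P :=
  Multiset.foldl_cons _ _ _ _

theorem rdM_bind (o : Option (Afs Λ S')) (x : BK × Λ) (P : Multiset (BK × Λ)) :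
    (rdM m' o P).bind (fun a => rd m' a x) = rdM m' (o.bind fun a => rd m' a x) P := by
  induction P using Multiset.induction generalizing o with
  | empty => rfl
  | cons y P ih =>
    rw [rdM_cons, rdM_cons, ih]
    congr 1
    cases o with
    | none => rfl
    | some a => exact rd_comm m' a y x

theorem rdM_cons' (o : Option (Afs Λ S')) (x : BK × Λ) (P : Multiset (BK × Λ)) :
    rdM m' o (x ::ₘ P) = (rdM m' o P).bind fun a => rd m' a x := by
  rw [rdM_cons, rdM_bind]

theorem rdM_none (P : Multiset (BK × Λ)) : rdM m' none P = none := by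
  induction P using Multiset.induction with
  | empty => rfl
  | cons y P ih => rw [rdM_cons]; exact ih

theorem rdM_has (P : Multiset (BK × Λ)) (a a' : Afs Λ S') (h : rdM m' (some a) P = some a') :
    (∀ s, a'.has s → a.has s ∨ ∃ x ∈ P, slot x = s) ∧ (P.map slot).Nodup ∧
      ∀ x ∈ P, a'.has (slot x) := by
  induction P using Multiset.induction generalizing a' with
  | empty =>
    simp only [rdM_zero, Option.some.injEq] at h
    subst h
    exact ⟨fun s hs => Or.inl hs, by simp, by simp⟩
  | cons y P ih =>
    rw [rdM_cons'] at h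
    obtain ⟨a1, h1, h2⟩ := Option.bind_eq_some_iff.1 h
    obtain ⟨i1, i2, i3⟩ := ih a1 h1
    obtain ⟨j1, j2, j3⟩ := rd_has m' h2
    refine ⟨?_, ?_, ?_⟩
    · intro s hs
      rcases j3 s hs with h4 | h4
      · rcases i1 s h4 with h5 | ⟨x, hx, h5⟩
        · exact Or.inl h5
        · exact Or.inr ⟨x, Multiset.mem_cons_of_mem hx, h5⟩
      · exact Or.inr ⟨y, Multiset.mem_cons_self _ _, h4.symm⟩
    · rw [Multiset.map_cons, Multiset.nodup_cons]
      refine ⟨?_, i2⟩
      intro h4
      obtain ⟨x, hx, h5⟩ := Multiset.mem_map.1 h4
      exact j1 (h5 ▸ i3 x hx)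
    · intro x hx
      rcases Multiset.mem_cons.1 hx with rfl | hx
      · exact j2
      · exact rd_mono m' h2 _ (i3 x hx)

/-! ### transitions -/

/-- value of the contents of the current block -/
def val (p : Prev Λ S') (k : ℕ) (d : Data) : Cont Λ → S' :=
  match p with
  | .full v => fun c => v * lt m' c
  | .lk v a => fun c => v * lts m' (runL (allPh.drop k) d a c)

/-- the content `z, z, z` -/
def c0 : Cont Λ := ⟨z, z, z⟩

/-- state after a wall and a head at home -/
def iniC (p : Prev Λ S') (w : WK) (r : Λ) (e : EK) (b : Λ) : Option (Af Λ S') :=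
  match w, e with
  | .w0, .home => if r = z ∧ b = z then some (.idl p.v c0) else none
  | .A φ d, .G ψ => if φ = ψ ∧ r = z ∧ b = z then
      some (if φ = 0 then .idl p.v c0 else .fr (val m' p φ.val d)) else none
  | .A φ d, .K ψ => if φ = ψ ∧ r = z then
      some (.out φ fun c => val m' p φ.val d (c.set (tz φ) b)) else none
  | .C φ d, .N ψ => if φ = ψ ∧ b = z then
      some (.out φ fun c => val m' p φ.val d (c.set (tz φ) r)) else none
  | .D φ d, .N ψ => if φ = ψ ∧ b = z then
      some (.out φ fun c => val m' p (φ.val + 1) d (c.set (tz φ) r)) else none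
  | .B φ d, .P ψ => if φ = ψ ∧ r = z then
      some (.out φ fun c => val m' p (φ.val + 1) d (c.set (tz φ) b)) else none
  | .B φ d, .R ψ => if φ = ψ ∧ r = z ∧ b = z then
      some (if φ = 10 then .idl p.v c0 else .fr (val m' p (φ.val + 1) d)) else none
  | .S t none, .T t' busy => if t = t' ∧ busy = false ∧ r = z ∧ (t = .X ∨ b = z) then
      some (.idl p.v c0) else none
  | .S t (some (φ, d)), .T t' busy =>
      if t = t' ∧ busy = true ∧ φ ≠ 0 ∧ r = z ∧ (t = .X ∨ b = z) then
        some (.fr (val m' p φ.val d)) else none
  | _, _ => none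

/-- state after a wall and a head at home, with the lock check -/
def ini (p : Prev Λ S') (w : WK) (r : Λ) (e : EK) (b : Λ) : Option (Af Λ S') :=
  if locked w = p.isLk then iniC m' p w r e b else none

open Classical in
/-- state of a complete block -/
noncomputable def toPrev [Fintype Λ] (a : Afs Λ S') : Option (Prev Λ S') :=
  if a.sx = Finset.univ ∧ a.sh = true ∧ a.s0 = true ∧ a.s1 = true then
    match a.σ with
    | .fr F => some (.full (F c0))
    | .lk v c => some (.lk v c)
    | _ => none
  else none

/-- reading a wall -/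
def rdW (p : Prev Λ S') (w : WK) (r : Λ) : Option (State Λ S') :=
  if locked w = p.isLk then
    match w with
    | .C φ d => some (.pn φ fun c => val m' p φ.val d (c.set (tz φ) r))
    | .D φ d => some (.pn φ fun c => val m' p (φ.val + 1) d (c.set (tz φ) r))
    | w => some (.wl p w r 0)
  else none

open Classical in
/-- transitions without cancellation of the dead states -/
noncomputable def raw [Fintype Λ] (s : State Λ S') (x : Let Λ) : Option (State Λ S') :=
  match s, x with
  | .wl p w r P, (.E e, b) => if (∀ x ∈ P, passes e b x = true) then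
      (rdM m' ((ini m' p w r e b).map start) P).map .af else none
  | .wl p w r P, (.bag false x, b) =>
      if pas w = true ∧ (((x, b) ::ₘ P).map slot).Nodup then some (.wl p w r ((x, b) ::ₘ P))
      else none
  | .pn φ F, (.E (.N ψ), b) => if φ = ψ ∧ b = z then some (.af (start (.out φ F))) else none
  | .af a, (.bag true x, b) => (rd m' a (x, b)).map .af
  | .af a, (.W w, r) => (toPrev a).bind fun p => rdW m' p w r
  | _, _ => none

end Crest.Agent.R176.Machine.Trans
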