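import Crest.Agent.R176.Machine.Trans655C

/-!
# Row 176, part A: soundness by a transducer model (helper655), part D: dead states, two letters
-/

set_option autoImplicit false
set_option linter.unusedSectionVars false

namespace Crest.Agent.R176.Machine.Trans

open Crest.Agent.R176 Crest.Agent.R176.Machine

variable {Λ : Type} {S' : Type*}

variable [DecidableEq Λ] [LabelSys Λ] [MonoidWithZero S'] (m' : Gen.Model (step (Λ := Λ × Λ)) S')

/-! ### dead states -/

theorem val_zero {p : Prev Λ S'} (h : p.v = 0) (k : ℕ) (d : Data) (c : Cont Λ) :
    val m' p k d c = 0 := by
  cases p with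
  | full v => simp only [Prev.v] at h; simp [val, h]
  | lk v a => simp only [Prev.v] at h; simp [val, h]

theorem ini_dead {p : Prev Λ S'} (h : p.v = 0) {w : WK} {r : Λ} {e : EK} {b : Λ} {σ : Af Λ S'}
    (hi : ini m' p w r e b = some σ) : σ.dead := by
  unfold ini at hi
  by_cases hl : locked w = p.isLk
  · rw [if_pos hl] at hi
    unfold iniC at hi
    split at hi
    all_goals first
      | (simp only [reduceCtorEq] at hi; done)
      | (split_ifs at hi <;>
          (simp only [Option.some.injEq] at hi
           subst hi
           first
             | exact h
             | (intro c; exact val_zero m' h _ _ _)))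
  · rw [if_neg hl] at hi
    exact absurd hi (by simp)

theorem rdH_dead {s0 s1 : Bool} {σ σ' : Af Λ S'} {m : HM} {b : Λ} (h : σ.dead)
    (hi : rdH m' s0 s1 σ m b = some σ') : σ'.dead := by
  cases σ with
  | idl v c =>
    simp only [Af.dead] at h
    subst h
    cases m <;> simp only [rdH, Option.some.injEq, reduceCtorEq] at hi
    · subst hi; intro c; simp
    · subst hi; rfl
  | lk v c => cases m <;> simp [rdH] at hi
  | fr F =>
    cases m <;> simp only [rdH, Option.some.injEq, reduceCtorEq] at hi
    subst hi; intro c; exact h _
  | out φ F =>
    cases m <;> simp only [rdH, reduceCtorEq] at hi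
    · split_ifs at hi
      simp only [Option.some.injEq] at hi
      subst hi; intro c; exact h _
    · split_ifs at hi
      simp only [Option.some.injEq] at hi
      subst hi; exact h

theorem rdY_dead {σ σ' : Af Λ S'} {j o : Bool} {b : Λ} (h : σ.dead)
    (hi : rdY σ j o b = some σ') : σ'.dead := by
  cases σ with
  | idl v c =>
    cases o <;> simp only [rdY, Option.some.injEq, reduceCtorEq] at hi
    subst hi; exact h
  | lk v c =>
    cases o <;> simp only [rdY, Option.some.injEq, reduceCtorEq] at hi
    subst hi; exact h
  | fr F =>
    cases o <;> simp only [rdY, Option.some.injEq, reduceCtorEq] at hi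
    subst hi; intro c; exact h _
  | out φ F =>
    cases o <;> simp only [rdY] at hi
    · split_ifs at hi
      simp only [Option.some.injEq] at hi
      subst hi; intro c; exact h _
    · split_ifs at hi
      simp only [Option.some.injEq] at hi
      subst hi; exact h

theorem rd_dead {a a' : Afs Λ S'} {x : BK × Λ} (h : a.σ.dead) (hi : rd m' a x = some a') :
    a'.σ.dead := by
  obtain ⟨k, b⟩ := x
  cases k with
  | X =>
    simp only [rd] at hi
    split_ifs at hi
    simp only [Option.some.injEq] at hi
    subst hi; exact h
  | H m =>
    simp only [rd] at hi
    split_ifs at hi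
    obtain ⟨σ', h1, rfl⟩ := Option.map_eq_some_iff.1 hi
    exact rdH_dead m' h h1
  | Y j o =>
    cases j with
    | false =>
      simp only [rd] at hi
      split_ifs at hi
      obtain ⟨σ', h1, rfl⟩ := Option.map_eq_some_iff.1 hi
      exact rdY_dead h h1
    | true =>
      simp only [rd] at hi
      split_ifs at hi
      obtain ⟨σ', h1, rfl⟩ := Option.map_eq_some_iff.1 hi
      exact rdY_dead h h1

theorem rdM_dead (P : Multiset (BK × Λ)) {o : Option (Afs Λ S')}
    (h : ∀ a, o = some a → a.σ.dead) {a' : Afs Λ S'} (hi : rdM m' o P = some a') :
    a'.σ.dead := by
  induction P using Multiset.induction generalizing a' with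
  | empty => exact h _ hi
  | cons y P ih =>
    rw [rdM_cons'] at hi
    obtain ⟨a1, h1, h2⟩ := Option.bind_eq_some_iff.1 hi
    exact rd_dead m' (ih h1) h2

theorem raw_dead [Fintype Λ] {s s' : State Λ S'} {x : Let Λ} (h : s.dead)
    (hi : raw m' s x = some s') : s'.dead := by
  obtain ⟨κ, b⟩ := x
  cases s with
  | wl p w r P =>
    cases κ with
    | E e =>
      simp only [raw] at hi
      split_ifs at hi
      obtain ⟨a, h1, rfl⟩ := Option.map_eq_some_iff.1 hi
      refine rdM_dead m' P ?_ h1
      intro a ha
      obtain ⟨σ, h2, rfl⟩ := Option.map_eq_some_iff.1 ha
      exact ini_dead m' h h2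
    | bag s x =>
      cases s with
      | false =>
        simp only [raw] at hi
        split_ifs at hi
        simp only [Option.some.injEq] at hi
        subst hi
        exact h
      | true => simp [raw] at hi
    | W w => simp [raw] at hi
  | pn φ F =>
    cases κ with
    | E e =>
      cases e with
      | N ψ =>
        simp only [raw] at hi
        split_ifs at hi
        simp only [Option.some.injEq] at hi
        subst hi
        exact h
      | _ => simp [raw] at hi
    | bag s x => simp [raw] at hi
    | W w => simp [raw] at hi
  | af a =>
    cases κ with
    | E e => simp [raw] at hi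
    | bag s x =>
      cases s with
      | false => simp [raw] at hi
      | true =>
        simp only [raw] at hi
        obtain ⟨a', h1, rfl⟩ := Option.map_eq_some_iff.1 hi
        exact rd_dead m' h h1
    | W w =>
      simp only [raw] at hi
      obtain ⟨p, h1, h2⟩ := Option.bind_eq_some_iff.1 hi
      have hp : p.v = 0 := by
        unfold toPrev at h1
        split_ifs at h1
        cases hσ : a.σ with
        | fr F =>
          rw [hσ] at h1
          simp only [Option.some.injEq] at h1
          subst h1
          simp only [State.dead, hσ, Af.dead] at h
          exact h _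
        | lk v c =>
          rw [hσ] at h1
          simp only [Option.some.injEq] at h1
          subst h1
          simp only [State.dead, hσ, Af.dead] at h
          exact h
        | idl v c => rw [hσ] at h1; simp at h1
        | out φ F => rw [hσ] at h1; simp at h1
      unfold rdW at h2
      split_ifs at h2
      split at h2
      all_goals
        simp only [Option.some.injEq] at h2
        subst h2
        first
          | exact hp
          | (intro c; exact val_zero m' hp _ _ _)

open Classical in
/-- cancel the dead states -/
noncomputable def norm (o : Option (State Λ S')) : Option (State Λ S') :=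
  match o with
  | some s => if s.dead then none else some s
  | none => none

theorem norm_none : norm (none : Option (State Λ S')) = none := rfl

theorem norm_dead {o : Option (State Λ S')} (h : ∀ s, o = some s → s.dead) : norm o = none := by
  cases o with
  | none => rfl
  | some s => simp [norm, h s rfl]

/-- the transitions -/
noncomputable def tr [Fintype Λ] (x : Let Λ) : Act (State Λ S') := fun s => norm (raw m' s x)

/-- two raw transitions -/
noncomputable def raw2 [Fintype Λ] (s : State Λ S') (x y : Let Λ) : Option (State Λ S') :=
  (raw m' s x).bind fun s => raw m' s y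

theorem tr2 [Fintype Λ] (s : State Λ S') (x y : Let Λ) :
    (tr m' x * tr m' y) s = norm (raw2 m' s x y) := by
  show (norm (raw m' s x)).bind (tr m' y) = _
  unfold raw2
  cases h : raw m' s x with
  | none => rfl
  | some s' =>
    by_cases hd : s'.dead
    · rw [norm_dead (fun s hs => by simp only [Option.some.injEq] at hs; subst hs; exact hd)]
      symm
      exact norm_dead fun s'' h2 => raw_dead m' hd h2
    · simp only [norm, hd, if_false, Option.bind_some]
      rfl

/-! ### two letters -/

variable [Fintype Λ]

theorem raw2_BB_ne {u t : Bool} (h : u ≠ t) (s : State Λ S') (x y : BK) (a b : Λ) :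
    raw2 m' s (.bag u x, a) (.bag t y, b) = none := by
  unfold raw2
  cases s with
  | wl p w r P =>
    cases u with
    | false =>
      cases t with
      | false => exact absurd rfl h
      | true =>
        simp only [raw]
        split_ifs <;> rfl
    | true => rfl
  | pn φ F => cases u <;> rfl
  | af c =>
    cases u with
    | false => rfl
    | true =>
      cases t with
      | false =>
        simp only [raw]
        cases rd m' c (x, a) <;> rfl
      | true => exact absurd rfl h

theorem raw2_BB_same (u : Bool) (s : State Λ S') {x y : BK} {a b : Λ}
    (h : slot (x, a) = slot (y, b)) :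
    raw2 m' s (.bag u x, a) (.bag u y, b) = none := by
  unfold raw2
  cases s with
  | wl p w r P =>
    cases u with
    | false =>
      simp only [raw]
      split_ifs with h1
      · simp only [Option.bind_some, raw]
        rw [if_neg]
        rintro ⟨_, h2⟩
        rw [Multiset.map_cons, Multiset.nodup_cons] at h2
        apply h2.1
        rw [Multiset.map_cons, ← h]
        exact Multiset.mem_cons_self _ _
      · rfl
    | true => rfl
  | pn φ F => cases u <;> rfl
  | af c =>
    cases u with
    | false => rfl
    | true =>
      have := rd_same m' c h
      simp only [raw]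
      cases h1 : rd m' c (x, a) with
      | none => rfl
      | some c' =>
        rw [h1] at this
        simp only [Option.bind_some] at this
        simp only [Option.map_some, Option.bind_some, raw, this, Option.map_none]

theorem raw2_BB_comm (u : Bool) (s : State Λ S') (x y : BK) (a b : Λ) :
    raw2 m' s (.bag u x, a) (.bag u y, b) = raw2 m' s (.bag u y, b) (.bag u x, a) := by
  unfold raw2
  cases s with
  | wl p w r P =>
    cases u with
    | false =>
      classical
      have key : ∀ (x y : BK × Λ), (raw m' (.wl p w r P) (.bag false x.1, x.2)).bind
          (fun s => raw m' s (.bag false y.1, y.2)) =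
          if pas w = true ∧ ((y ::ₘ x ::ₘ P).map slot).Nodup then
            some (State.wl p w r (y ::ₘ x ::ₘ P)) else none := by
        intro x y
        simp only [raw]
        by_cases h1 : pas w = true
        · by_cases h2 : ((x ::ₘ P).map slot).Nodup
          · rw [if_pos ⟨h1, h2⟩]
            rfl
          · rw [if_neg (fun h => h2 h.2), if_neg]
            · rfl
            · rintro ⟨_, h3⟩
              rw [Multiset.map_cons, Multiset.nodup_cons] at h3
              exact h2 h3.2
        · rw [if_neg (fun h => h1 h.1), if_neg (fun h => h1 h.1)]
          rfl
      have k1 := key (x, a) (y, b)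
      have k2 := key (y, b) (x, a)
      rw [Multiset.cons_swap] at k2
      exact k1.trans k2.symm
    | true => rfl
  | pn φ F => cases u <;> rfl
  | af c =>
    cases u with
    | false => rfl
    | true =>
      have key : ∀ (x y : BK × Λ), (raw m' (.af c) (.bag true x.1, x.2)).bind
          (fun s => raw m' s (.bag true y.1, y.2)) =
          ((rd m' c x).bind fun c => rd m' c y).map .af := by
        intro x y
        simp only [raw]
        cases rd m' c x <;> rfl
      have k1 := key (x, a) (y, b)
      have k2 := key (y, b) (x, a)
      rw [rd_comm] at k2
      exact k1.trans k2.symm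

theorem raw2_BE_true (s : State Λ S') (x : BK) (e : EK) (a b : Λ) :
    raw2 m' s (.bag true x, a) (.E e, b) = none := by
  unfold raw2
  cases s with
  | wl p w r P => rfl
  | pn φ F => rfl
  | af c =>
    simp only [raw]
    cases rd m' c (x, a) <;> rfl

theorem raw2_BE (s : State Λ S') {x : BK} {e : EK} {a b : Λ} (h : passes e b (x, a) ≠ true) :
    raw2 m' s (.bag false x, a) (.E e, b) = none := by
  unfold raw2
  cases s with
  | wl p w r P =>
    simp only [raw]
    split_ifs
    · simp only [Option.bind_some, raw]
      rw [if_neg]
      intro h2
      exact h (h2 _ (Multiset.mem_cons_self _ _))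
    · rfl
  | pn φ F => rfl
  | af c => rfl

theorem raw2_EB_false (s : State Λ S') (e : EK) (x : BK) (a b : Λ) :
    raw2 m' s (.E e, a) (.bag false x, b) = none := by
  unfold raw2
  cases s with
  | wl p w r P =>
    simp only [raw]
    split_ifs
    · cases rdM m' ((ini m' p w r e a).map start) P <;> rfl
    · rfl
  | pn φ F =>
    cases e <;> try rfl
    simp only [raw]
    split_ifs <;> rfl
  | af c => rfl

/-- head, then bag letter, after a wall -/
theorem raw2_EB_wl (p : Prev Λ S') (w : WK) (r : Λ) (P : Multiset (BK × Λ)) (e : EK) (x : BK)
    (a b : Λ) [Decidable (∀ x ∈ P, passes e a x = true)] :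
    raw2 m' (.wl p w r P) (.E e, a) (.bag true x, b) =
      if (∀ x ∈ P, passes e a x = true) then
        (rdM m' (((ini m' p w r e a).map start).bind fun c => rd m' c (x, b)) P).map .af
      else none := by
  unfold raw2
  by_cases h : ∀ x ∈ P, passes e a x = true
  · simp only [raw]
    rw [if_pos h, if_pos h, ← rdM_bind]
    cases rdM m' ((ini m' p w r e a).map start) P <;> rfl
  · simp only [raw]
    rw [if_neg h, if_neg h]; rfl

theorem ini_moving {p : Prev Λ S'} {w : WK} {r : Λ} {e : EK} {b : Λ} (h : e.moving = true)
    (hw : pas w ≠ true) : ini m' p w r e b = none := by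
  unfold ini
  by_cases hl : locked w = p.isLk
  · rw [if_pos hl]
    cases w <;> cases e <;> simp_all [pas, EK.moving, EK.target, iniC]
  · rw [if_neg hl]

theorem raw2_EB_pass (s : State Λ S') {e : EK} {x : BK} {a b : Λ}
    (h : passes e a (x, b) = true) :
    raw2 m' s (.E e, a) (.bag true x, b) = raw2 m' s (.bag false x, b) (.E e, a) := by
  have hm : e.moving = true := by
    simp only [passes, Bool.and_eq_true] at h
    exact h.1.1
  cases s with
  | wl p w r P =>
    classical
    have hR : raw2 m' (.wl p w r P) (.bag false x, b) (.E e, a) =
        if pas w = true ∧ (((x, b) ::ₘ P).map slot).Nodup then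
          (if (∀ x ∈ P, passes e a x = true) then
            (rdM m' ((ini m' p w r e a).map start) ((x, b) ::ₘ P)).map .af else none)
        else none := by
      unfold raw2
      simp only [raw]
      by_cases h1 : pas w = true ∧ (((x, b) ::ₘ P).map slot).Nodup
      · rw [if_pos h1, if_pos h1]
        simp only [Option.bind_some]
        by_cases h3 : ∀ x ∈ P, passes e a x = true
        · rw [if_pos h3, if_pos]
          intro y hy
          rcases Multiset.mem_cons.1 hy with rfl | hy
          · exact h
          · exact h3 y hy
        · rw [if_neg h3, if_neg]
          intro h4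
          exact h3 fun y hy => h4 y (Multiset.mem_cons_of_mem hy)
      · rw [if_neg h1, if_neg h1]; rfl
    rw [raw2_EB_wl, hR]
    by_cases h3 : ∀ x ∈ P, passes e a x = true
    · rw [if_pos h3, if_pos h3]
      by_cases h1 : pas w = true ∧ (((x, b) ::ₘ P).map slot).Nodup
      · rw [if_pos h1, rdM_cons]
      · rw [if_neg h1]
        by_cases h2 : pas w = true
        · have h4 : ¬ (((x, b) ::ₘ P).map slot).Nodup := fun h => h1 ⟨h2, h⟩
          rw [← rdM_bind, ← rdM_cons']
          cases h5 : ini m' p w r e a with
          | none => rw [Option.map_none, rdM_none]; rfl
          | some σ =>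
            rw [Option.map_some]
            cases h6 : rdM m' (some (start σ)) ((x, b) ::ₘ P) with
            | none => rfl
            | some c' => exact absurd (rdM_has m' _ _ _ h6).2.1 h4
        · rw [ini_moving m' hm h2]
          simp only [Option.map_none, Option.bind_none, rdM_none]
    · rw [if_neg h3, if_neg h3]
      split_ifs <;> rfl
  | pn φ F =>
    unfold raw2
    cases e <;> first | rfl | simp [EK.moving, EK.target] at hm
  | af c => rfl

/-- first letter read after the head -/
def rd0 (σ : Af Λ S') (x : BK × Λ) : Option (Afs Λ S') := rd m' (start σ) x

theorem rd_ini_cons {p : Prev Λ S'} {w : WK} {r : Λ} {e : EK} {a : Λ} {x : BK} {b : Λ}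
    (h : cons e x = false) :
    ((ini m' p w r e a).map start).bind (fun c => rd m' c (x, b)) = none := by
  unfold ini
  by_cases hl : locked w = p.isLk
  · rw [if_pos hl]
    unfold iniC
    split
    all_goals first
      | rfl
      | (split_ifs with h1 <;> first
          | rfl
          | (simp only [Option.map_some, Option.bind_some]
             cases x with
             | X => simp [cons] at h
             | H m =>
               cases m <;> simp_all [cons, EK.idle, EK.outPh, start, rd, rdH]
             | Y j o =>
               cases j <;> cases o <;> simp_all [cons, EK.idle, EK.outPh, start, rd, rdY]))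
  · rw [if_neg hl]; rfl

end Crest.Agent.R176.Machine.Trans
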