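import Crest.Agent.R176.Machine.Trans655D

/-!
# Row 176, part A: soundness by a transducer model (helper655), part E: the relations
-/

set_option autoImplicit false
set_option linter.unusedSectionVars false

namespace Crest.Agent.R176.Machine.Trans

open Crest.Agent.R176 Crest.Agent.R176.Machine

variable {Λ : Type} {S' : Type*}

variable [DecidableEq Λ] [LabelSys Λ] [MonoidWithZero S'] (m' : Gen.Model (step (Λ := Λ × Λ)) S')

/-! ### head and its target -/

theorem passes_GK (φ : Ph) (a b : Λ) (y : BK × Λ) :
    passes (.G φ) a y = passes (.K φ) b y := by
  obtain ⟨k, c⟩ := y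
  cases k with
  | X =>
    have := tz_ne_X φ
    simp [passes, EK.moving, EK.target, cons, BK.ty, this]
  | H m =>
    by_cases h : tz φ = .H
    · simp [passes, EK.moving, EK.target, BK.ty, h]
    · have h0 : φ ≠ 0 := by rintro rfl; exact h (by decide)
      simp [passes, EK.moving, EK.target, cons, BK.ty, h, EK.idle, EK.outPh, h0]
  | Y j o =>
    by_cases h : tz φ = .Y j
    · simp [passes, EK.moving, EK.target, BK.ty, h]
    · cases o <;> simp [passes, EK.moving, EK.target, cons, BK.ty, h, EK.outPh]

theorem passes_PR (φ : Ph) (a b : Λ) (y : BK × Λ) :
    passes (.P φ) a y = passes (.R φ) b y := by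
  obtain ⟨k, c⟩ := y
  cases k with
  | X =>
    have := tz_ne_X φ
    simp [passes, EK.moving, EK.target, cons, BK.ty, this]
  | H m =>
    by_cases h : tz φ = .H
    · simp [passes, EK.moving, EK.target, BK.ty, h]
    · have h0 : φ ≠ 10 := by rintro rfl; exact h (by decide)
      simp [passes, EK.moving, EK.target, cons, BK.ty, h, EK.idle, EK.outPh, h0]
  | Y j o =>
    by_cases h : tz φ = .Y j
    · simp [passes, EK.moving, EK.target, BK.ty, h]
    · cases o <;> simp [passes, EK.moving, EK.target, cons, BK.ty, h, EK.outPh]

variable [Fintype Λ]

theorem raw2_EB_zero (s : State Λ S') {e : EK} (he : ∀ ψ, e ≠ .N ψ) {x : BK} {a b : Λ}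
    (h : ∀ (p : Prev Λ S') w r, ((ini m' p w r e a).map start).bind (fun c => rd m' c (x, b)) =
      none) :
    raw2 m' s (.E e, a) (.bag true x, b) = none := by
  cases s with
  | wl p w r P =>
    classical
    rw [raw2_EB_wl, h, rdM_none]
    split_ifs <;> rfl
  | pn φ F =>
    unfold raw2
    cases e <;> first | rfl | exact absurd rfl (he _)
  | af c => rfl

theorem raw2_EB_congr (s : State Λ S') {e e' : EK} (he : ∀ ψ, e ≠ .N ψ) (he' : ∀ ψ, e' ≠ .N ψ)
    {x x' : BK} {a b a' b' : Λ} (hp : ∀ y, passes e a y = passes e' a' y)
    (h : ∀ (p : Prev Λ S') w r, ((ini m' p w r e a).map start).bind (fun c => rd m' c (x, b)) =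
      ((ini m' p w r e' a').map start).bind (fun c => rd m' c (x', b'))) :
    raw2 m' s (.E e, a) (.bag true x, b) = raw2 m' s (.E e', a') (.bag true x', b') := by
  cases s with
  | wl p w r P =>
    classical
    rw [raw2_EB_wl, raw2_EB_wl, h]
    simp only [hp]
  | pn φ F =>
    unfold raw2
    cases e <;> cases e' <;>
      first
        | rfl
        | exact absurd rfl (he _)
        | exact absurd rfl (he' _)
  | af c => rfl

theorem raw2_EB_cons (s : State Λ S') {e : EK} {x : BK} {a b : Λ} (h : cons e x = false) :
    raw2 m' s (.E e, a) (.bag true x, b) = none := by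
  cases s with
  | wl p w r P =>
    classical
    rw [raw2_EB_wl, rd_ini_cons m' h, rdM_none]
    split_ifs <;> rfl
  | pn φ F =>
    unfold raw2
    cases e with
    | N ψ =>
      simp only [raw]
      split_ifs with h1
      · obtain ⟨rfl, rfl⟩ := h1
        simp only [Option.bind_some]
        cases x with
        | X => simp [cons] at h
        | H m =>
          cases m <;> simp_all [cons, EK.idle, EK.outPh, start, rd, rdH]
        | Y j o =>
          cases j <;> cases o <;> simp_all [cons, EK.idle, EK.outPh, start, rd, rdY]
      · rfl
    | _ => rfl
  | af c => rfl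

/-- the phase is the first of the remaining phases -/
theorem drop_ph (φ : Ph) : allPh.drop φ.val = φ :: allPh.drop (φ.val + 1) := by
  revert φ; decide

theorem EB_G (φ : Ph) (p : Prev Λ S') (w : WK) (r : Λ) {x : BK} (b : Λ)
    (ht : x.ty = tz φ) (hc : cons (.G φ) x = true) (hl : ¬ (φ = 0 ∧ x = .H .l)) :
    ((ini m' p w r (.G φ) z).map start).bind (fun c => rd m' c (x, b)) =
      ((ini m' p w r (.K φ) b).map start).bind (fun c => rd m' c (x.out, z)) := by
  unfold ini
  by_cases hlk : locked w = p.isLk
  · rw [if_pos hlk, if_pos hlk]
    cases w with
    | A ψ d =>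
      by_cases h1 : ψ = φ
      · subst h1
        by_cases h2 : r = z
        · subst h2
          simp only [iniC, and_self, if_true, Option.map_some, Option.bind_some]
          cases x with
          | X => exact absurd ht.symm (tz_ne_X ψ)
          | H m =>
            simp only [BK.ty] at ht
            by_cases h0 : ψ = 0
            · subst h0
              have hm : m = .f := by
                cases m <;> simp_all [cons, EK.idle]
              subst hm
              cases p with
              | full v =>
                simp [start, rd, rdH, BK.out, ← ht, val, Cont.set, Prev.v]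
              | lk v a => simp [locked, Prev.isLk] at hlk
            · have hm : m = .b := by
                cases m <;> simp_all [cons, EK.idle, EK.outPh]
              subst hm
              simp [start, rd, rdH, BK.out, ← ht, h0]
          | Y j o =>
            simp only [BK.ty] at ht
            have h0 : ψ ≠ 0 := by rintro rfl; exact absurd ht (by simp [tz])
            have ho : o = false := by
              cases o <;> simp_all [cons, EK.idle, EK.outPh]
            subst ho
            cases j <;> simp [start, rd, rdY, BK.out, ← ht, h0]
        · simp [iniC, h2]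
      · simp [iniC, h1]
    | S t c => rcases c with _ | ⟨ψ, d⟩ <;> rfl
    | _ => rfl
  · rw [if_neg hlk, if_neg hlk]; rfl

theorem EB_P (φ : Ph) (p : Prev Λ S') (w : WK) (r : Λ) {x : BK} (a : Λ)
    (ht : x.ty = tz φ) (hc : cons (.P φ) x = true) :
    ((ini m' p w r (.P φ) a).map start).bind (fun c => rd m' c (x, z)) =
      ((ini m' p w r (.R φ) z).map start).bind (fun c => rd m' c (x.inn φ, a)) := by
  unfold ini
  by_cases hlk : locked w = p.isLk
  · rw [if_pos hlk, if_pos hlk]
    cases w with
    | B ψ d =>
      by_cases h1 : ψ = φ
      · subst h1
        by_cases h2 : r = z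
        · subst h2
          simp only [iniC, and_self, if_true, Option.map_some, Option.bind_some]
          cases x with
          | X => exact absurd ht.symm (tz_ne_X ψ)
          | H m =>
            simp only [BK.ty] at ht
            have hm : m = .o := by
              cases m <;> simp_all [cons, EK.idle, EK.outPh]
            subst hm
            by_cases h0 : ψ = 10
            · subst h0
              cases p with
              | full v =>
                simp [start, rd, rdH, BK.inn, ← ht, val, Cont.set, Prev.v]
              | lk v a => simp [locked, Prev.isLk] at hlk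
            · simp [start, rd, rdH, BK.inn, ← ht, h0]
          | Y j o =>
            simp only [BK.ty] at ht
            have h0 : ψ ≠ 10 := by
              rintro rfl; exact absurd ht (by simp [tz])
            have ho : o = true := by
              cases o <;> simp_all [cons, EK.idle, EK.outPh]
            subst ho
            cases j <;> simp [start, rd, rdY, BK.inn, ← ht, h0]
        · simp [iniC, h2]
      · simp [iniC, h1]
    | S t c => rcases c with _ | ⟨ψ, d⟩ <;> rfl
    | _ => rfl
  · rw [if_neg hlk, if_neg hlk]; rfl

theorem EB_G0 (φ : Ph) (p : Prev Λ S') (w : WK) (r : Λ) (x : BK × Λ) {a : Λ} (ha : a ≠ z) :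
    ((ini m' p w r (.G φ) a).map start).bind (fun c => rd m' c x) = none := by
  have : ini m' p w r (.G φ) a = none := by
    unfold ini
    by_cases hlk : locked w = p.isLk
    · rw [if_pos hlk]
      rcases w with _ | _ | _ | _ | _ | ⟨t, _ | _⟩ <;> simp [iniC, ha]
    · rw [if_neg hlk]
  rw [this]; rfl

theorem EB_R0 (φ : Ph) (p : Prev Λ S') (w : WK) (r : Λ) (x : BK × Λ) {a : Λ} (ha : a ≠ z) :
    ((ini m' p w r (.R φ) a).map start).bind (fun c => rd m' c x) = none := by
  have : ini m' p w r (.R φ) a = none := by
    unfold ini
    by_cases hlk : locked w = p.isLk
    · rw [if_pos hlk]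
      rcases w with _ | _ | _ | _ | _ | ⟨t, _ | _⟩ <;> simp [iniC, ha]
    · rw [if_neg hlk]
  rw [this]; rfl

theorem rd_out_ne {φ : Ph} {F : Cont Λ → S'} {x : BK} {b : Λ} (ht : x.ty = tz φ) (hb : b ≠ z) :
    rd m' (start (.out φ F)) (x, b) = none := by
  cases x with
  | X => exact absurd ht.symm (tz_ne_X φ)
  | H m =>
    simp only [BK.ty] at ht
    cases m <;> simp [start, rd, rdH, ← ht, hb]
  | Y j o =>
    simp only [BK.ty] at ht
    cases j <;> cases o <;> simp [start, rd, rdY, ← ht, hb]

theorem EB_K0 (φ : Ph) (p : Prev Λ S') (w : WK) (r : Λ) {x : BK} {a b : Λ}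
    (ht : x.ty = tz φ) (hb : b ≠ z) :
    ((ini m' p w r (.K φ) a).map start).bind (fun c => rd m' c (x, b)) = none := by
  unfold ini
  by_cases hlk : locked w = p.isLk
  · rw [if_pos hlk]
    cases w with
    | A ψ d =>
      by_cases h1 : ψ = φ ∧ r = z
      · obtain ⟨rfl, rfl⟩ := h1
        simp only [iniC, and_self, if_true, Option.map_some, Option.bind_some]
        exact rd_out_ne m' ht hb
      · simp [iniC, h1]
    | S t c => rcases c with _ | ⟨ψ, d⟩ <;> rfl
    | _ => rfl
  · rw [if_neg hlk]; rfl

theorem EB_P0 (φ : Ph) (p : Prev Λ S') (w : WK) (r : Λ) {x : BK} {a b : Λ}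
    (ht : x.ty = tz φ) (hb : b ≠ z) :
    ((ini m' p w r (.P φ) a).map start).bind (fun c => rd m' c (x, b)) = none := by
  unfold ini
  by_cases hlk : locked w = p.isLk
  · rw [if_pos hlk]
    cases w with
    | B ψ d =>
      by_cases h1 : ψ = φ ∧ r = z
      · obtain ⟨rfl, rfl⟩ := h1
        simp only [iniC, and_self, if_true, Option.map_some, Option.bind_some]
        exact rd_out_ne m' ht hb
      · simp [iniC, h1]
    | S t c => rcases c with _ | ⟨ψ, d⟩ <;> rfl
    | _ => rfl
  · rw [if_neg hlk]; rfl

/-- value of a relation -/
def RelOK (s : State Λ S') (x y : Let Λ) : Prop :=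
  norm (raw2 m' s x y) = match step x y with
    | none => none
    | some p => norm (raw2 m' s p.1 p.2)

theorem relOK_none {s : State Λ S'} {x y : Let Λ} (h : step x y = none)
    (h2 : raw2 m' s x y = none) : RelOK m' s x y := by
  unfold RelOK
  rw [h, h2]; rfl

theorem relOK_same {s : State Λ S'} {x y : Let Λ} (h : step x y = some (x, y)) :
    RelOK m' s x y := by
  unfold RelOK
  rw [h]

theorem relOK_some {s : State Λ S'} {x y x' y' : Let Λ} (h : step x y = some (x', y'))
    (h2 : raw2 m' s x y = raw2 m' s x' y') : RelOK m' s x y := by
  unfold RelOK
  rw [h, h2]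

theorem relOK_EB_tgt (s : State Λ S') {e : EK} {x : BK} {a b : Λ} (hc : cons e x = true)
    (h : isTgt e a (x, b)) (hX : x ≠ .X) : RelOK m' s (.E e, a) (.bag true x, b) := by
  have hst := step_EB_tgt hc h hX
  have ht : e.target = some x.ty := h.1
  cases e with
  | home => simp [EK.target] at ht
  | N φ => simp [EK.target] at ht
  | T t u =>
    apply relOK_same
    rw [hst]
    simp [ruleTgt, Rule.stay, RD.eval, AC.eval]
  | G φ =>
    simp only [EK.target, Option.some.injEq] at ht
    by_cases h0 : φ = 0 ∧ x = .H .l
    · apply relOK_same
      rw [hst]
      simp [ruleTgt, h0, Rule.stay, RD.eval, AC.eval]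
    · by_cases ha : a = z
      · subst ha
        refine relOK_some m' (x' := (.E (.K φ), b)) (y' := (.bag true x.out, z)) ?_ ?_
        · rw [hst]
          simp [ruleTgt, h0, RD.eval, AC.eval]
        · exact raw2_EB_congr m' s (by simp) (by simp) (fun y => passes_GK φ _ _ y)
            fun p w r => EB_G m' φ p w r b ht.symm hc h0
      · apply relOK_none
        · rw [hst]
          simp [ruleTgt, h0, RD.eval, ha]
        · exact raw2_EB_zero m' s (by simp) fun p w r => EB_G0 m' φ p w r _ ha
  | K φ =>
    simp only [EK.target, Option.some.injEq] at ht
    by_cases hb : b = z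
    · apply relOK_same
      rw [hst]
      simp [ruleTgt, RD.eval, AC.eval, hb]
    · apply relOK_none
      · rw [hst]
        simp [ruleTgt, RD.eval, hb]
      · exact raw2_EB_zero m' s (by simp) fun p w r => EB_K0 m' φ p w r ht.symm hb
  | P φ =>
    simp only [EK.target, Option.some.injEq] at ht
    by_cases hb : b = z
    · subst hb
      refine relOK_some m' (x' := (.E (.R φ), z)) (y' := (.bag true (x.inn φ), a)) ?_ ?_
      · rw [hst]
        simp [ruleTgt, RD.eval, AC.eval]
      · exact raw2_EB_congr m' s (by simp) (by simp) (fun y => passes_PR φ _ _ y)
          fun p w r => EB_P m' φ p w r a ht.symm hc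
    · apply relOK_none
      · rw [hst]
        simp [ruleTgt, RD.eval, hb]
      · exact raw2_EB_zero m' s (by simp) fun p w r => EB_P0 m' φ p w r ht.symm hb
  | R φ =>
    simp only [EK.target, Option.some.injEq] at ht
    by_cases ha : a = z
    · apply relOK_same
      rw [hst]
      simp [ruleTgt, RD.eval, AC.eval, ha]
    · apply relOK_none
      · rw [hst]
        simp [ruleTgt, RD.eval, ha]
      · exact raw2_EB_zero m' s (by simp) fun p w r => EB_R0 m' φ p w r _ ha

theorem relOK_EB (s : State Λ S') (e : EK) (u : Bool) (x : BK) (a b : Λ) :
    RelOK m' s (.E e, a) (.bag u x, b) := by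
  cases u with
  | false => exact relOK_none m' (step_EB_false e x a b) (raw2_EB_false m' s e x a b)
  | true =>
    by_cases hc : cons e x = true
    · by_cases hm : e.moving = true
      · by_cases hp : passes e a (x, b) = true
        · exact relOK_some m' (step_EB_pass hp) (raw2_EB_pass m' s hp)
        · have ht : isTgt e a (x, b) := by
            simp only [passes, hm, hc, Bool.and_self, Bool.true_and] at hp
            by_cases h1 : e.target = some x.ty
            · refine ⟨h1, fun hx => ?_⟩
              simp only [h1, if_true, Bool.and_eq_true, decide_eq_true_eq, not_and] at hp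
              by_contra h2
              exact hp hx h2
            · simp [h1] at hp
          by_cases hX : x = .X
          · subst hX
            exact relOK_same m' (step_EB_tgtX ht)
          · exact relOK_EB_tgt m' s hc ht hX
      · exact relOK_same m' (step_EB_nm hc (by simpa using hm) a b)
    · exact relOK_none m' (step_EB_cons (by simpa using hc) a b)
        (raw2_EB_cons m' s (by simpa using hc))

theorem relOK_BB (s : State Λ S') (u : Bool) (x : BK) (a : Λ) (t : Bool) (y : BK) (b : Λ) :
    RelOK m' s (.bag u x, a) (.bag t y, b) := by
  by_cases h : u = t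
  · subst h
    by_cases h2 : slot (x, a) = slot (y, b)
    · exact relOK_none m' (step_BB_same u h2) (raw2_BB_same m' u s h2)
    · exact relOK_some m' (step_BB_diff u h2) (raw2_BB_comm m' u s x y a b)
  · exact relOK_none m' (step_BB_ne h x y a b) (raw2_BB_ne m' h s x y a b)

theorem relOK_BE (s : State Λ S') (u : Bool) (x : BK) (a : Λ) (e : EK) (b : Λ) :
    RelOK m' s (.bag u x, a) (.E e, b) := by
  cases u with
  | true => exact relOK_none m' (step_BE_true x e a b) (raw2_BE_true m' s x e a b)
  | false =>
    by_cases hp : passes e b (x, a) = true
    · apply relOK_same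
      rw [step_BE, if_pos hp]
    · apply relOK_none m' _ (raw2_BE m' s hp)
      rw [step_BE, if_neg hp]

theorem raw2_EE (s : State Λ S') (e e' : EK) (a b : Λ) :
    raw2 m' s (.E e, a) (.E e', b) = none := by
  unfold raw2
  cases s with
  | wl p w r P =>
    simp only [raw]
    split_ifs
    · cases rdM m' ((ini m' p w r e a).map start) P <;> rfl
    · rfl
  | pn φ F =>
    cases e <;> try rfl
    simp only [raw]
    split_ifs <;> rfl
  | af c => rfl

theorem toPrev_start (σ : Af Λ S') : toPrev (start σ) = none := by
  unfold toPrev
  rw [if_neg]
  rintro ⟨_, h, _⟩
  simp [start] at h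

theorem raw2_EW (s : State Λ S') (e : EK) (w' : WK) (a b : Λ) :
    raw2 m' s (.E e, a) (.W w', b) = none := by
  unfold raw2
  cases s with
  | wl p w r P =>
    simp only [raw]
    split_ifs with hP
    · cases h1 : ini m' p w r e a with
      | none => rw [Option.map_none, rdM_none]; rfl
      | some σ =>
        rw [Option.map_some]
        cases h2 : rdM m' (some (start σ)) P with
        | none => rfl
        | some c =>
          simp only [Option.map_some, Option.bind_some]
          have hno : toPrev c = none := by
            unfold toPrev
            rw [if_neg]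
            rintro ⟨hx, hh, h0, h1'⟩
            obtain ⟨i1, i2, i3⟩ := rdM_has m' P _ _ h2
            have hst : ∀ s, ¬ (start σ : Afs Λ S').has s := by
              rintro (t | _ | j) hs
              · simp [start, Afs.has] at hs
              · simp [start, Afs.has] at hs
              · cases j <;> simp [start, Afs.has] at hs
            have hall : ∀ s : Slot Λ, ∃ x ∈ P, slot x = s := by
              intro s
              have : c.has s := by
                rcases s with t | _ | j
                · simp [Afs.has, hx]
                · exact hh
                · cases j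
                  · exact h0
                  · exact h1'
              rcases i1 s this with h | h
              · exact absurd h (hst s)
              · exact h
            obtain ⟨x, hxP, hxs⟩ := hall .H
            have hm : e.moving = true := by
              have := hP x hxP
              simp only [passes, Bool.and_eq_true] at this
              exact this.1.1
            obtain ⟨t, ht⟩ := Option.isSome_iff_exists.1 hm
            cases t with
            | X =>
              obtain ⟨y, hyP, hys⟩ := hall (.X a)
              have := hP y hyP
              obtain ⟨k, c⟩ := y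
              cases k with
              | X =>
                simp only [slot, Slot.X.injEq] at hys
                subst hys
                simp [passes, ht, BK.ty] at this
              | H m => simp [slot] at hys
              | Y j o => simp [slot] at hys
            | H =>
              obtain ⟨y, hyP, hys⟩ := hall .H
              have := hP y hyP
              obtain ⟨k, c⟩ := y
              cases k with
              | X => simp [slot] at hys
              | H m => simp [passes, ht, BK.ty] at this
              | Y j o => simp [slot] at hys
            | Y j =>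
              obtain ⟨y, hyP, hys⟩ := hall (.Y j)
              have := hP y hyP
              obtain ⟨k, c⟩ := y
              cases k with
              | X => simp [slot] at hys
              | H m => simp [slot] at hys
              | Y j' o =>
                simp only [slot, Slot.Y.injEq] at hys
                subst hys
                simp [passes, ht, BK.ty] at this
          rw [hno]; rfl
    · rfl
  | pn φ F =>
    cases e <;> try rfl
    simp only [raw]
    split_ifs
    · simp only [Option.bind_some, toPrev_start]
      rfl
    · rfl
  | af c => rfl

theorem relOK_WB (s : State Λ S') (w : WK) (a : Λ) (u : Bool) (x : BK) (b : Λ) :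
    RelOK m' s (.W w, a) (.bag u x, b) := by
  cases u with
  | true =>
    apply relOK_none m' (step_WB_true w x a b)
    unfold raw2
    cases s with
    | wl p w r P => rfl
    | pn φ F => rfl
    | af c =>
      simp only [raw]
      cases toPrev c with
      | none => rfl
      | some p =>
        simp only [Option.bind_some, rdW]
        split_ifs
        · cases w <;> rfl
        · rfl
  | false =>
    by_cases hp : pas w = true
    · apply relOK_same
      rw [step_WB, if_pos hp]
    · apply relOK_none
      · rw [step_WB, if_neg hp]
      · unfold raw2
        cases s with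
        | wl p w r P => rfl
        | pn φ F => rfl
        | af c =>
          simp only [raw]
          cases toPrev c with
          | none => rfl
          | some p =>
            simp only [Option.bind_some, rdW]
            split_ifs
            · cases w <;> first | rfl | simp [pas] at hp | (simp only [Option.bind_some, raw]; rw [if_neg]; rintro ⟨h, _⟩; exact absurd h (by simp [pas]))
            · rfl

theorem raw2_WW (s : State Λ S') (w w' : WK) (a b : Λ) :
    raw2 m' s (.W w, a) (.W w', b) = none := by
  unfold raw2
  cases s with
  | wl p w r P => rfl
  | pn φ F => rfl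
  | af c =>
    simp only [raw]
    cases toPrev c with
    | none => rfl
    | some p =>
      simp only [Option.bind_some, rdW]
      split_ifs
      · cases w <;> rfl
      · rfl

/-- wall and head -/
theorem raw2_WE (c : Afs Λ S') (w : WK) (r : Λ) (e : EK) (b : Λ) :
    raw2 m' (.af c) (.W w, r) (.E e, b) =
      (toPrev c).bind fun p => (ini m' p w r e b).map fun σ => .af (start σ) := by
  unfold raw2
  simp only [raw]
  cases toPrev c with
  | none => rfl
  | some p =>
    simp only [Option.bind_some, rdW, ini]
    by_cases hlk : locked w = p.isLk
    · rw [if_pos hlk]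
      simp only [hlk, if_true]
      have hwl : ∀ w : WK, locked w = p.isLk →
          (raw m' (.wl p w r 0) (.E e, b)) = (iniC m' p w r e b).map fun σ => .af (start σ) := by
        intro w hlk
        simp only [raw]
        rw [if_pos (by simp), rdM_zero]
        unfold ini
        rw [if_pos hlk, Option.map_map]
        rfl
      cases w with
      | C φ d =>
        simp only [Option.bind_some]
        cases e with
        | N ψ =>
          simp only [raw, iniC]
          by_cases h : φ = ψ ∧ b = z
          · rw [if_pos h, if_pos h]; rfl
          · rw [if_neg h, if_neg h]; rfl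
        | _ => rfl
      | D φ d =>
        simp only [Option.bind_some]
        cases e with
        | N ψ =>
          simp only [raw, iniC]
          by_cases h : φ = ψ ∧ b = z
          · rw [if_pos h, if_pos h]; rfl
          · rw [if_neg h, if_neg h]; rfl
        | _ => rfl
      | w0 => exact hwl _ hlk
      | A φ d => exact hwl _ hlk
      | B φ d => exact hwl _ hlk
      | S t c => exact hwl _ hlk
    · rw [if_neg hlk]
      simp only [hlk, if_false]
      rfl

end Crest.Agent.R176.Machine.Trans
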