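import Crest.Agent.R176.Machine.Trans655E

/-!
# Row 176, part A: soundness by a transducer model (helper655), part F: walls, contact, the model
-/

set_option autoImplicit false
set_option linter.unusedSectionVars false

namespace Crest.Agent.R176.Machine.Trans

open Crest.Agent.R176 Crest.Agent.R176.Machine

variable {Λ : Type} {S' : Type*}

variable [DecidableEq Λ] [LabelSys Λ] [MonoidWithZero S'] (m' : Gen.Model (step (Λ := Λ × Λ)) S')

/-- the table of walls and heads -/
theorem ini_step (p : Prev Λ S') (w : WK) (r : Λ) (e : EK) (b : Λ) :
    match step (.W w, r) (.E e, b) with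
    | none => ini m' p w r e b = none
    | some q => ∃ w' r' e' b', q = ((.W w', r'), (.E e', b')) ∧
        ini m' p w r e b = ini m' p w' r' e' b' := by
  cases w with
  | w0 =>
    cases e with
    | home =>
      by_cases h : r = z ∧ b = z
      · obtain ⟨rfl, rfl⟩ := h
        simp only [step, rule, ruleWE, RD.eval, AC.eval]
        simp only [ne_eq, not_true_eq_false, or_self, decide_false, Bool.false_eq_true, if_false,
          Option.map_some, Option.bind_some]
        exact ⟨_, _, _, _, rfl, rfl⟩
      · have h' : (decide (r ≠ z ∨ b ≠ z)) = true := by
          simp only [decide_eq_true_eq]; tauto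
        simp only [step, rule, ruleWE, RD.eval, h', if_true, Option.map_none]
        simp [ini, iniC, h]
    | _ => simp [step, rule, ruleWE, RD.eval, Rule.zero, ini, iniC]
  | A φ d =>
    cases e with
    | G ψ =>
      by_cases h1 : φ = ψ
      · subst h1
        by_cases h : r = z ∧ b = z
        · obtain ⟨rfl, rfl⟩ := h
          by_cases h0 : φ = 0
          · subst h0
            simp only [step, rule, ruleWE, RD.eval, AC.eval, if_true]
            simp only [ne_eq, not_true_eq_false, or_self, decide_false, Bool.false_eq_true,
              if_false, Option.map_some, Option.bind_some]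
            refine ⟨_, _, _, _, rfl, ?_⟩
            simp [ini, iniC, locked]
          · simp only [step, rule, ruleWE, RD.eval, AC.eval, if_true, h0, if_false]
            simp only [ne_eq, not_true_eq_false, or_self, decide_false, Bool.false_eq_true,
              if_false, Option.map_some, Option.bind_some]
            exact ⟨_, _, _, _, rfl, rfl⟩
        · have h' : (decide (r ≠ z ∨ b ≠ z)) = true := by
            simp only [decide_eq_true_eq]; tauto
          by_cases h0 : φ = 0
          · simp only [step, rule, ruleWE, RD.eval, if_true, h0, h', Option.map_none]
            simp [ini, iniC, h]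
          · simp only [step, rule, ruleWE, RD.eval, if_true, h0, if_false, h', Option.map_none]
            simp [ini, iniC, h]
      · simp [step, rule, ruleWE, RD.eval, Rule.zero, ini, iniC, h1]
    | K ψ =>
      by_cases h1 : φ = ψ
      · subst h1
        by_cases h : r = z
        · subst h
          simp only [step, rule, ruleWE, RD.eval, AC.eval, if_true]
          simp only [ne_eq, not_true_eq_false, decide_false, Bool.false_eq_true,
            if_false, Option.map_some, Option.bind_some]
          exact ⟨_, _, _, _, rfl, rfl⟩
        · simp [step, rule, ruleWE, RD.eval, ini, iniC, h]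
      · simp [step, rule, ruleWE, RD.eval, Rule.zero, ini, iniC, h1]
    | _ => simp [step, rule, ruleWE, RD.eval, Rule.zero, ini, iniC]
  | C φ d =>
    cases e with
    | N ψ =>
      by_cases h1 : φ = ψ
      · subst h1
        by_cases h : b = z
        · subst h
          simp only [step, rule, ruleWE, RD.eval, AC.eval, if_true]
          simp only [ne_eq, not_true_eq_false, decide_false, Bool.false_eq_true,
            if_false, Option.map_some, Option.bind_some]
          refine ⟨_, _, _, _, rfl, ?_⟩
          simp [ini, iniC, locked]
        · simp [step, rule, ruleWE, RD.eval, ini, iniC, h]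
      · simp [step, rule, ruleWE, RD.eval, Rule.zero, ini, iniC, h1]
    | _ => simp [step, rule, ruleWE, RD.eval, Rule.zero, ini, iniC]
  | D φ d =>
    cases e with
    | N ψ =>
      by_cases h1 : φ = ψ
      · subst h1
        by_cases h : b = z
        · subst h
          simp only [step, rule, ruleWE, RD.eval, AC.eval, if_true]
          simp only [ne_eq, not_true_eq_false, decide_false, Bool.false_eq_true,
            if_false, Option.map_some, Option.bind_some]
          refine ⟨_, _, _, _, rfl, ?_⟩
          simp [ini, iniC, locked]
        · simp [step, rule, ruleWE, RD.eval, ini, iniC, h]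
      · simp [step, rule, ruleWE, RD.eval, Rule.zero, ini, iniC, h1]
    | _ => simp [step, rule, ruleWE, RD.eval, Rule.zero, ini, iniC]
  | B φ d =>
    cases e with
    | P ψ =>
      by_cases h1 : φ = ψ
      · subst h1
        by_cases h : r = z
        · subst h
          simp only [step, rule, ruleWE, RD.eval, AC.eval, if_true]
          simp only [ne_eq, not_true_eq_false, decide_false, Bool.false_eq_true,
            if_false, Option.map_some, Option.bind_some]
          exact ⟨_, _, _, _, rfl, rfl⟩
        · simp [step, rule, ruleWE, RD.eval, ini, iniC, h]
      · simp [step, rule, ruleWE, RD.eval, Rule.zero, ini, iniC, h1]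
    | R ψ =>
      by_cases h1 : φ = ψ
      · subst h1
        by_cases h : r = z ∧ b = z
        · obtain ⟨rfl, rfl⟩ := h
          by_cases h0 : φ = 10
          · subst h0
            simp only [step, rule, ruleWE, RD.eval, AC.eval, if_true]
            simp only [ne_eq, not_true_eq_false, or_self, decide_false, Bool.false_eq_true,
              if_false, Option.map_some, Option.bind_some]
            refine ⟨_, _, _, _, rfl, ?_⟩
            simp [ini, iniC, locked]
          · simp only [step, rule, ruleWE, RD.eval, AC.eval, if_true, h0, if_false]
            simp only [ne_eq, not_true_eq_false, or_self, decide_false, Bool.false_eq_true,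
              if_false, Option.map_some, Option.bind_some]
            refine ⟨_, _, _, _, rfl, ?_⟩
            have h1 : φ + 1 ≠ 0 := by revert h0; revert φ; decide
            have h2 : (φ + 1).val = φ.val + 1 := by revert h0; revert φ; decide
            simp [ini, iniC, locked, h0, h1, h2]
        · have h' : (decide (r ≠ z ∨ b ≠ z)) = true := by
            simp only [decide_eq_true_eq]; tauto
          by_cases h0 : φ = 10
          · simp only [step, rule, ruleWE, RD.eval, if_true, h0, h', Option.map_none]
            simp [ini, iniC, h]
          · simp only [step, rule, ruleWE, RD.eval, if_true, h0, if_false, h', Option.map_none]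
            simp [ini, iniC, h]
      · simp [step, rule, ruleWE, RD.eval, Rule.zero, ini, iniC, h1]
    | _ => simp [step, rule, ruleWE, RD.eval, Rule.zero, ini, iniC]
  | S t c =>
    cases e with
    | T t' busy =>
      by_cases h1 : t = t' ∧ ctxOK c busy = true
      · obtain ⟨rfl, h2⟩ := h1
        by_cases hX : t = .X
        · subst hX
          by_cases h : r = z
          · subst h
            simp only [step, rule, ruleWE, RD.eval, AC.eval, h2, and_self, if_true]
            simp only [ne_eq, not_true_eq_false, decide_false, Bool.false_eq_true,
              if_false, Option.map_some, Option.bind_some]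
            refine ⟨_, _, _, _, rfl, ?_⟩
            rcases c with _ | ⟨φ, d⟩
            · cases busy <;> simp_all [ctxOK, ini, iniC, locked, homeW, homeE]
            · cases busy <;> simp_all [ctxOK, ini, iniC, locked, homeW, homeE]
          · simp only [step, rule, ruleWE, RD.eval, h2, and_self, if_true, ne_eq, h,
              not_false_eq_true, decide_true, Option.map_none]
            rcases c with _ | ⟨φ, d⟩ <;> simp [ini, iniC, h]
        · by_cases h : r = z ∧ b = z
          · obtain ⟨rfl, rfl⟩ := h
            simp only [step, rule, ruleWE, RD.eval, AC.eval, h2, and_self, if_true, hX, if_false]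
            simp only [ne_eq, not_true_eq_false, or_self, decide_false, Bool.false_eq_true,
              if_false, Option.map_some, Option.bind_some]
            refine ⟨_, _, _, _, rfl, ?_⟩
            rcases c with _ | ⟨φ, d⟩
            · cases busy <;> simp_all [ctxOK, ini, iniC, locked, homeW, homeE]
            · cases busy <;> simp_all [ctxOK, ini, iniC, locked, homeW, homeE]
          · have h' : (decide (r ≠ z ∨ b ≠ z)) = true := by
              simp only [decide_eq_true_eq]; tauto
            simp only [step, rule, ruleWE, RD.eval, h2, and_self, if_true, hX, if_false, h',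
              Option.map_none]
            rcases c with _ | ⟨φ, d⟩ <;> simp [ini, iniC, h, hX]
      · have : step ((.W (.S t c), r) : Let Λ) (.E (.T t' busy), b) = none := by
          simp only [step, rule, ruleWE, h1, if_false]
          simp [Rule.zero, RD.eval]
        rw [this]
        rcases c with _ | ⟨φ, d⟩
        · simp only [ctxOK, Bool.not_eq_true'] at h1
          simp only [ini, iniC]
          by_cases hl : locked (.S t none) = p.isLk
          · rw [if_pos hl, if_neg (fun h => h1 ⟨h.1, h.2.1⟩)]
          · rw [if_neg hl]
        · simp only [ctxOK, Bool.and_eq_true, decide_eq_true_eq] at h1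
          simp only [ini, iniC]
          by_cases hl : locked (.S t (some (φ, d))) = p.isLk
          · rw [if_pos hl, if_neg (fun h => h1 ⟨h.1, h.2.1, h.2.2.1⟩)]
          · rw [if_neg hl]
    | _ =>
      rcases c with _ | ⟨φ, d⟩ <;> simp [step, rule, ruleWE, RD.eval, Rule.zero, ini, iniC]

variable [Fintype Λ]

theorem relOK_WE (s : State Λ S') (w : WK) (r : Λ) (e : EK) (b : Λ) :
    RelOK m' s (.W w, r) (.E e, b) := by
  unfold RelOK
  cases s with
  | wl p w' r' P =>
    have h := ini_step m' (.full 0 : Prev Λ S') w r e b
    cases hs : step (.W w, r) (.E e, b) with
    | none => rfl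
    | some q =>
      rw [hs] at h
      obtain ⟨w', r', e', b', rfl, _⟩ := h
      rfl
  | pn φ F =>
    have h := ini_step m' (.full 0 : Prev Λ S') w r e b
    cases hs : step (.W w, r) (.E e, b) with
    | none => rfl
    | some q =>
      rw [hs] at h
      obtain ⟨w', r', e', b', rfl, _⟩ := h
      rfl
  | af c =>
    rw [raw2_WE]
    cases hs : step (.W w, r) (.E e, b) with
    | none =>
      cases toPrev c with
      | none => rfl
      | some p =>
        have h := ini_step m' p w r e b
        rw [hs] at h
        simp only [Option.bind_some]
        simp only at h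
        rw [h]
        rfl
    | some q =>
      have h := ini_step m' (.full 0 : Prev Λ S') w r e b
      rw [hs] at h
      obtain ⟨w', r', e', b', rfl, _⟩ := h
      simp only [raw2_WE]
      cases toPrev c with
      | none => rfl
      | some p =>
        have h := ini_step m' p w r e b
        rw [hs] at h
        obtain ⟨w'', r'', e'', b'', h1, h2⟩ := h
        simp only [Prod.mk.injEq, KK.W.injEq, KK.E.injEq] at h1
        obtain ⟨⟨rfl, rfl⟩, rfl, rfl⟩ := h1
        simp only [Option.bind_some, h2]

/-! ### contact -/

/-- the contact on labels -/
def ctc (φ : Ph) (d : Data) (a b : Λ) : Option (Data × Λ × Λ) :=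
  if (op φ d).rd.eval a b then (op φ d).g1.map fun d' => (d', a, b)
  else (op φ d).g0.bind fun d' => ((op φ d).ac.eval a b).map fun q => (d', q.1, q.2)

theorem set_get (c : Cont Λ) {t : TT} (h : t ≠ .X) : c.set t (c.get t) = c := by
  rcases t with _ | _ | _ | _
  · exact absurd rfl h
  · rfl
  · rfl
  · rfl

theorem get_set (c : Cont Λ) {t : TT} (h : t ≠ .X) (a : Λ) : (c.set t a).get t = a := by
  rcases t with _ | _ | _ | _
  · exact absurd rfl h
  · rfl
  · rfl
  · rfl

theorem set_set (c : Cont Λ) {t : TT} (a b : Λ) : (c.set t a).set t b = c.set t b := by
  rcases t with _ | _ | _ | _ <;> rfl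

theorem cstep_ctc (φ : Ph) (d : Data) (a b : Cont Λ) :
    cstep φ d a b = (ctc φ d (a.get (tz φ)) (b.get (tz φ))).map fun p =>
      (p.1, a.set (tz φ) p.2.1, b.set (tz φ) p.2.2) := by
  unfold cstep ctc
  by_cases h : (op φ d).rd.eval (a.get (tz φ)) (b.get (tz φ)) = true
  · rw [if_pos h, if_pos h]
    cases (op φ d).g1 with
    | none => rfl
    | some d' =>
      simp only [Option.map_some, set_get _ (tz_ne_X φ)]
  · rw [if_neg h, if_neg h]
    cases (op φ d).g0 with
    | none => rfl
    | some d' =>
      simp only [Option.bind_some]
      cases (op φ d).ac.eval (a.get (tz φ)) (b.get (tz φ)) <;> rfl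

/-- the first remaining phase -/
theorem run_ctc (φ : Ph) (d : Data) (a b : Cont Λ) :
    runL (allPh.drop φ.val) d a b =
      (ctc φ d (a.get (tz φ)) (b.get (tz φ))).bind fun p =>
        runL (allPh.drop (φ.val + 1)) p.1 (a.set (tz φ) p.2.1) (b.set (tz φ) p.2.2) := by
  rw [drop_ph]
  simp only [runL]
  rw [cstep_ctc]
  cases ctc φ d (a.get (tz φ)) (b.get (tz φ)) <;> rfl

theorem contact_step (x x' : BK) (φ : Ph) (d : Data) (a b : Λ)
    (h : rule (.bag true x) (.W (.C φ d)) = contact x x' φ d) :
    step (.bag true x, a) (.W (.C φ d), b) =
      (ctc φ d a b).map fun p => ((.bag true x', p.2.1), (.W (.D φ p.1), p.2.2)) := by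
  unfold step
  rw [h]
  by_cases hr : (op φ d).rd.eval a b = true
  · simp [contact, ctc, hr, Function.comp_def]
  · simp only [contact, ctc, hr, if_false, Bool.false_eq_true]
    cases (op φ d).g0 with
    | none => rfl
    | some d' =>
      simp only [Option.bind_some, Option.map_some]
      cases (op φ d).ac.eval a b <;> rfl

theorem raw2_BW (c : Afs Λ S') (x : BK) (a : Λ) (w : WK) (b : Λ) :
    raw2 m' (.af c) (.bag true x, a) (.W w, b) =
      (rd m' c (x, a)).bind fun c' => (toPrev c').bind fun p => rdW m' p w b := by
  unfold raw2
  simp only [raw]
  cases rd m' c (x, a) <;> rfl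

/-- state of the block after the letter, as far as the next wall is concerned -/
noncomputable def tp (c : Afs Λ S') (x : BK × Λ) : Option (Prev Λ S') :=
  (rd m' c x).bind toPrev

theorem raw2_BW' (c : Afs Λ S') (x : BK) (a : Λ) (w : WK) (b : Λ) :
    raw2 m' (.af c) (.bag true x, a) (.W w, b) = (tp m' c (x, a)).bind fun p => rdW m' p w b := by
  rw [raw2_BW]
  unfold tp
  cases rd m' c (x, a) <;> rfl

theorem rdW_CD (v : S') (A : Cont Λ) (φ : Ph) (d : Data) (b : Λ) (h0 : φ ≠ 0) :
    rdW m' (.lk v A) (.C φ d) b =
      some (.pn φ fun c => v * lts m' (runL (allPh.drop φ.val) d A (c.set (tz φ) b))) := by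
  simp [rdW, locked, Prev.isLk, h0, val]

theorem rdW_D (v : S') (A : Cont Λ) (φ : Ph) (d : Data) (b : Λ) (h0 : φ ≠ 10) :
    rdW m' (.lk v A) (.D φ d) b =
      some (.pn φ fun c => v * lts m' (runL (allPh.drop (φ.val + 1)) d A (c.set (tz φ) b))) := by
  simp [rdW, locked, Prev.isLk, h0, val]

/-- contact with a locked block, the wall stays locked -/
theorem contact_lk (v : S') (A : Cont Λ) {φ : Ph} (h0 : φ ≠ 0) (h10 : φ ≠ 10) (d : Data)
    (a b : Λ) :
    norm (rdW m' (.lk v (A.set (tz φ) a)) (.C φ d) b) =
      match ctc φ d a b with
      | none => none
      | some p => norm (rdW m' (.lk v (A.set (tz φ) p.2.1)) (.D φ p.1) p.2.2) := by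
  have hr : ∀ c : Cont Λ, runL (allPh.drop φ.val) d (A.set (tz φ) a) (c.set (tz φ) b) =
      (ctc φ d a b).bind fun p =>
        runL (allPh.drop (φ.val + 1)) p.1 (A.set (tz φ) p.2.1) (c.set (tz φ) p.2.2) := by
    intro c
    rw [run_ctc, get_set _ (tz_ne_X φ), get_set _ (tz_ne_X φ)]
    simp only [set_set]
  rw [rdW_CD m' v _ φ d b h0]
  simp only [hr]
  cases hc : ctc φ d a b with
  | none =>
    apply norm_dead
    intro s hs
    simp only [Option.some.injEq] at hs
    subst hs
    intro c
    simp
  | some p =>
    simp only [Option.bind_some]
    rw [rdW_D m' v _ φ p.1 p.2.2 h10]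

/-- contact of the phase `10`: the left block gets free -/
theorem contact_10 (v : S') (A : Cont Λ) (d : Data) (a b : Λ) :
    norm (rdW m' (.lk v (A.set .H a)) (.C 10 d) b) =
      match ctc 10 d a b with
      | none => none
      | some p => norm (rdW m' (.full (v * lt m' (A.set .H p.2.1))) (.D 10 p.1) p.2.2) := by
  have hr : ∀ c : Cont Λ, runL (allPh.drop (10 : Ph).val) d (A.set .H a) (c.set (tz 10) b) =
      (ctc 10 d a b).bind fun p => some (A.set .H p.2.1, c.set .H p.2.2) := by
    intro c
    rw [run_ctc, tz10, get_set _ (by decide), get_set _ (by decide)]
    simp only [set_set]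
    rfl
  rw [rdW_CD m' v _ 10 d b (by decide)]
  simp only [hr]
  cases hc : ctc 10 d a b with
  | none =>
    apply norm_dead
    intro s hs
    simp only [Option.some.injEq] at hs
    subst hs
    intro c
    simp
  | some p =>
    simp only [Option.bind_some]
    congr 1
    simp only [rdW, locked, Prev.isLk, val]
    simp [tz10, mul_assoc]

/-- contact of the phase `0`: the left block is locked -/
theorem contact_0 (v : S') (A : Cont Λ) (d : Data) (a b : Λ) :
    norm (rdW m' (.full (v * lt m' (A.set .H a))) (.C 0 d) b) =
      match ctc 0 d a b with
      | none => none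
      | some p => norm (rdW m' (.lk v (A.set .H p.2.1)) (.D 0 p.1) p.2.2) := by
  have hr : ∀ c : Cont Λ, lt m' (A.set .H a) * lt m' (c.set .H b) = lts m'
      ((ctc 0 d a b).bind fun p =>
        runL (allPh.drop 1) p.1 (A.set .H p.2.1) (c.set .H p.2.2)) := by
    intro c
    rw [← lts_run m' d]
    have := run_ctc 0 d (A.set .H a) (c.set .H b)
    rw [show allPh.drop (0 : Ph).val = allPh from rfl, show tz 0 = .H from rfl,
      get_set _ (by decide), get_set _ (by decide)] at this
    rw [this]
    simp only [set_set]
    rfl
  have h1 : rdW m' (.full (v * lt m' (A.set .H a))) (.C 0 d) b =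
      some (.pn 0 fun c => v * lt m' (A.set .H a) * lt m' (c.set .H b)) := by
    simp only [rdW, locked, Prev.isLk, val]
    rfl
  rw [h1]
  simp only [mul_assoc, hr]
  cases hc : ctc 0 d a b with
  | none =>
    apply norm_dead
    intro s hs
    simp only [Option.some.injEq] at hs
    subst hs
    intro c
    simp
  | some p =>
    simp only [Option.bind_some]
    rw [rdW_D m' v _ 0 p.1 p.2.2 (by decide)]
    rfl

/-- complete up to the letter `H` -/
def cH (c : Afs Λ S') : Prop := c.sx = Finset.univ ∧ c.sh = false ∧ c.s0 = true ∧ c.s1 = true

open Classical in
theorem tp_H (c : Afs Λ S') (m : HM) (a : Λ) :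
    tp m' c (.H m, a) = if cH c then
      (match c.σ, m with
      | .idl v C, .f => some (.full (v * lt m' (C.set .H a)))
      | .idl v C, .l => some (.lk v (C.set .H a))
      | .fr F, .b => some (.full (F (c0.set .H a)))
      | .out φ F, .o => if tz φ = .H ∧ a = z then some (.full (F c0)) else none
      | _, _ => none) else none := by
  unfold tp cH
  obtain ⟨σ, sx, sh, s0, s1⟩ := c
  cases sh with
  | true => simp [rd]
  | false =>
    cases s0 with
    | false =>
      simp only [rd]
      cases rdH m' false s1 σ m a <;> simp [toPrev]
    | true =>
      cases s1 with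
      | false =>
        simp only [rd]
        cases rdH m' true false σ m a <;> simp [toPrev]
      | true =>
        by_cases hx : sx = Finset.univ
        · subst hx
          simp only [rd, Bool.false_eq_true, if_false, and_self, if_true]
          cases σ with
          | idl v C => cases m <;> simp [rdH, toPrev, Cont.set]
          | lk v C => cases m <;> simp [rdH, toPrev]
          | fr F => cases m <;> simp [rdH, toPrev]
          | out φ F =>
            cases m <;> simp only [rdH, Option.map_none, Option.bind_none]
            · by_cases h : tz φ = .H
              · simp [h]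
              · simp [h, toPrev]
            · by_cases h : tz φ = .H ∧ a = z
              · simp [h, toPrev]
              · rw [if_neg h, if_neg h]; rfl
        · simp only [rd, hx, false_and, if_false]
          cases rdH m' true true σ m a <;> simp [toPrev, hx]

/-- complete up to the letter `Y j` -/
def cY (j : Bool) (c : Afs Λ S') : Prop :=
  c.sx = Finset.univ ∧ c.sh = true ∧ c.s0 = j ∧ c.s1 = !j

open Classical in
theorem tp_Y (c : Afs Λ S') (j : Bool) (a : Λ) :
    tp m' c (.Y j false, a) = if cY j c then
      (match c.σ with
      | .lk v C => some (.lk v (C.set (.Y j) a))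
      | .fr F => some (.full (F (c0.set (.Y j) a)))
      | _ => none) else none := by
  unfold tp cY
  obtain ⟨σ, sx, sh, s0, s1⟩ := c
  by_cases hx : sx = Finset.univ
  · subst hx
    cases j <;> cases sh <;> cases s0 <;> cases s1 <;> cases σ <;>
      simp [rd, rdY, toPrev] <;> split_ifs <;> simp
  · cases j <;> cases sh <;> cases s0 <;> cases s1 <;> cases σ <;>
      simp [rd, rdY, toPrev, hx] <;> split_ifs <;> simp [hx]

theorem rule_H (m : HM) (w : WK) : rule (.bag true (.H m)) (.W w) =
    if (m = .l) ↔ locked w = true then
      match w with
      | .C φ d => if tz φ = .H ∧ (m = .l ∨ (φ = 0 ∧ m = .f)) then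
          contact (.H m) (.H (if φ = 10 then .f else .l)) φ d
          else Rule.stay (.bag true (.H m)) (.W w)
      | _ => Rule.stay (.bag true (.H m)) (.W w)
    else Rule.zero := by
  cases w <;> rfl

theorem step_of_stay {κ κ' : KK} (h : rule κ κ' = Rule.stay κ κ') (a b : Λ) :
    step (κ, a) (κ', b) = some ((κ, a), (κ', b)) := by
  simp [step, h, Rule.stay, RD.eval, AC.eval]

theorem step_of_zero {κ κ' : KK} (h : rule κ κ' = Rule.zero) (a b : Λ) :
    step (κ, a) (κ', b) = none := by
  simp [step, h, Rule.zero, RD.eval]

theorem tp_H_isLk {c : Afs Λ S'} {m : HM} {a : Λ} {p : Prev Λ S'}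
    (h : tp m' c (.H m, a) = some p) : (p.isLk = true ↔ m = .l) := by
  rw [tp_H] at h
  split_ifs at h
  split at h
  all_goals first
    | (simp only [Option.some.injEq] at h; subst h; simp [Prev.isLk]; done)
    | (simp only [reduceCtorEq] at h; done)
    | (split_ifs at h; simp only [Option.some.injEq] at h; subst h; simp [Prev.isLk]; done)

theorem relOK_H (c : Afs Λ S') (m : HM) (a : Λ) (w : WK) (b : Λ) :
    RelOK m' (.af c) (.bag true (.H m), a) (.W w, b) := by
  by_cases hlock : (m = .l) ↔ locked w = true
  · by_cases hC : ∃ φ d, w = .C φ d ∧ tz φ = .H ∧ (m = .l ∨ (φ = 0 ∧ m = .f))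
    · obtain ⟨φ, d, rfl, ht, hm⟩ := hC
      have hrule : rule (.bag true (.H m)) (.W (.C φ d)) =
          contact (.H m) (.H (if φ = 10 then .f else .l)) φ d := by
        rw [rule_H, if_pos hlock]
        simp only
        rw [if_pos ⟨ht, hm⟩]
      have hst := contact_step (.H m) (.H (if φ = 10 then .f else .l)) φ d a b hrule
      unfold RelOK
      rw [hst]
      rcases hm with rfl | ⟨rfl, rfl⟩
      · have h0 : φ ≠ 0 := by
          have := hlock.1 rfl
          simpa [locked] using this
        rw [raw2_BW', tp_H]
        by_cases h10 : φ = 10
        · subst h10
          simp only [if_true]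
          by_cases hc : cH c
          · rw [if_pos hc]
            cases hσ : c.σ with
            | idl v C =>
              simp only [Option.bind_some]
              rw [contact_10]
              cases ctc 10 d a b with
              | none => rfl
              | some p =>
                simp only [Option.map_some]
                rw [raw2_BW', tp_H, if_pos hc, hσ]
                rfl
            | _ =>
              simp only [Option.bind_none]
              cases ctc 10 d a b with
              | none => rfl
              | some p =>
                simp only [Option.map_some]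
                rw [raw2_BW', tp_H, if_pos hc, hσ]
                rfl
          · rw [if_neg hc]
            simp only [Option.bind_none]
            cases ctc 10 d a b with
            | none => rfl
            | some p =>
              simp only [Option.map_some]
              rw [raw2_BW', tp_H, if_neg hc]
              rfl
        · simp only [h10, if_false]
          by_cases hc : cH c
          · rw [if_pos hc]
            cases hσ : c.σ with
            | idl v C =>
              simp only [Option.bind_some]
              have := contact_lk m' v C h0 h10 d a b
              rw [ht] at this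
              rw [this]
              cases ctc φ d a b with
              | none => rfl
              | some p =>
                simp only [Option.map_some]
                rw [raw2_BW', tp_H, if_pos hc, hσ]
                rfl
            | _ =>
              simp only [Option.bind_none]
              cases ctc φ d a b with
              | none => rfl
              | some p =>
                simp only [Option.map_some]
                rw [raw2_BW', tp_H, if_pos hc, hσ]
                rfl
          · rw [if_neg hc]
            simp only [Option.bind_none]
            cases ctc φ d a b with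
            | none => rfl
            | some p =>
              simp only [Option.map_some]
              rw [raw2_BW', tp_H, if_neg hc]
              rfl
      · rw [raw2_BW', tp_H]
        have h10 : (0 : Ph) ≠ 10 := by decide
        simp only [h10, if_false]
        by_cases hc : cH c
        · rw [if_pos hc]
          cases hσ : c.σ with
          | idl v C =>
            simp only [Option.bind_some]
            rw [contact_0]
            cases ctc 0 d a b with
            | none => rfl
            | some p =>
              simp only [Option.map_some]
              rw [raw2_BW', tp_H, if_pos hc, hσ]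
              rfl
          | _ =>
            simp only [Option.bind_none]
            cases ctc 0 d a b with
            | none => rfl
            | some p =>
              simp only [Option.map_some]
              rw [raw2_BW', tp_H, if_pos hc, hσ]
              rfl
        · rw [if_neg hc]
          simp only [Option.bind_none]
          cases ctc 0 d a b with
          | none => rfl
          | some p =>
            simp only [Option.map_some]
            rw [raw2_BW', tp_H, if_neg hc]
            rfl
    · apply relOK_same
      apply step_of_stay
      rw [rule_H, if_pos hlock]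
      cases w with
      | C φ d =>
        simp only
        rw [if_neg]
        exact fun h => hC ⟨φ, d, rfl, h⟩
      | _ => rfl
  · apply relOK_none
    · apply step_of_zero
      rw [rule_H, if_neg hlock]
    · rw [raw2_BW']
      cases h : tp m' c (.H m, a) with
      | none => rfl
      | some p =>
        simp only [Option.bind_some, rdW]
        rw [if_neg]
        intro h2
        apply hlock
        rw [h2]
        exact (tp_H_isLk m' h).symm

theorem rule_Y (j o : Bool) (w : WK) : rule (.bag true (.Y j o)) (.W w) =
    match w with
    | .C φ d => if tz φ = .Y j ∧ o = false then contact (.Y j o) (.Y j o) φ d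
        else Rule.stay (.bag true (.Y j o)) (.W w)
    | _ => Rule.stay (.bag true (.Y j o)) (.W w) := by
  cases w <;> rfl

theorem relOK_Y (c : Afs Λ S') (j o : Bool) (a : Λ) (w : WK) (b : Λ) :
    RelOK m' (.af c) (.bag true (.Y j o), a) (.W w, b) := by
  by_cases hC : ∃ φ d, w = .C φ d ∧ tz φ = .Y j ∧ o = false
  · obtain ⟨φ, d, rfl, ht, rfl⟩ := hC
    have hrule : rule (.bag true (.Y j false)) (.W (.C φ d)) =
        contact (.Y j false) (.Y j false) φ d := by
      rw [rule_Y]
      show (if tz φ = .Y j ∧ false = false then _ else _) = _
      rw [if_pos ⟨ht, rfl⟩]
    have hst := contact_step (.Y j false) (.Y j false) φ d a b hrule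
    have h0 : φ ≠ 0 := by rintro rfl; exact absurd ht (by simp [tz])
    have h10 : φ ≠ 10 := by rintro rfl; exact absurd ht (by simp [tz])
    unfold RelOK
    rw [hst, raw2_BW', tp_Y]
    by_cases hc : cY j c
    · rw [if_pos hc]
      cases hσ : c.σ with
      | lk v C =>
        simp only [Option.bind_some]
        have := contact_lk m' v C h0 h10 d a b
        rw [ht] at this
        rw [this]
        cases ctc φ d a b with
        | none => rfl
        | some p =>
          simp only [Option.map_some]
          rw [raw2_BW', tp_Y, if_pos hc, hσ]
          rfl
      | fr F =>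
        simp only [Option.bind_some]
        have h1 : rdW m' (.full (F (c0.set (.Y j) a))) (.C φ d) b = none := by
          simp [rdW, locked, Prev.isLk, h0]
        rw [h1]
        cases ctc φ d a b with
        | none => rfl
        | some p =>
          simp only [Option.map_some]
          rw [raw2_BW', tp_Y, if_pos hc, hσ]
          simp [rdW, locked, Prev.isLk, h10]
      | _ =>
        simp only [Option.bind_none]
        cases ctc φ d a b with
        | none => rfl
        | some p =>
          simp only [Option.map_some]
          rw [raw2_BW', tp_Y, if_pos hc, hσ]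
          rfl
    · rw [if_neg hc]
      simp only [Option.bind_none]
      cases ctc φ d a b with
      | none => rfl
      | some p =>
        simp only [Option.map_some]
        rw [raw2_BW', tp_Y, if_neg hc]
        rfl
  · apply relOK_same
    apply step_of_stay
    rw [rule_Y]
    cases w with
    | C φ d =>
      simp only
      rw [if_neg]
      exact fun h => hC ⟨φ, d, rfl, h⟩
    | _ => rfl

theorem shape_BW (x : BK) (w : WK) (a b : Λ) (q : Let Λ × Let Λ)
    (h : step (.bag true x, a) (.W w, b) = some q) :
    ∃ x' a' w' b', q = ((.bag true x', a'), (.W w', b')) := by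
  cases x with
  | X =>
    rw [step_of_stay (by cases w <;> rfl)] at h
    simp only [Option.some.injEq] at h
    exact ⟨_, _, _, _, h.symm⟩
  | H m =>
    by_cases hlock : (m = .l) ↔ locked w = true
    · by_cases hC : ∃ φ d, w = .C φ d ∧ tz φ = .H ∧ (m = .l ∨ (φ = 0 ∧ m = .f))
      · obtain ⟨φ, d, rfl, ht, hm⟩ := hC
        have hrule : rule (.bag true (.H m)) (.W (.C φ d)) =
            contact (.H m) (.H (if φ = 10 then .f else .l)) φ d := by
          rw [rule_H, if_pos hlock]
          simp only
          rw [if_pos ⟨ht, hm⟩]
        rw [contact_step _ _ φ d a b hrule] at h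
        obtain ⟨p, _, rfl⟩ := Option.map_eq_some_iff.1 h
        exact ⟨_, _, _, _, rfl⟩
      · rw [step_of_stay] at h
        · simp only [Option.some.injEq] at h
          exact ⟨_, _, _, _, h.symm⟩
        · rw [rule_H, if_pos hlock]
          cases w with
          | C φ d =>
            simp only
            rw [if_neg]
            exact fun h => hC ⟨φ, d, rfl, h⟩
          | _ => rfl
    · rw [step_of_zero (by rw [rule_H, if_neg hlock])] at h
      exact absurd h (by simp)
  | Y j o =>
    by_cases hC : ∃ φ d, w = .C φ d ∧ tz φ = .Y j ∧ o = false
    · obtain ⟨φ, d, rfl, ht, rfl⟩ := hC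
      have hrule : rule (.bag true (.Y j false)) (.W (.C φ d)) =
          contact (.Y j false) (.Y j false) φ d := by
        rw [rule_Y]
        show (if tz φ = .Y j ∧ false = false then _ else _) = _
        rw [if_pos ⟨ht, rfl⟩]
      rw [contact_step _ _ φ d a b hrule] at h
      obtain ⟨p, _, rfl⟩ := Option.map_eq_some_iff.1 h
      exact ⟨_, _, _, _, rfl⟩
    · rw [step_of_stay] at h
      · simp only [Option.some.injEq] at h
        exact ⟨_, _, _, _, h.symm⟩
      · rw [rule_Y]
        cases w with
        | C φ d =>
          simp only
          rw [if_neg]
          exact fun h => hC ⟨φ, d, rfl, h⟩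
        | _ => rfl

theorem relOK_BW (s : State Λ S') (u : Bool) (x : BK) (a : Λ) (w : WK) (b : Λ) :
    RelOK m' s (.bag u x, a) (.W w, b) := by
  cases u with
  | false =>
    apply relOK_none m' (step_BW_false x w a b)
    unfold raw2
    cases s with
    | wl p w r P =>
      simp only [raw]
      split_ifs <;> rfl
    | pn φ F => rfl
    | af c => rfl
  | true =>
    cases s with
    | af c =>
      cases x with
      | X =>
        apply relOK_same
        apply step_of_stay
        simp only [rule, ruleBW, if_true]
      | H m => exact relOK_H m' c m a w b
      | Y j o => exact relOK_Y m' c j o a w b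
    | _ =>
      -- nothing can be read
      unfold RelOK
      cases h : step (.bag true x, a) (.W w, b) with
      | none => rfl
      | some q =>
        obtain ⟨x', a', w', b', rfl⟩ := shape_BW x w a b q h
        rfl

/-- all relations hold -/
theorem relOK (s : State Λ S') (x y : Let Λ) : RelOK m' s x y := by
  obtain ⟨κ, a⟩ := x
  obtain ⟨κ', b⟩ := y
  cases κ with
  | bag u x =>
    cases κ' with
    | bag t y => exact relOK_BB m' s u x a t y b
    | E e => exact relOK_BE m' s u x a e b
    | W w => exact relOK_BW m' s u x a w b
  | E e =>
    cases κ' with
    | bag t y => exact relOK_EB m' s e t y a b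
    | E e' => exact relOK_none m' (step_EE e e' a b) (raw2_EE m' s e e' a b)
    | W w => exact relOK_none m' (step_EW e w a b) (raw2_EW m' s e w a b)
  | W w =>
    cases κ' with
    | bag t y => exact relOK_WB m' s w a t y b
    | E e => exact relOK_WE m' s w a e b
    | W w' => exact relOK_none m' (step_WW w w' a b) (raw2_WW m' s w w' a b)

/-- **the transducer model** -/
noncomputable def model : Gen.Model (step (Λ := Λ)) (Act (State Λ S')) where
  f := tr m'
  rel x y := by
    funext s
    rw [tr2]
    have h := relOK m' s x y
    unfold RelOK at h
    rw [h]
    cases step x y with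
    | none => rfl
    | some p => simp only [tr2]

end Crest.Agent.R176.Machine.Trans
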